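import Vale.Agent.P353.AN.G.Stmt
import Vale.Agent.P353.Z.U.Grp
import Vale.Agent.P353.Z.U.GrpExp
import Vale.Agent.P353.Z.U.MAd
import Vale.Agent.P353.Z.U.MSet

/-! # P353, all `N`, block G: G22, `SU(N)` acts by linear isometries, jointly continuously -/

open MeasureTheory Filter Topology
open scoped ContDiff

namespace Vale.Agent.P353.AN.G

open Vale.Agent.P353.Z Vale.Agent.P353.Z.U

section Act

variable {N d : ℕ} {F : Type*} [NormedAddCommGroup F] [InnerProductSpace ℂ F]

/-- the adjoint matrix of `U` -/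
noncomputable def actO (M : BFSS.Model N d F) (U : BFSS.SU N) : Matrix (Fin d) (Fin d) ℝ :=
  Matrix.of fun B A => BFSS.adCoeff M.T U B A

theorem act_eq_ro (M : BFSS.Model N d F) (U : BFSS.SU N) (x : Cfg d) :
    M.act U x = ro (actO M U) x := rfl

/-- the coefficients of the adjoint action are real traces -/
theorem act_real (M : BFSS.Model N d F) (U : BFSS.SU N) (B A : Fin d) :
    (M.T B * (U.val * M.T A * U.val.conjTranspose)).trace =
      ((BFSS.adCoeff M.T U B A : ℝ) : ℂ) := by
  unfold BFSS.adCoeff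
  symm
  rw [← Complex.conj_eq_iff_re]
  have h1 : (M.T B * (U.val * M.T A * U.val.conjTranspose)).conjTranspose.trace =
      star (M.T B * (U.val * M.T A * U.val.conjTranspose)).trace :=
    Matrix.trace_conjTranspose _
  rw [Matrix.conjTranspose_mul, Matrix.conjTranspose_mul, Matrix.conjTranspose_mul,
    Matrix.conjTranspose_conjTranspose, M.T_hermitian, M.T_hermitian, ← Matrix.mul_assoc U.val,
    Matrix.trace_mul_comm] at h1
  exact h1.symm

theorem act_unit (V : BFSS.SU N) : V.val.conjTranspose * V.val = 1 :=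
  (Unitary.mem_iff.1 (Matrix.mem_specialUnitaryGroup_iff.1 V.2).1).1

/-- `V T_A V* = ∑ ad(V)_{CA} T_C` -/
theorem act_conj (M : BFSS.Model N d F) (hN : 0 < N) (V : BFSS.SU N) (A : Fin d) :
    V.val * M.T A * V.val.conjTranspose = ∑ C, ((BFSS.adCoeff M.T V C A : ℝ) : ℂ) • M.T C := by
  have h := mad_complete M hN (V.val * M.T A * V.val.conjTranspose)
  have ht : (V.val * M.T A * V.val.conjTranspose).trace = 0 := by
    rw [Matrix.trace_mul_comm, ← Matrix.mul_assoc, act_unit, one_mul, M.T_traceless]
  rw [ht, zero_div, zero_smul, add_zero] at h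
  rw [h]
  refine Finset.sum_congr rfl fun C _ => ?_
  rw [act_real]

/-- the adjoint representation is multiplicative -/
theorem act_ad_mul (M : BFSS.Model N d F) (U V : BFSS.SU N) (B A : Fin d) :
    BFSS.adCoeff M.T (U * V) B A =
      ∑ C, BFSS.adCoeff M.T U B C * BFSS.adCoeff M.T V C A := by
  rcases Nat.eq_zero_or_pos N with hN | hN
  · have hd : d = 0 := by rw [M.dim_eq, hN]; rfl
    subst hd
    exact B.elim0
  · have h1 : (U * V).val * M.T A * (U * V).val.conjTranspose =
        ∑ C, ((BFSS.adCoeff M.T V C A : ℝ) : ℂ) • (U.val * M.T C * U.val.conjTranspose) := by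
      have e : (U * V).val * M.T A * (U * V).val.conjTranspose =
          U.val * (V.val * M.T A * V.val.conjTranspose) * U.val.conjTranspose := by
        show U.val * V.val * M.T A * (U.val * V.val).conjTranspose = _
        rw [Matrix.conjTranspose_mul]
        simp only [Matrix.mul_assoc]
      rw [e, act_conj M hN V A, Finset.mul_sum, Finset.sum_mul]
      refine Finset.sum_congr rfl fun C _ => ?_
      rw [Matrix.mul_smul, Matrix.smul_mul]
    have h2 : ((BFSS.adCoeff M.T (U * V) B A : ℝ) : ℂ) =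
        ((∑ C, BFSS.adCoeff M.T U B C * BFSS.adCoeff M.T V C A : ℝ) : ℂ) := by
      rw [← act_real M (U * V) B A, h1, Finset.mul_sum, Matrix.trace_sum]
      push_cast
      refine Finset.sum_congr rfl fun C _ => ?_
      rw [Matrix.mul_smul, Matrix.trace_smul, act_real, smul_eq_mul, mul_comm]
    exact_mod_cast h2

theorem actO_mul (M : BFSS.Model N d F) (U V : BFSS.SU N) :
    actO M (U * V) = actO M U * actO M V := by
  ext B A
  rw [Matrix.mul_apply]
  exact act_ad_mul M U V B A

theorem actO_one (M : BFSS.Model N d F) : actO M (1 : BFSS.SU N) = 1 := by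
  ext B A
  have h : actO M (1 : BFSS.SU N) B A = (M.T B * M.T A).trace.re := by
    show (M.T B * ((1 : BFSS.SU N).val * M.T A * (1 : BFSS.SU N).val.conjTranspose)).trace.re = _
    have : (1 : BFSS.SU N).val = 1 := rfl
    rw [this, one_mul, Matrix.conjTranspose_one, mul_one]
  rw [h, M.T_orthonormal, Matrix.one_apply]
  split_ifs <;> simp

theorem actO_mem (M : BFSS.Model N d F) (S : Setup d F) (hS : Rep M S) (U : BFSS.SU N) :
    actO M U ∈ S.grp :=
  adS M (fun S a t => exp_mem S a t) S hS U

theorem act_coeff_cont (M : BFSS.Model N d F) (B A : Fin d) :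
    Continuous fun U : BFSS.SU N => BFSS.adCoeff M.T U B A := by
  unfold BFSS.adCoeff
  refine Complex.continuous_re.comp (Continuous.matrix_trace ?_)
  have hv : Continuous fun U : BFSS.SU N => U.val := continuous_subtype_val
  exact continuous_const.mul ((hv.mul continuous_const).mul hv.star)

/-- **G22 Act** -/
theorem act_stmt (M : BFSS.Model N d F) : ActStmt M := by
  obtain ⟨S₀, hS₀⟩ := setS M
  refine ⟨fun U V x => ?_, fun x => ?_, fun U x y => ?_, fun U c x => ?_, fun U x => ?_, ?_,
    fun S hS U m x => ?_⟩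
  · rw [act_eq_ro, act_eq_ro, act_eq_ro, actO_mul, grp_ro_mul]
  · rw [act_eq_ro, actO_one, grp_ro_one]
  · ext p
    show ∑ A, BFSS.adCoeff M.T U p.2 A * (x + y) (p.1, A) =
      ∑ A, BFSS.adCoeff M.T U p.2 A * x (p.1, A) + ∑ A, BFSS.adCoeff M.T U p.2 A * y (p.1, A)
    rw [← Finset.sum_add_distrib]
    exact Finset.sum_congr rfl fun A _ => mul_add _ _ _
  · ext p
    show ∑ A, BFSS.adCoeff M.T U p.2 A * (c • x) (p.1, A) =
      c * ∑ A, BFSS.adCoeff M.T U p.2 A * x (p.1, A)
    rw [Finset.mul_sum]
    refine Finset.sum_congr rfl fun A _ => ?_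
    show BFSS.adCoeff M.T U p.2 A * (c * x (p.1, A)) = _
    ring
  · rw [act_eq_ro]
    exact grp_norm (actO_mem M S₀ hS₀ U).1 x
  · show Continuous fun p : BFSS.SU N × Cfg d => (WithLp.toLp 2 fun q : Fin 9 × Fin d =>
      ∑ A, BFSS.adCoeff M.T p.1 q.2 A * p.2 (q.1, A) : Cfg d)
    refine (PiLp.continuous_toLp 2 _).comp (continuous_pi fun q => ?_)
    refine continuous_finsetSum _ fun A _ => ?_
    exact ((act_coeff_cont M q.2 A).comp continuous_fst).mul
      ((EuclideanSpace.proj (𝕜 := ℝ) (q.1, A)).continuous.comp continuous_snd)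
  · rw [act_eq_ro]
    exact grp_Vm S (actO_mem M S hS U) m x

end Act

end Vale.Agent.P353.AN.G
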