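import Vale.Agent.P353.Z.U.StmtM
import Vale.Agent.P353.Z.U.StmtC
import Vale.Agent.P353.Z.U.StmtA

/-! # P353, all `N`, block G (`c_N ≥ p(N)`): definitions

Haar measure on `SU(N)`, averages, trial functions around a zero `ξ` of `V_1`. -/

open MeasureTheory Filter Topology
open scoped ContDiff

namespace Vale.Agent.P353.AN.G

open Vale.Agent.P353.Z Vale.Agent.P353.Z.U

section Haar

variable (N : ℕ)

noncomputable instance : MeasurableSpace (BFSS.SU N) := borel _
instance : BorelSpace (BFSS.SU N) := ⟨rfl⟩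

theorem matSecond : SecondCountableTopology (Matrix (Fin N) (Fin N) ℂ) :=
  inferInstanceAs (SecondCountableTopology (Fin N → Fin N → ℂ))

instance : SecondCountableTopology (BFSS.SU N) := by
  have := matSecond N
  exact TopologicalSpace.Subtype.secondCountableTopology _

instance : IsTopologicalGroup (BFSS.SU N) where
  continuous_mul := by
    refine Continuous.subtype_mk ?_ _
    exact (continuous_subtype_val.comp continuous_fst).mul
      (continuous_subtype_val.comp continuous_snd)
  continuous_inv := by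
    refine Continuous.subtype_mk ?_ _
    exact Continuous.star continuous_subtype_val

instance : CompactSpace (BFSS.SU N) := by
  refine isCompact_iff_compactSpace.1 ?_
  have h1 : IsClosed {U : Matrix (Fin N) (Fin N) ℂ | U ∈ Matrix.specialUnitaryGroup (Fin N) ℂ} := by
    have : {U : Matrix (Fin N) (Fin N) ℂ | U ∈ Matrix.specialUnitaryGroup (Fin N) ℂ} =
        {U | U * star U = 1} ∩ {U | U.det = 1} := by
      ext U
      simp only [Set.mem_ofPred_eq, Set.mem_inter_iff, Matrix.mem_specialUnitaryGroup_iff,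
        Matrix.mem_unitaryGroup_iff]
    rw [this]
    exact (isClosed_eq (continuous_id.mul continuous_star) continuous_const).inter
      (isClosed_eq (Continuous.matrix_det continuous_id) continuous_const)
  have h2 : {U : Matrix (Fin N) (Fin N) ℂ | U ∈ Matrix.specialUnitaryGroup (Fin N) ℂ} ⊆
      Set.pi Set.univ fun _ => Set.pi Set.univ fun _ => Metric.closedBall (0 : ℂ) 1 := by
    intro U hU i _ j _
    rw [mem_closedBall_zero_iff]
    exact entry_norm_bound_of_unitary (Matrix.mem_specialUnitaryGroup_iff.1 hU).1 i j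
  exact (isCompact_univ_pi fun _ => isCompact_univ_pi fun _ =>
    isCompact_closedBall (0 : ℂ) 1).of_isClosed_subset h1 h2

/-- normalised Haar measure on `SU(N)` -/
noncomputable def hm : Measure (BFSS.SU N) := Measure.haarMeasure ⊤

instance : (hm N).IsHaarMeasure := by unfold hm; infer_instance

instance : IsProbabilityMeasure (hm N) := ⟨by
  have := Measure.haarMeasure_self (K₀ := (⊤ : TopologicalSpace.PositiveCompacts (BFSS.SU N)))
  simpa [hm] using this⟩

instance : (hm N).IsMulLeftInvariant := by unfold hm; infer_instance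
instance : (hm N).IsMulRightInvariant := ⟨fun g => by
  have h1 : (Measure.map (· * g) (hm N)).IsHaarMeasure := Measure.isHaarMeasure_map_mul_right _ g
  have h2 : IsProbabilityMeasure (Measure.map (· * g) (hm N)) :=
    Measure.isProbabilityMeasure_map (measurable_mul_const g).aemeasurable
  exact Measure.isHaarMeasure_eq_of_isProbabilityMeasure _ _⟩

instance : (hm N).IsInvInvariant := ⟨by
  have h1 : (hm N).inv.IsMulLeftInvariant := inferInstance
  have h2 : IsProbabilityMeasure (hm N).inv :=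
    Measure.isProbabilityMeasure_map measurable_inv.aemeasurable
  have h3 : (hm N).inv.IsHaarMeasure :=
    Measure.isHaarMeasure_of_isCompact_nonempty_interior _ Set.univ isCompact_univ
      (by rw [interior_univ]; exact Set.univ_nonempty) (by simp) (by simp)
  exact Measure.isHaarMeasure_eq_of_isProbabilityMeasure _ _⟩

end Haar

section Defs

variable {N d : ℕ} {F : Type*} [NormedAddCommGroup F] [InnerProductSpace ℂ F]

/-- average of an `F`-valued function over `SU(N)`; it satisfies `avg v (U·x) = S(U) avg v (x)` -/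
noncomputable def avg (M : BFSS.Model N d F) (v : Cfg d → F) (x : Cfg d) : F :=
  ∫ U, M.S U (v (M.act U⁻¹ x)) ∂(hm N)

/-- average of a scalar function over `SU(N)` -/
noncomputable def avs (M : BFSS.Model N d F) (φ : Cfg d → ℝ) (x : Cfg d) : ℝ :=
  ∫ U, φ (M.act U⁻¹ x) ∂(hm N)

/-- measure of the set of group elements that move `p` by at most `r` -/
noncomputable def mu (M : BFSS.Model N d F) (p : Cfg d) (r : ℝ) : ℝ :=
  (hm N).real {U | ‖M.act U p - p‖ ≤ r}

/-- derivative of `W_β + M_β` at `ξ` in direction `x` -/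
noncomputable def Lb (S : Setup d F) (ξ : Cfg d) (β : Fin 16) (x : Cfg d) : F →L[ℂ] F :=
  S.MM β x + S.DW ξ β x

/-- fermionic Hamiltonian at `ξ` -/
noncomputable def Hf (S : Setup d F) (ξ : Cfg d) : F →L[ℂ] F := S.Fx ξ - (3 / 4 : ℂ) • S.FG

/-- `E` is the lowest eigenvalue of `Hf S ξ`; it is simple, with unit eigenvector `Ω` -/
structure IsLow (S : Setup d F) (ξ : Cfg d) (E : ℝ) (Ω : F) : Prop where
  norm : ‖Ω‖ = 1
  eig : Hf S ξ Ω = (E : ℂ) • Ω
  low : ∀ v, E * ‖v‖ ^ 2 ≤ (inner ℂ v (Hf S ξ v)).re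
  uniq : ∀ v, Hf S ξ v = (E : ℂ) • v → ∃ c : ℂ, v = c • Ω

/-- `∑ D_{pq} θ_p θ_q` -/
noncomputable def bD (S : Setup d F) (D : Matrix (Fin 16 × Fin d) (Fin 16 × Fin d) ℝ) : F →L[ℂ] F :=
  ∑ p, ∑ q, (D p q : ℂ) • (S.th p.1 p.2 * S.th q.1 q.2)

/-- vector field of `J_{kl} + ∑ a_C G_C`: direction of the first order part at `x` -/
noncomputable def vf (S : Setup d F) (k l : Fin 9) (a : Fin d → ℝ) (x : Cfg d) : Cfg d :=
  WithLp.toLp 2 fun p => (if p.1 = l then x (k, p.2) else 0) - (if p.1 = k then x (l, p.2) else 0) +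
    ∑ C, ∑ A, a C * S.f C A p.2 * x (p.1, A)

/-- smooth cutoff: `1` for `t ≤ 1`, `0` for `4 ≤ t` -/
noncomputable def cut (t : ℝ) : ℝ := Real.smoothTransition ((4 - t) / 3)

/-- rescaled coordinate around `m ξ` -/
noncomputable def om (m : ℝ) (ξ x : Cfg d) : Cfg d := Real.sqrt m • (x - m • ξ)

/-- `⟨ω, Kω⟩` -/
noncomputable def qK (m : ℝ) (ξ : Cfg d) (K : Cfg d →L[ℝ] Cfg d) (x : Cfg d) : ℝ :=
  inner ℝ (om m ξ x) (K (om m ξ x))

/-- cut off Gaussian -/
noncomputable def ph (m L : ℝ) (ξ : Cfg d) (K : Cfg d →L[ℝ] Cfg d) (x : Cfg d) : ℝ :=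
  cut (‖om m ξ x‖ ^ 2 / L ^ 2) * Real.exp (-(1 / 2) * qK m ξ K x)

open Classical in
/-- Gaussian times the indicator of the ball `‖ω‖ ≤ 2L` -/
noncomputable def ph2 (m L : ℝ) (ξ : Cfg d) (K : Cfg d →L[ℝ] Cfg d) (x : Cfg d) : ℝ :=
  if ‖om m ξ x‖ ≤ 2 * L then Real.exp (-(1 / 2) * qK m ξ K x) else 0

/-- the local trial function -/
noncomputable def tv (m L : ℝ) (ξ : Cfg d) (K : Cfg d →L[ℝ] Cfg d) (Ω : F) (x : Cfg d) : F :=
  ((ph m L ξ K x : ℝ) : ℂ) • Ω

end Defs

end Vale.Agent.P353.AN.G
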