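import Vale.Agent.P353.AN.G.Stmt

/-! # P353, all `N`, block G27: pointwise bounds for averages -/

open MeasureTheory Filter Topology
open scoped ContDiff

namespace Vale.Agent.P353.AN.G

open Vale.Agent.P353.Z Vale.Agent.P353.Z.U

universe w

variable {N d : ℕ} {F : Type w} [NormedAddCommGroup F] [InnerProductSpace ℂ F]

namespace AvgB

lemma inner_S (M : BFSS.Model N d F) (U : BFSS.SU N) (v w : F) :
    inner ℂ (M.S U v) (M.S U w) = inner ℂ v w :=
  LinearIsometry.inner_map_map
    ({ (M.S U).toLinearMap with norm_map' := fun x => M.S_isometry U x } : F →ₗᵢ[ℂ] F) v w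

lemma act_inv_cont (M : BFSS.Model N d F) (h : ActStmt M) (x : Cfg d) :
    Continuous fun U : BFSS.SU N => M.act U⁻¹ x := by
  have h3 : Continuous fun p : BFSS.SU N × Cfg d => M.act p.1 p.2 := h.2.2.2.2.2.1
  have h4 : Continuous ((fun p : BFSS.SU N × Cfg d => M.act p.1 p.2) ∘
      fun U : BFSS.SU N => ((U⁻¹, x) : BFSS.SU N × Cfg d)) :=
    h3.comp (continuous_inv.prodMk continuous_const)
  exact h4

end AvgB

/-- **G27** -/
theorem avgB [FiniteDimensional ℂ F] (M : BFSS.Model N d F) (h22 : ActStmt M) : AvgBStmt M := by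
  refine ⟨fun f φ B hf hφ hle hB x => ?_, fun φ Ω hφ _ h0 hΩ hhalf x => ?_⟩
  · have hc := AvgB.act_inv_cont M h22 x
    refine norm_integral_le_of_norm_le ?_ (ae_of_all _ fun U => ?_)
    · refine Integrable.of_bound (C := B) (hφ.comp hc.measurable).aestronglyMeasurable
        (ae_of_all _ fun U => ?_)
      have h1 : 0 ≤ φ (M.act U⁻¹ x) := (norm_nonneg _).trans (hle _)
      rw [Real.norm_of_nonneg h1]
      exact hB _
    · rw [M.S_isometry]
      exact hle _
  · have hc := AvgB.act_inv_cont M h22 x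
    by_cases hex : ∃ U₀, φ (M.act U₀⁻¹ x) ≠ 0
    · obtain ⟨U₀, hU₀⟩ := hex
      have hkey : ∀ U, 1 / 2 * φ (M.act U⁻¹ x) ≤
          (inner ℂ (M.S U₀ Ω) (M.S U (((φ (M.act U⁻¹ x) : ℝ) : ℂ) • Ω))).re := by
        intro U
        have e1 : (inner ℂ (M.S U₀ Ω) (M.S U (((φ (M.act U⁻¹ x) : ℝ) : ℂ) • Ω))).re =
            φ (M.act U⁻¹ x) * (inner ℂ (M.S U₀ Ω) (M.S U Ω)).re := by
          rw [map_smul, inner_smul_right, Complex.re_ofReal_mul]
        rw [e1]
        rcases eq_or_ne (φ (M.act U⁻¹ x)) 0 with h | h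
        · rw [h]
          simp
        · have h1 : M.act (U⁻¹ * U₀) (M.act U₀⁻¹ x) = M.act U⁻¹ x := by
            rw [← h22.1, mul_assoc, mul_inv_cancel, mul_one]
          have h2 := hhalf (U⁻¹ * U₀) (M.act U₀⁻¹ x) hU₀ (by rwa [h1])
          have h3 : (inner ℂ Ω (M.S (U⁻¹ * U₀) Ω)).re = (inner ℂ (M.S U₀ Ω) (M.S U Ω)).re := by
            rw [← AvgB.inner_S M U, ← M.S_mul, ← mul_assoc, mul_inv_cancel, one_mul,
              ← inner_conj_symm, Complex.conj_re]
          rw [h3] at h2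
          nlinarith [h0 (M.act U⁻¹ x)]
      have hcv : Continuous fun U : BFSS.SU N => M.S U (((φ (M.act U⁻¹ x) : ℝ) : ℂ) • Ω) := by
        have : (fun U : BFSS.SU N => M.S U (((φ (M.act U⁻¹ x) : ℝ) : ℂ) • Ω)) =
            fun U => ((φ (M.act U⁻¹ x) : ℝ) : ℂ) • M.S U Ω := by
          funext U
          rw [map_smul]
        rw [this]
        exact (Complex.continuous_ofReal.comp (hφ.comp hc)).smul (M.S_continuous Ω)
      have hiv : Integrable (fun U : BFSS.SU N => M.S U (((φ (M.act U⁻¹ x) : ℝ) : ℂ) • Ω))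
          (hm N) := hcv.integrable_of_hasCompactSupport (HasCompactSupport.of_compactSpace _)
      have hir : Integrable (fun U : BFSS.SU N => 1 / 2 * φ (M.act U⁻¹ x)) (hm N) :=
        (continuous_const.mul (hφ.comp hc)).integrable_of_hasCompactSupport
          (HasCompactSupport.of_compactSpace _)
      have h1 : inner ℂ (M.S U₀ Ω) (avg M (fun y => ((φ y : ℝ) : ℂ) • Ω) x) =
          ∫ U, inner ℂ (M.S U₀ Ω) (M.S U (((φ (M.act U⁻¹ x) : ℝ) : ℂ) • Ω)) ∂(hm N) :=
        (integral_inner hiv _).symm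
      have hii : Integrable (fun U : BFSS.SU N =>
          inner ℂ (M.S U₀ Ω) (M.S U (((φ (M.act U⁻¹ x) : ℝ) : ℂ) • Ω))) (hm N) :=
        hiv.const_inner _
      have h2 : (inner ℂ (M.S U₀ Ω) (avg M (fun y => ((φ y : ℝ) : ℂ) • Ω) x)).re =
          ∫ U, (inner ℂ (M.S U₀ Ω) (M.S U (((φ (M.act U⁻¹ x) : ℝ) : ℂ) • Ω))).re ∂(hm N) := by
        rw [h1]
        exact (integral_re hii).symm
      have h3 : 1 / 2 * avs M φ x ≤
          (inner ℂ (M.S U₀ Ω) (avg M (fun y => ((φ y : ℝ) : ℂ) • Ω) x)).re := by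
        rw [h2]
        unfold avs
        rw [← integral_const_mul]
        exact integral_mono hir hii.re hkey
      refine h3.trans ((Complex.re_le_norm _).trans ((norm_inner_le_norm _ _).trans ?_))
      rw [M.S_isometry, hΩ, one_mul]
    · push Not at hex
      have : avs M φ x = 0 := by
        unfold avs
        simp only [hex, integral_zero]
      rw [this, mul_zero]
      exact norm_nonneg _

end Vale.Agent.P353.AN.G
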