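import Vale.Agent.P353.AN.G.Stmt

/-! # P353, all `N`, block G25: averages are in the core -/

open MeasureTheory Filter Topology
open scoped ContDiff

namespace Vale.Agent.P353.AN.G

open Vale.Agent.P353.Z Vale.Agent.P353.Z.U

universe w

section AvgC489

variable {N d : ℕ} {F : Type w} [NormedAddCommGroup F] [InnerProductSpace ℂ F]

private theorem avgC489_one (M : BFSS.Model N d F) (v : F) : M.S 1 v = v := by
  have h1 : M.S 1 (M.S 1 v) = M.S 1 v := by rw [← M.S_mul, one_mul]
  have h2 : ‖M.S 1 (M.S 1 v - v)‖ = ‖M.S 1 v - v‖ := M.S_isometry _ _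
  rw [map_sub, h1, sub_self, norm_zero] at h2
  exact sub_eq_zero.1 (norm_eq_zero.1 h2.symm)

/-- `S V` as an equivalence -/
private noncomputable def avgC489_equiv (M : BFSS.Model N d F) (V : BFSS.SU N) : F ≃L[ℂ] F :=
  ContinuousLinearEquiv.equivOfInverse (M.S V) (M.S V⁻¹)
    (fun v => by rw [← M.S_mul, inv_mul_cancel, avgC489_one])
    (fun v => by rw [← M.S_mul, mul_inv_cancel, avgC489_one])

/-- averages are equivariant -/
theorem avgC_act (M : BFSS.Model N d F) (h22 : ActStmt M) (v : Cfg d → F) (V : BFSS.SU N)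
    (x : Cfg d) : avg M v (M.act V x) = M.S V (avg M v x) := by
  unfold avg
  rw [← integral_mul_left_eq_self (fun U => M.S U (v (M.act U⁻¹ (M.act V x)))) V]
  have h1 : (fun U => M.S (V * U) (v (M.act (V * U)⁻¹ (M.act V x)))) =
      fun U => avgC489_equiv M V (M.S U (v (M.act U⁻¹ x))) := by
    funext U
    rw [M.S_mul, ← h22.1, mul_inv_rev, mul_assoc, inv_mul_cancel, mul_one]
    rfl
  rw [h1, ContinuousLinearEquiv.integral_comp_comm]
  rfl

theorem avgC [FiniteDimensional ℂ F] (M : BFSS.Model N d F) (h22 : ActStmt M) : AvgCStmt M :=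
  fun v _ h => ⟨h.1, h.2, fun U x => avgC_act M h22 v U x⟩

end AvgC489

end Vale.Agent.P353.AN.G
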