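import Vale.Agent.P353.AN.G.Stmt

/-! # P353, all `N`, G24: averages of test functions over `SU(N)` -/

open MeasureTheory Filter Topology
open scoped ContDiff

namespace Vale.Agent.P353.AN.G

open Vale.Agent.P353.Z Vale.Agent.P353.Z.U

universe w

namespace AvgD

variable {N d : ℕ} {F : Type w} [NormedAddCommGroup F] [InnerProductSpace ℂ F]

/-- the action of `U` as a continuous linear map -/
noncomputable def rho (M : BFSS.Model N d F) (h : ActStmt M) (U : BFSS.SU N) :
    Cfg d →L[ℝ] Cfg d :=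
  LinearMap.toContinuousLinearMap
    { toFun := M.act U⁻¹
      map_add' := h.2.2.1 U⁻¹
      map_smul' := h.2.2.2.1 U⁻¹ }

lemma rho_apply (M : BFSS.Model N d F) (h : ActStmt M) (U : BFSS.SU N) (x : Cfg d) :
    rho M h U x = M.act U⁻¹ x := rfl

lemma rho_cont (M : BFSS.Model N d F) (h : ActStmt M) : Continuous (rho M h) := by
  refine continuous_clm_apply.2 fun x => ?_
  have h1 : Continuous fun U : BFSS.SU N => U⁻¹ := continuous_inv
  have h2 : Continuous fun U : BFSS.SU N => ((U⁻¹, x) : BFSS.SU N × Cfg d) :=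
    h1.prodMk continuous_const
  have h3 : Continuous fun p : BFSS.SU N × Cfg d => M.act p.1 p.2 := h.2.2.2.2.2.1
  have h4 : Continuous ((fun p : BFSS.SU N × Cfg d => M.act p.1 p.2) ∘
      fun U : BFSS.SU N => ((U⁻¹, x) : BFSS.SU N × Cfg d)) := h3.comp h2
  exact h4

/-- `S(U)` as a real linear map -/
noncomputable def sr (M : BFSS.Model N d F) (U : BFSS.SU N) : F →L[ℝ] F :=
  (M.S U).restrictScalars ℝ

lemma sr_apply (M : BFSS.Model N d F) (U : BFSS.SU N) (v : F) : sr M U v = M.S U v := rfl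

lemma sr_cont [FiniteDimensional ℝ F] (M : BFSS.Model N d F) : Continuous (sr M) := by
  refine continuous_clm_apply.2 fun v => ?_
  simp only [sr_apply]
  exact M.S_continuous v

/-- the translate `y ↦ S(U)v(U⁻¹y)` -/
noncomputable def tr (M : BFSS.Model N d F) (v : Cfg d → F) (U : BFSS.SU N) (y : Cfg d) : F :=
  M.S U (v (M.act U⁻¹ y))

lemma tr_fderiv (M : BFSS.Model N d F) (h : ActStmt M) {v : Cfg d → F} (hv : ContDiff ℝ ∞ v)
    (U : BFSS.SU N) (x w : Cfg d) :
    fderiv ℝ (tr M v U) x w = sr M U (fderiv ℝ v (rho M h U x) (rho M h U w)) := by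
  have h1 : HasFDerivAt v (fderiv ℝ v (rho M h U x)) (rho M h U x) :=
    ((hv.differentiable (by simp)) _).hasFDerivAt
  have h2 : HasFDerivAt (tr M v U)
      ((sr M U).comp ((fderiv ℝ v (rho M h U x)).comp (rho M h U))) x :=
    (sr M U).hasFDerivAt.comp x (h1.comp x (rho M h U).hasFDerivAt)
  rw [h2.fderiv]
  rfl

lemma smint [FiniteDimensional ℝ F] (M : BFSS.Model N d F)
    (h1 : SmIntStmt.{w} (BFSS.SU N) (Cfg d)) (h : ActStmt M) {v : Cfg d → F}
    (hv : ContDiff ℝ ∞ v) :
    ContDiff ℝ ∞ (avg M v) ∧ ∀ x w, fderiv ℝ (avg M v) x w =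
      ∫ U, fderiv ℝ (tr M v U) x w ∂(hm N) := by
  have h2 := h1 (hm N) (rho M h) (rho_cont M h) F F (sr M) (sr_cont M) v hv
  refine ⟨h2.1, fun x w => ?_⟩
  simp only [tr_fderiv M h hv]
  exact h2.2 x w

lemma fd_cont [FiniteDimensional ℝ F] (M : BFSS.Model N d F) (h : ActStmt M) {v : Cfg d → F}
    (hv : ContDiff ℝ ∞ v) (x w : Cfg d) : Continuous fun U => fderiv ℝ (tr M v U) x w := by
  simp only [tr_fderiv M h hv]
  have h1 : Continuous fun U => rho M h U x := (rho_cont M h).clm_apply continuous_const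
  have h2 : Continuous fun U => rho M h U w := (rho_cont M h).clm_apply continuous_const
  have h3 : Continuous (fderiv ℝ v) := hv.continuous_fderiv (by simp)
  exact (sr_cont M).clm_apply ((h3.comp h1).clm_apply h2)

lemma tr_cont [FiniteDimensional ℝ F] (M : BFSS.Model N d F) (h : ActStmt M) {v : Cfg d → F}
    (hv : ContDiff ℝ ∞ v) (x : Cfg d) : Continuous fun U => tr M v U x := by
  have h1 : Continuous fun U => rho M h U x := (rho_cont M h).clm_apply continuous_const
  exact (sr_cont M).clm_apply (hv.continuous.comp h1)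

lemma int_of_cont {G : Type*} [NormedAddCommGroup G] {f : BFSS.SU N → G} (hf : Continuous f) :
    Integrable f (hm N) := by
  refine hf.integrable_of_hasCompactSupport ?_
  exact HasCompactSupport.of_compactSpace f

lemma op_avg [FiniteDimensional ℂ F] (M : BFSS.Model N d F)
    (h1 : SmIntStmt.{w} (BFSS.SU N) (Cfg d)) (h : ActStmt M) {v : Cfg d → F}
    (hv : ContDiff ℝ ∞ v) (c : Fin 9 → Fin d → F →L[ℂ] F) (c0 : F →L[ℂ] F) (x : Cfg d) :
    (∑ i, ∑ A, c i A (pd i A (avg M v) x)) + c0 (avg M v x) =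
      ∫ U, ((∑ i, ∑ A, c i A (pd i A (tr M v U) x)) + c0 (tr M v U x)) ∂(hm N) := by
  have hfd : FiniteDimensional ℝ F := FiniteDimensional.complexToReal F
  have hcF : CompleteSpace F := FiniteDimensional.complete ℝ F
  have h2 : ∀ i A, Continuous fun U => c i A (pd i A (tr M v U) x) := fun i A =>
    (c i A).continuous.comp (fd_cont M h hv x _)
  have h3 : Continuous fun U => c0 (tr M v U x) := c0.continuous.comp (tr_cont M h hv x)
  rw [integral_add (int_of_cont (continuous_finsetSum _ fun i _ =>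
    continuous_finsetSum _ fun A _ => h2 i A)) (int_of_cont h3),
    integral_finsetSum _ fun i _ => int_of_cont (continuous_finsetSum _ fun A _ => h2 i A)]
  congr 1
  · refine Finset.sum_congr rfl fun i _ => ?_
    rw [integral_finsetSum _ fun A _ => int_of_cont (h2 i A)]
    refine Finset.sum_congr rfl fun A _ => ?_
    have h4 := ContinuousLinearMap.integral_comp_comm (c i A)
      (int_of_cont (fd_cont M h hv x (EuclideanSpace.single (i, A) 1)))
    rw [← (smint M h1 h hv).2 x _] at h4
    exact h4.symm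
  · rw [ContinuousLinearMap.integral_comp_comm c0 (int_of_cont (tr_cont M h hv x))]
    rfl

lemma Qm_eq (S : Setup d F) (m : ℝ) (β : Fin 16) (u : Cfg d → F) (x : Cfg d) :
    S.Qm m β u x = (∑ i, ∑ A, ((-Complex.I) • S.vec (S.g i) A β) (pd i A u x)) +
      (S.W β x + (m : ℂ) • S.MM β x) (u x) := by
  simp only [Setup.Qm, Setup.Q, _root_.smul_apply, _root_.add_apply, Finset.smul_sum]
  abel

lemma J_eq (S : Setup d F) (k l : Fin 9) (u : Cfg d → F) (x : Cfg d) :
    S.J k l u x = (∑ i, ∑ A, ((-Complex.I * ((if i = l then (x (k, A) : ℂ) else 0) -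
      (if i = k then (x (l, A) : ℂ) else 0))) • (1 : F →L[ℂ] F)) (pd i A u x)) +
      S.Skl k l (u x) := by
  rw [Finset.sum_comm]
  have h : ∀ (c : ℂ) (w : F), (c • (1 : F →L[ℂ] F)) w = c • w := fun c w => rfl
  simp only [Setup.J, h]
  simp only [mul_smul, sub_smul,
    Finset.smul_sum, Finset.sum_sub_distrib, ite_smul, zero_smul, smul_sub, smul_ite, smul_zero,
    Finset.sum_ite_eq', Finset.mem_univ, if_true]

end AvgD

open AvgD in
theorem avgD {N d : ℕ} {F : Type w} [NormedAddCommGroup F] [InnerProductSpace ℂ F]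
    [FiniteDimensional ℂ F] (M : BFSS.Model N d F)
    (h1 : SmIntStmt.{w} (BFSS.SU N) (Cfg d)) (h22 : ActStmt M) (h23 : QActStmt M) :
    AvgDStmt M := by
  intro S hS v hv
  have hfd : FiniteDimensional ℝ F := FiniteDimensional.complexToReal F
  refine ⟨⟨(smint M h1 h22 hv.1).1, ?_⟩, fun m β x => ?_, fun k l x => ?_⟩
  · obtain ⟨R, hR⟩ := hv.2.isCompact.isBounded.subset_closedBall (0 : Cfg d)
    refine HasCompactSupport.intro (isCompact_closedBall (0 : Cfg d) R) fun x hx => ?_
    have h2 : ∀ U : BFSS.SU N, M.S U (v (M.act U⁻¹ x)) = 0 := by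
      intro U
      have h3 : M.act U⁻¹ x ∉ tsupport v := by
        intro h4
        have h5 := hR h4
        rw [mem_closedBall_zero_iff] at h5 hx
        rw [h22.2.2.2.2.1] at h5
        exact hx h5
      rw [image_eq_zero_of_notMem_tsupport h3, map_zero]
    simp only [avg, h2, integral_zero]
  · rw [Qm_eq, op_avg M h1 h22 hv.1]
    refine integral_congr_ae (Eventually.of_forall fun U => ?_)
    have h3 := (h23 S hS U v hv.1).1 m β x
    exact (Qm_eq S m β (tr M v U) x).symm.trans h3
  · rw [J_eq, op_avg M h1 h22 hv.1]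
    refine integral_congr_ae (Eventually.of_forall fun U => ?_)
    have h3 := (h23 S hS U v hv.1).2 k l x
    exact (J_eq S k l (tr M v U) x).symm.trans h3

end Vale.Agent.P353.AN.G
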