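import Vale.Agent.P353.AN.G.Stmt
import Vale.Agent.P353.Z.U.Sym
import Vale.Agent.P353.Z.U.MGauss

/-! # P353, all `N`, G26: averages of gauge generators vanish -/

open MeasureTheory Filter Topology
open scoped ContDiff

namespace Vale.Agent.P353.AN.G

open Vale.Agent.P353.Z Vale.Agent.P353.Z.U

universe w

namespace AvgG

variable {N d : ℕ} {F : Type w} [NormedAddCommGroup F] [InnerProductSpace ℂ F]

lemma one_S (M : BFSS.Model N d F) (v : F) : M.S 1 v = v := by
  have h1 : M.S 1 (M.S 1 v) = M.S 1 v := by rw [← M.S_mul, one_mul]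
  have h2 : ‖M.S 1 (M.S 1 v - v)‖ = ‖M.S 1 v - v‖ := M.S_isometry _ _
  rw [map_sub, h1, sub_self, norm_zero] at h2
  exact sub_eq_zero.1 (norm_eq_zero.1 h2.symm)

/-- `S(U)` preserves inner products. -/
lemma inner_S (M : BFSS.Model N d F) (U : BFSS.SU N) (v w : F) :
    inner ℂ (M.S U v) (M.S U w) = inner ℂ v w :=
  LinearIsometry.inner_map_map
    ({ (M.S U).toLinearMap with norm_map' := fun x => M.S_isometry U x } : F →ₗᵢ[ℂ] F) v w

/-- The action of `U` as a linear isometric equivalence. -/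
noncomputable def actE (M : BFSS.Model N d F) (h : ActStmt M) (U : BFSS.SU N) :
    Cfg d ≃ₗᵢ[ℝ] Cfg d where
  toFun := M.act U
  invFun := M.act U⁻¹
  left_inv x := by rw [← h.1, inv_mul_cancel, h.2.1]
  right_inv x := by rw [← h.1, mul_inv_cancel, h.2.1]
  map_add' := h.2.2.1 U
  map_smul' := h.2.2.2.1 U
  norm_map' := h.2.2.2.2.1 U

/-- Change of variables. -/
lemma int_act (M : BFSS.Model N d F) (h : ActStmt M) (U : BFSS.SU N) (g : Cfg d → ℂ) :
    ∫ x, g (M.act U x) = ∫ x, g x :=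
  (actE M h U).measurePreserving.integral_comp
    (actE M h U).toHomeomorph.measurableEmbedding g

lemma S_cont [FiniteDimensional ℂ F] (M : BFSS.Model N d F) :
    Continuous fun p : BFSS.SU N × F => M.S p.1 p.2 := by
  have hfd : FiniteDimensional ℝ F := FiniteDimensional.complexToReal F
  have h1 : Continuous fun U : BFSS.SU N => (M.S U).restrictScalars ℝ := by
    refine continuous_clm_apply.2 fun v => ?_
    exact M.S_continuous v
  exact (h1.comp continuous_fst).clm_apply continuous_snd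

lemma act_cont (M : BFSS.Model N d F) (h : ActStmt M) :
    Continuous fun p : BFSS.SU N × Cfg d => M.act p.1⁻¹ p.2 := by
  have h3 : Continuous fun p : BFSS.SU N × Cfg d => M.act p.1 p.2 := h.2.2.2.2.2.1
  have h1 : Continuous fun p : BFSS.SU N × Cfg d => p.1⁻¹ := continuous_fst.inv
  have h2 : Continuous fun p : BFSS.SU N × Cfg d => ((p.1⁻¹, p.2) : BFSS.SU N × Cfg d) :=
    h1.prodMk continuous_snd
  have h4 : Continuous ((fun p : BFSS.SU N × Cfg d => M.act p.1 p.2) ∘
      fun p : BFSS.SU N × Cfg d => ((p.1⁻¹, p.2) : BFSS.SU N × Cfg d)) := h3.comp h2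
  exact h4

/-- The translates are jointly continuous. -/
lemma tr_cont [FiniteDimensional ℂ F] (M : BFSS.Model N d F) (h : ActStmt M) {f : Cfg d → F}
    (hf : Continuous f) :
    Continuous fun p : BFSS.SU N × Cfg d => M.S p.1 (f (M.act p.1⁻¹ p.2)) := by
  have h1 : Continuous fun p : BFSS.SU N × Cfg d => f (M.act p.1⁻¹ p.2) :=
    hf.comp (act_cont M h)
  have h2 : Continuous fun p : BFSS.SU N × Cfg d =>
      ((p.1, f (M.act p.1⁻¹ p.2)) : BFSS.SU N × F) := continuous_fst.prodMk h1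
  have h3 : Continuous ((fun p : BFSS.SU N × F => M.S p.1 p.2) ∘
      fun p : BFSS.SU N × Cfg d => ((p.1, f (M.act p.1⁻¹ p.2)) : BFSS.SU N × F)) :=
    (S_cont M).comp h2
  exact h3

lemma tr_cont_left [FiniteDimensional ℂ F] (M : BFSS.Model N d F) (h : ActStmt M)
    {f : Cfg d → F} (hf : Continuous f) (x : Cfg d) :
    Continuous fun U : BFSS.SU N => M.S U (f (M.act U⁻¹ x)) := by
  have h2 : Continuous fun U : BFSS.SU N => ((U, x) : BFSS.SU N × Cfg d) :=
    continuous_id.prodMk continuous_const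
  have h3 : Continuous ((fun p : BFSS.SU N × Cfg d => M.S p.1 (f (M.act p.1⁻¹ p.2))) ∘
      fun U : BFSS.SU N => ((U, x) : BFSS.SU N × Cfg d)) := (tr_cont M h hf).comp h2
  exact h3

/-- Integral of a jointly continuous function with compact support in `x`: Fubini. -/
lemma swap_int [FiniteDimensional ℂ F] (M : BFSS.Model N d F) (h : ActStmt M)
    {f u : Cfg d → F} (hf : Continuous f) (hu : Continuous u) (hc : HasCompactSupport u) :
    ∫ x, ∫ U, (inner ℂ (u x) (M.S U (f (M.act U⁻¹ x))) : ℂ) ∂(hm N) =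
      ∫ U, ∫ x, (inner ℂ (u x) (M.S U (f (M.act U⁻¹ x))) : ℂ) ∂(volume : Measure (Cfg d))
        ∂(hm N) := by
  have h1 : Continuous fun p : BFSS.SU N × Cfg d => u p.2 := hu.comp continuous_snd
  have h2 : Continuous fun p : BFSS.SU N × Cfg d =>
      (inner ℂ (u p.2) (M.S p.1 (f (M.act p.1⁻¹ p.2))) : ℂ) := h1.inner (tr_cont M h hf)
  have h3 : HasCompactSupport fun p : BFSS.SU N × Cfg d =>
      (inner ℂ (u p.2) (M.S p.1 (f (M.act p.1⁻¹ p.2))) : ℂ) := by
    refine HasCompactSupport.intro (isCompact_univ.prod hc.isCompact) fun p hp => ?_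
    have hp2 : p.2 ∉ tsupport u := fun h => hp ⟨Set.mem_univ _, h⟩
    rw [image_eq_zero_of_notMem_tsupport hp2, inner_zero_left]
  have h4 : Integrable (fun p : BFSS.SU N × Cfg d =>
      (inner ℂ (u p.2) (M.S p.1 (f (M.act p.1⁻¹ p.2))) : ℂ))
      ((hm N).prod (volume : Measure (Cfg d))) := h2.integrable_of_hasCompactSupport h3
  have h5 := integral_integral_swap (f := fun (U : BFSS.SU N) (x : Cfg d) =>
    (inner ℂ (u x) (M.S U (f (M.act U⁻¹ x))) : ℂ)) h4
  exact h5.symm

lemma self_eq [FiniteDimensional ℂ F] (M : BFSS.Model N d F) (h : ActStmt M)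
    {f : Cfg d → F} (hf : Continuous f) (x : Cfg d) (w : F) :
    (inner ℂ w (avg M f x) : ℂ) =
      ∫ U, (inner ℂ w (M.S U (f (M.act U⁻¹ x))) : ℂ) ∂(hm N) := by
  have hcF : CompleteSpace F := FiniteDimensional.complete ℂ F
  have hi : Integrable (fun U : BFSS.SU N => M.S U (f (M.act U⁻¹ x))) (hm N) :=
    (tr_cont_left M h hf x).integrable_of_hasCompactSupport
      (HasCompactSupport.of_compactSpace _)
  exact (integral_inner hi w).symm

lemma zero_of_int {u : Cfg d → F} (hu : Continuous u) (hc : HasCompactSupport u)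
    (h : ∫ x, (inner ℂ (u x) (u x) : ℂ) = 0) (x0 : Cfg d) : u x0 = 0 := by
  have e5 : ∫ x, ‖u x‖ ^ 2 = 0 := by
    have h1 : ∀ x, (inner ℂ (u x) (u x) : ℂ) = ((‖u x‖ ^ 2 : ℝ) : ℂ) := by
      intro x
      rw [inner_self_eq_norm_sq_to_K]
      push_cast
      rfl
    simp only [h1] at h
    rw [integral_complex_ofReal] at h
    exact_mod_cast h
  have hcn : Continuous fun x => ‖u x‖ ^ 2 := (hu.norm).pow 2
  have hcs : HasCompactSupport fun x => ‖u x‖ ^ 2 := by
    refine HasCompactSupport.intro hc.isCompact fun x hx => ?_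
    rw [image_eq_zero_of_notMem_tsupport hx, norm_zero, zero_pow two_ne_zero]
  have h6 : (fun x => ‖u x‖ ^ 2) =ᵐ[volume] 0 :=
    (integral_eq_zero_iff_of_nonneg (fun x => by positivity)
      (hcn.integrable_of_hasCompactSupport hcs)).1 e5
  have h7 : (fun x => ‖u x‖ ^ 2) = 0 := (hcn.ae_eq_iff_eq volume continuous_zero).1 h6
  have h8 := congrFun h7 x0
  simp only [Pi.zero_apply] at h8
  exact norm_eq_zero.1 (pow_eq_zero_iff two_ne_zero |>.1 h8)

end AvgG

open AvgG in
theorem avgG {N d : ℕ} {F : Type w} [NormedAddCommGroup F] [InnerProductSpace ℂ F]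
    [FiniteDimensional ℂ F] (M : BFSS.Model N d F)
    (h22 : ActStmt M) (h24 : AvgDStmt M) (h25 : AvgCStmt M) : AvgGStmt M := by
  intro S hS v hv C x0
  have hfd : FiniteDimensional ℝ F := FiniteDimensional.complexToReal F
  have hcF : CompleteSpace F := FiniteDimensional.complete ℝ F
  have hf : Setup.Tst (S.G C v) := Setup.Tst.G S hv C
  have hw : Setup.Tst (avg M (S.G C v)) := (h24 S hS _ hf).1
  have hcore := h25 _ hf hw
  have hG : ∀ x, S.G C (avg M (S.G C v)) x = 0 := gaussLaw M S hS _ hcore C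
  have hfc : Continuous (S.G C v) := hf.1.continuous
  have hwc : Continuous (avg M (S.G C v)) := hw.1.continuous
  refine zero_of_int hwc hw.2 ?_ x0
  have e1 : ∀ x, (inner ℂ (avg M (S.G C v) x) (avg M (S.G C v) x) : ℂ) =
      ∫ U, (inner ℂ (avg M (S.G C v) x) (M.S U (S.G C v (M.act U⁻¹ x))) : ℂ) ∂(hm N) :=
    fun x => self_eq M h22 hfc x _
  rw [integral_congr_ae (Eventually.of_forall e1), swap_int M h22 hfc hwc hw.2]
  have e3 : ∀ U : BFSS.SU N,
      ∫ x, (inner ℂ (avg M (S.G C v) x) (M.S U (S.G C v (M.act U⁻¹ x))) : ℂ) = 0 := by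
    intro U
    rw [← int_act M h22 U]
    have e4 : ∀ x, (inner ℂ (avg M (S.G C v) (M.act U x))
        (M.S U (S.G C v (M.act U⁻¹ (M.act U x)))) : ℂ) =
        inner ℂ (avg M (S.G C v) x) (S.G C v x) := by
      intro x
      rw [← h22.1, inv_mul_cancel, h22.2.1, hcore.2.2 U x, inner_S]
    rw [integral_congr_ae (Eventually.of_forall e4), ← G_symm S C _ v hw hv.1]
    have e5 : ∀ x, (inner ℂ (S.G C (avg M (S.G C v)) x) (v x) : ℂ) = 0 := by
      intro x
      rw [hG, inner_zero_left]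
    rw [integral_congr_ae (Eventually.of_forall e5), integral_zero]
  rw [integral_congr_ae (Eventually.of_forall e3), integral_zero]

end Vale.Agent.P353.AN.G
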