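import Vale.Agent.P353.AN.G.Stmt
import Vale.Agent.P353.Z.U.MCountA
import Vale.Agent.P353.Z.U.MCountB

/-! # P353, all `N`, block G: the nonzero Casimir eigenvalues of `so(3)` are at least `3/4` (G03) -/

namespace Vale.Agent.P353.AN.G

open Vale.Agent.P353.Z.U Matrix

namespace CasAux

variable {d : ℕ}

/-- the complexified matrices -/
noncomputable def JJ (D : Fin 3 → Matrix (Fin d) (Fin d) ℝ) (k : Fin 3) :
    Matrix (Fin d) (Fin d) ℂ := Complex.I • (D k).map (algebraMap ℝ ℂ)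

lemma map_mul' (A B : Matrix (Fin d) (Fin d) ℝ) :
    (A * B).map (algebraMap ℝ ℂ) = A.map (algebraMap ℝ ℂ) * B.map (algebraMap ℝ ℂ) := by
  rw [Matrix.map_mul]

lemma jt (D : Fin 3 → Matrix (Fin d) (Fin d) ℝ) (h1 : ∀ k, (D k).transpose = -D k)
    (h2 : ∀ k, D (k + 1) * D (k + 2) - D (k + 2) * D (k + 1) = D k) : Cnt.JT (JJ D) := by
  constructor
  · intro k
    ext a b
    have h3 : D k b a = -D k a b := by
      have := congrFun (congrFun (h1 k) a) b
      simpa [Matrix.transpose_apply] using this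
    simp [JJ, Matrix.conjTranspose_apply, h3]
  · intro k
    have h3 := h2 k
    have h4 : (D (k + 1)).map (algebraMap ℝ ℂ) * (D (k + 2)).map (algebraMap ℝ ℂ) -
        (D (k + 2)).map (algebraMap ℝ ℂ) * (D (k + 1)).map (algebraMap ℝ ℂ) =
        (D k).map (algebraMap ℝ ℂ) := by
      rw [← map_mul', ← map_mul', ← Matrix.map_sub _ (by intro a b; simp), h3]
    simp only [JJ, smul_mul_assoc, mul_smul_comm, smul_smul, Complex.I_mul_I]
    rw [← smul_sub, h4]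

/-- the Casimir -/
noncomputable def CC (J : Fin 3 → Matrix (Fin d) (Fin d) ℂ) : Matrix (Fin d) (Fin d) ℂ :=
  J 0 * J 0 + J 1 * J 1 + J 2 * J 2

lemma comm0 {J : Fin 3 → Matrix (Fin d) (Fin d) ℂ} (hJ : Cnt.JT J) : CC J * J 0 = J 0 * CC J := by
  have a := hJ.c01
  have b := hJ.c20
  have e : CC J * J 0 - J 0 * CC J = -(J 1 * (J 0 * J 1 - J 1 * J 0) + (J 0 * J 1 - J 1 * J 0) * J 1)
      + (J 2 * (J 2 * J 0 - J 0 * J 2) + (J 2 * J 0 - J 0 * J 2) * J 2) := by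
    unfold CC; noncomm_ring
  rw [a, b] at e
  rw [← sub_eq_zero, e]
  simp only [mul_smul_comm, smul_mul_assoc]
  abel

lemma comm1 {J : Fin 3 → Matrix (Fin d) (Fin d) ℂ} (hJ : Cnt.JT J) : CC J * J 1 = J 1 * CC J := by
  have a := hJ.c01
  have b := hJ.c12
  have e : CC J * J 1 - J 1 * CC J = (J 0 * (J 0 * J 1 - J 1 * J 0) + (J 0 * J 1 - J 1 * J 0) * J 0)
      - (J 2 * (J 1 * J 2 - J 2 * J 1) + (J 1 * J 2 - J 2 * J 1) * J 2) := by
    unfold CC; noncomm_ring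
  rw [a, b] at e
  rw [← sub_eq_zero, e]
  simp only [mul_smul_comm, smul_mul_assoc]
  abel

lemma comm2 {J : Fin 3 → Matrix (Fin d) (Fin d) ℂ} (hJ : Cnt.JT J) : CC J * J 2 = J 2 * CC J := by
  have a := hJ.c20
  have b := hJ.c12
  have e : CC J * J 2 - J 2 * CC J = -(J 0 * (J 2 * J 0 - J 0 * J 2) + (J 2 * J 0 - J 0 * J 2) * J 0)
      + (J 1 * (J 1 * J 2 - J 2 * J 1) + (J 1 * J 2 - J 2 * J 1) * J 1) := by
    unfold CC; noncomm_ring
  rw [a, b] at e
  rw [← sub_eq_zero, e]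
  simp only [mul_smul_comm, smul_mul_assoc]
  abel

lemma cas_ident {J : Fin 3 → Matrix (Fin d) (Fin d) ℂ} (hJ : Cnt.JT J) :
    (4 : ℂ) • CC J = (4 : ℂ) • (Cnt.Em J * Cnt.Ep J) + (2 : ℂ) • Cnt.Hh J + Cnt.Hh J * Cnt.Hh J := by
  have a := hJ.c01
  have e : Cnt.Em J * Cnt.Ep J = J 0 * J 0 + J 1 * J 1 + Complex.I • (J 0 * J 1 - J 1 * J 0) := by
    simp only [Cnt.Em, Cnt.Ep, mul_add, sub_mul, smul_mul_assoc, mul_smul_comm, smul_smul,
      Complex.I_mul_I, smul_sub]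
    module
  rw [e, a, smul_smul, Complex.I_mul_I]
  simp only [CC, Cnt.Hh, smul_mul_assoc, mul_smul_comm, smul_smul]
  module

end CasAux

open CasAux in
theorem cas (d : ℕ) : CasStmt d := by
  intro D h1 h2 c v hv hc
  have hJ := jt D h1 h2
  set J := JJ D with hJd
  have T := hJ.htr
  set K : Submodule ℂ (EuclideanSpace ℂ (Fin d)) :=
    Module.End.eigenspace (Cnt.TL (CC J)) (c : ℂ) with hK
  have hmem : ∀ x, x ∈ K ↔ Cnt.TL (CC J) x = (c : ℂ) • x := fun x =>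
    Module.End.mem_eigenspace_iff
  -- the complexified vector
  have hCC : CC J = (-(∑ k, D k * D k)).map (algebraMap ℝ ℂ) := by
    rw [Fin.sum_univ_three]
    ext a b
    simp only [CC, hJd, JJ, Matrix.map_apply, Matrix.neg_apply, Matrix.add_apply, smul_mul_assoc,
      mul_smul_comm, smul_smul, Complex.I_mul_I, Matrix.smul_apply, ← map_mul', map_neg, map_add]
    simp
    ring
  have hK0 : K ≠ ⊥ := by
    intro h
    have hin : (WithLp.toLp 2 fun A => ((v A : ℝ) : ℂ) : EuclideanSpace ℂ (Fin d)) ∈ K := by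
      rw [hmem, hCC]
      ext A
      have h3 := congrFun hc A
      have h4 : ((-(∑ k, D k * D k)).mulVec v) A = c * v A := by
        rw [Matrix.neg_mulVec, Matrix.sum_mulVec]
        simpa using h3
      have h5 : ((-(∑ k, D k * D k)).map (algebraMap ℝ ℂ)).mulVec (fun A => ((v A : ℝ) : ℂ)) A =
          ((((-(∑ k, D k * D k)).mulVec v) A : ℝ) : ℂ) := by
        simp only [Matrix.mulVec, dotProduct, Matrix.map_apply]
        push_cast
        rfl
      have h6 : (Cnt.TL ((-(∑ k, D k * D k)).map (algebraMap ℝ ℂ))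
          (WithLp.toLp 2 fun A => ((v A : ℝ) : ℂ))) A =
          ((-(∑ k, D k * D k)).map (algebraMap ℝ ℂ)).mulVec (fun A => ((v A : ℝ) : ℂ)) A := by
        simp [Cnt.TL, Matrix.toLpLin_apply]
      rw [h6, h5, h4]
      simp
    rw [h, Submodule.mem_bot] at hin
    apply hv
    funext A
    have := congrArg (fun x : EuclideanSpace ℂ (Fin d) => x A) hin
    simpa using this
  have inv : ∀ M : Matrix (Fin d) (Fin d) ℂ, CC J * M = M * CC J →
      ∀ x ∈ K, Cnt.TL M x ∈ K := by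
    intro M hM x hx
    rw [hmem] at hx ⊢
    rw [← Cnt.TL_mul, hM, Cnt.TL_mul, hx, map_smul]
  have c0 := comm0 hJ
  have c1 := comm1 hJ
  have c2 := comm2 hJ
  obtain ⟨n, w, hwK, hw0, hw1⟩ := T.exists_hw K hK0
    (inv _ (by rw [Cnt.Hh, mul_smul_comm, smul_mul_assoc, c2]))
    (inv _ (by rw [Cnt.Ep, mul_add, add_mul, mul_smul_comm, smul_mul_assoc, c0, c1]))
  rw [Cnt.mem_hw] at hw1
  have h7 : Cnt.TL ((4 : ℂ) • CC J) w = ((2 : ℂ) * n + (n : ℂ) * n) • w := by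
    rw [cas_ident hJ]
    have e1 : Cnt.TL ((4 : ℂ) • (Cnt.Em J * Cnt.Ep J) + (2 : ℂ) • Cnt.Hh J + Cnt.Hh J * Cnt.Hh J) w =
        (4 : ℂ) • Cnt.TL (Cnt.Em J * Cnt.Ep J) w + (2 : ℂ) • Cnt.TL (Cnt.Hh J) w +
          Cnt.TL (Cnt.Hh J * Cnt.Hh J) w := by
      simp [Cnt.TL, map_add]
    rw [e1, Cnt.TL_mul, Cnt.TL_mul, hw1.1, hw1.2, map_zero, smul_zero, zero_add, map_smul, hw1.2,
      smul_smul, smul_smul, ← add_smul]
  have h8 : Cnt.TL ((4 : ℂ) • CC J) w = ((4 : ℂ) * c) • w := by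
    have e1 : Cnt.TL ((4 : ℂ) • CC J) w = (4 : ℂ) • Cnt.TL (CC J) w := by
      simp [Cnt.TL]
    rw [e1, (hmem w).1 hwK, smul_smul]
  have h9 : (4 : ℂ) * c = (2 : ℂ) * n + (n : ℂ) * n :=
    smul_left_injective ℂ hw0 (h8.symm.trans h7)
  have h10 : (4 : ℝ) * c = 2 * n + n * n := by exact_mod_cast h9
  rcases Nat.eq_zero_or_pos n with hn | hn
  · left
    subst hn
    simp at h10
    linarith
  · right
    have : (1 : ℝ) ≤ n := by exact_mod_cast hn
    nlinarith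

end Vale.Agent.P353.AN.G
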