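import Vale.Agent.P353.AN.G.Stmt
import Vale.Agent.P353.Z.U.MAd
import Vale.Agent.P353.Z.U.MSet

/-! # P353, all `N`, block G: the centre acts trivially (G33) -/

open MeasureTheory Filter Topology

namespace Vale.Agent.P353.AN.G

open Vale.Agent.P353.Z Vale.Agent.P353.Z.U

universe w

variable {N d : ℕ} {F : Type w} [NormedAddCommGroup F] [InnerProductSpace ℂ F]

/-- Schur's lemma -/
theorem cen_schur [FiniteDimensional ℂ F] (M : BFSS.Model N d F) (K : F →L[ℂ] F)
    (hK : ∀ α A v, K (M.θ α A v) = M.θ α A (K v)) : ∃ μ : ℂ, ∀ v, K v = μ • v := by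
  have : Nontrivial F := by
    obtain ⟨v, hv⟩ := M.nontrivial
    exact ⟨v, 0, hv⟩
  obtain ⟨μ, hμ⟩ := Module.End.exists_eigenvalue (K : F →ₗ[ℂ] F)
  refine ⟨μ, ?_⟩
  have hinv : ∀ α A, ∀ v ∈ Module.End.eigenspace (K : F →ₗ[ℂ] F) μ,
      M.θ α A v ∈ Module.End.eigenspace (K : F →ₗ[ℂ] F) μ := by
    intro α A v hv
    rw [Module.End.mem_eigenspace_iff] at hv ⊢
    have hv' : K v = μ • v := hv
    change K (M.θ α A v) = μ • M.θ α A v
    rw [hK, hv', map_smul]
  rcases M.θ_irreducible _ hinv with h | h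
  · exact absurd h hμ
  · intro v
    have hv : v ∈ Module.End.eigenspace (K : F →ₗ[ℂ] F) μ := by rw [h]; trivial
    rw [Module.End.mem_eigenspace_iff] at hv
    exact hv

theorem cen_pow (U : BFSS.SU N) (z : ℂ) (hU : U.val = z • (1 : Matrix (Fin N) (Fin N) ℂ)) :
    z ^ N = 1 := by
  have h := (Matrix.mem_specialUnitaryGroup_iff.1 U.2).2
  rw [hU, Matrix.det_smul, Matrix.det_one, mul_one, Fintype.card_fin] at h
  exact h

theorem cen_norm (hN : 0 < N) (z : ℂ) (hz : z ^ N = 1) : ‖z‖ = 1 := by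
  have h1 := congrArg norm hz
  rw [norm_pow, norm_one] at h1
  exact (pow_eq_one_iff_of_nonneg (norm_nonneg _) hN.ne').1 h1

theorem cen_ad (M : BFSS.Model N d F) (hN : 0 < N) (U : BFSS.SU N) (z : ℂ)
    (hU : U.val = z • (1 : Matrix (Fin N) (Fin N) ℂ)) (B A : Fin d) :
    BFSS.adCoeff M.T U B A = if B = A then 1 else 0 := by
  have h1 := cen_norm hN z (cen_pow U z hU)
  have h2 : z * (starRingEnd ℂ) z = 1 := by
    rw [Complex.mul_conj, Complex.normSq_eq_norm_sq, h1]
    norm_num
  have h3 : U.val * M.T A * U.val.conjTranspose = M.T A := by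
    rw [hU, Matrix.conjTranspose_smul, Matrix.conjTranspose_one, Matrix.smul_mul, one_mul,
      Matrix.smul_mul, Matrix.mul_smul, mul_one, smul_smul, RCLike.star_def, h2, one_smul]
  unfold BFSS.adCoeff
  rw [h3, M.T_orthonormal]
  split_ifs <;> simp

theorem cen_angle (hN : 0 < N) (z : ℂ) (hz : z ^ N = 1) :
    ∃ x : Fin N → ℝ, ∑ j, x j = 0 ∧ ∀ j, Complex.exp ((x j : ℂ) * Complex.I) = z := by
  classical
  have h1 := cen_norm hN z hz
  have h2 : Complex.exp ((Complex.arg z : ℂ) * Complex.I) = z := by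
    have h3 := Complex.norm_mul_exp_arg_mul_I z
    rw [h1, Complex.ofReal_one, one_mul] at h3
    exact h3
  have h4 : Complex.exp ((N : ℂ) * ((Complex.arg z : ℂ) * Complex.I)) = 1 := by
    rw [Complex.exp_nat_mul, h2, hz]
  obtain ⟨k, hk⟩ := Complex.exp_eq_one_iff.1 h4
  have h5 : (N : ℝ) * Complex.arg z = k * (2 * Real.pi) := by
    have h6 : ((N : ℂ) * (Complex.arg z : ℂ)) * Complex.I = ((k : ℂ) * (2 * Real.pi)) * Complex.I := by
      linear_combination hk
    have h7 := mul_right_cancel₀ Complex.I_ne_zero h6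
    exact_mod_cast h7
  have hNe : NeZero N := ⟨hN.ne'⟩
  refine ⟨fun j => if j = 0 then Complex.arg z - k * (2 * Real.pi) else Complex.arg z, ?_, ?_⟩
  · have h8 : ∀ j : Fin N, (if j = 0 then Complex.arg z - k * (2 * Real.pi) else Complex.arg z) =
        Complex.arg z - (if j = 0 then k * (2 * Real.pi) else 0) := by
      intro j
      split_ifs <;> ring
    simp only [h8]
    rw [Finset.sum_sub_distrib, Finset.sum_const, Finset.card_univ, Fintype.card_fin,
      nsmul_eq_mul, h5, Finset.sum_ite_eq' Finset.univ (0 : Fin N), if_pos (Finset.mem_univ _),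
      sub_self]
  · intro j
    show Complex.exp (((if j = 0 then Complex.arg z - k * (2 * Real.pi) else Complex.arg z : ℝ) : ℂ) *
      Complex.I) = z
    split_ifs
    · have h9 : (((Complex.arg z - k * (2 * Real.pi) : ℝ)) : ℂ) * Complex.I =
          (Complex.arg z : ℂ) * Complex.I - k * (2 * Real.pi * Complex.I) := by
        push_cast
        ring
      rw [h9, Complex.exp_periodic.sub_int_mul_eq, h2]
    · exact h2

theorem cen_exp (x : Fin N → ℝ) (z : ℂ) (hx : ∀ j, Complex.exp ((x j : ℂ) * Complex.I) = z) :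
    NormedSpace.exp (Complex.I • (Matrix.diagonal fun j => ((x j : ℝ) : ℂ))) =
      z • (1 : Matrix (Fin N) (Fin N) ℂ) := by
  rw [← Matrix.diagonal_smul, Matrix.exp_diagonal, ← Matrix.diagonal_one, ← Matrix.diagonal_smul]
  congr 1
  funext j
  rw [Pi.coe_exp, Pi.smul_apply, Pi.smul_apply, smul_eq_mul, smul_eq_mul, mul_one,
    ← Complex.exp_eq_exp_ℂ, mul_comm]
  exact hx j

theorem cen_coef (M : BFSS.Model N d F) (hN : 0 < N) (X : Matrix (Fin N) (Fin N) ℂ)
    (hX : X.conjTranspose = X) (ht : X.trace = 0) :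
    ∃ h : Fin d → ℝ, X = ∑ A, (h A : ℂ) • M.T A := by
  have hreal : ∀ A, (M.T A * X).trace = (((M.T A * X).trace.re : ℝ) : ℂ) := by
    intro A
    symm
    rw [← Complex.conj_eq_iff_re]
    have h1 : (M.T A * X).conjTranspose.trace = star (M.T A * X).trace :=
      Matrix.trace_conjTranspose _
    rw [Matrix.conjTranspose_mul, M.T_hermitian, hX, Matrix.trace_mul_comm] at h1
    exact h1.symm
  refine ⟨fun A => (M.T A * X).trace.re, ?_⟩
  have h2 := mad_complete M hN X
  rw [ht, zero_div, zero_smul, add_zero] at h2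
  conv_lhs => rw [h2]
  refine Finset.sum_congr rfl fun A _ => ?_
  rw [hreal A]

/-- **G33 Cen** -/
theorem cen [FiniteDimensional ℂ F] (M : BFSS.Model N d F)
    (h11 : ∀ S : Setup d F, LowExStmt S) (h14 : ∀ S : Setup d F, HKillStmt S)
    (h32 : ExpHStmt M) : CenStmt M := by
  intro hd U z hU v
  have hN : 0 < N := by
    rcases Nat.eq_zero_or_pos N with h | h
    · have h1 := M.dim_eq
      rw [h] at h1
      simp at h1
      omega
    · exact h
  obtain ⟨c, hc⟩ := cen_schur M (M.S U) (by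
    intro α A v
    rw [M.S_rotates, Finset.sum_eq_single A]
    · rw [cen_ad M hN U z hU, if_pos rfl, Complex.ofReal_one, one_smul]
    · intro B _ hB
      rw [cen_ad M hN U z hU, if_neg hB, Complex.ofReal_zero, zero_smul]
    · intro h
      exact absurd (Finset.mem_univ A) h)
  have hR : Rep M (ofModel M) := ofModel_rep M
  have h0 : (ofModel M).Vm 1 0 = 0 := by
    simp [Setup.Vm, Setup.V, Setup.FF, Setup.det3]
  obtain ⟨E, Ω, hΩ⟩ := h11 (ofModel M) M.θ_irreducible M.nontrivial 0 h0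
  obtain ⟨x, hx0, hx⟩ := cen_angle hN z (cen_pow U z hU)
  obtain ⟨h, hh⟩ := cen_coef M hN (Matrix.diagonal fun j => ((x j : ℝ) : ℂ))
    (by
      rw [Matrix.diagonal_conjTranspose]
      congr 1
      funext j
      rw [Pi.star_apply, RCLike.star_def, Complex.conj_ofReal])
    (by
      rw [Matrix.trace_diagonal, ← Complex.ofReal_sum, hx0, Complex.ofReal_zero])
  have hk := h14 (ofModel M) 0 h0 E Ω hΩ h (by
    intro i B
    simp)
  have hfix := h32 hd (ofModel M) hR h Ω hk U (by rw [← hh, cen_exp x z hx, hU])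
  have h1 : c • Ω = Ω := by rw [← hc]; exact hfix
  have hΩ0 : Ω ≠ 0 := by
    intro h2
    have h3 := hΩ.norm
    rw [h2, norm_zero] at h3
    exact zero_ne_one h3
  have hc1 : c = 1 := by
    have h2 : (c - 1) • Ω = 0 := by rw [sub_smul, h1, one_smul, sub_self]
    rcases smul_eq_zero.1 h2 with h3 | h3
    · exact sub_eq_zero.1 h3
    · exact absurd h3 hΩ0
  rw [hc, hc1, one_smul]

end Vale.Agent.P353.AN.G
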