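import Vale.Agent.P353.AN.G.Stmt

/-! # P353, all `N`, block G: G28, doubling -/

open MeasureTheory Filter Topology
open scoped ContDiff ENNReal

namespace Vale.Agent.P353.AN.G

open Vale.Agent.P353.Z Vale.Agent.P353.Z.U

section Dbl

variable {N d : ℕ} {F : Type*} [NormedAddCommGroup F] [InnerProductSpace ℂ F]

/-- the set of pairs `(U, x)` with `|Up - x| ≤ ρ` and `|x - p| ≤ R` -/
private def dblA (M : BFSS.Model N d F) (p : Cfg d) (ρ R : ℝ) : Set (BFSS.SU N × Cfg d) :=
  {q | ‖M.act q.1 p - q.2‖ ≤ ρ ∧ ‖q.2 - p‖ ≤ R}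

private lemma dbl_cont (M : BFSS.Model N d F) (h22 : ActStmt M) (p : Cfg d) :
    Continuous fun U : BFSS.SU N => M.act U p := by
  obtain ⟨-, -, -, -, -, h6, -⟩ := h22
  have h1 : Continuous fun U : BFSS.SU N => (U, p) := by fun_prop
  have h2 : Continuous ((fun q : BFSS.SU N × Cfg d => M.act q.1 q.2) ∘
      fun U : BFSS.SU N => (U, p)) := Continuous.comp h6 h1
  exact h2

private lemma dbl_meas (M : BFSS.Model N d F) (h22 : ActStmt M) (p : Cfg d) (ρ R : ℝ) :
    MeasurableSet (dblA M p ρ R) := by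
  have h1 : Continuous fun q : BFSS.SU N × Cfg d => M.act q.1 p :=
    (dbl_cont M h22 p).comp continuous_fst
  have h2 : IsClosed (dblA M p ρ R) :=
    (isClosed_le (h1.sub continuous_snd).norm continuous_const).inter
      (isClosed_le (continuous_snd.sub continuous_const).norm continuous_const)
  exact h2.measurableSet

/-- `mu` as an extended number -/
private lemma dbl_mu (M : BFSS.Model N d F) (p : Cfg d) (r : ℝ) :
    ENNReal.ofReal (mu M p r) = hm N {U | ‖M.act U p - p‖ ≤ r} := by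
  unfold mu
  exact ENNReal.ofReal_toReal (measure_ne_top _ _)

private lemma dbl_sub (M : BFSS.Model N d F) (h22 : ActStmt M) (U : BFSS.SU N) (x y : Cfg d) :
    M.act U x - M.act U y = M.act U (x - y) := by
  have h1 := h22.2.2.1 U (x - y) y
  rw [sub_add_cancel] at h1
  rw [h1, add_sub_cancel_right]

/-- `N_ρ(x) ≤ mu(2ρ)` -/
private lemma dbl_up (M : BFSS.Model N d F) (h22 : ActStmt M) (p x : Cfg d) (ρ : ℝ) :
    hm N {U | ‖M.act U p - x‖ ≤ ρ} ≤ hm N {U | ‖M.act U p - p‖ ≤ 2 * ρ} := by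
  by_cases hne : {U : BFSS.SU N | ‖M.act U p - x‖ ≤ ρ}.Nonempty
  · obtain ⟨V, hV⟩ := hne
    have hV' : ‖M.act V p - x‖ ≤ ρ := hV
    have h1 : {U | ‖M.act U p - x‖ ≤ ρ} ⊆
        (fun U => V⁻¹ * U) ⁻¹' {U | ‖M.act U p - p‖ ≤ 2 * ρ} := by
      intro U hU
      have hU' : ‖M.act U p - x‖ ≤ ρ := hU
      change ‖M.act (V⁻¹ * U) p - p‖ ≤ 2 * ρ
      have h2 : p = M.act V⁻¹ (M.act V p) := by
        rw [← h22.1, inv_mul_cancel, h22.2.1]
      have h3 : M.act (V⁻¹ * U) p - p = M.act V⁻¹ (M.act U p - M.act V p) := by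
        rw [← dbl_sub M h22, ← h2, h22.1]
      rw [h3, h22.2.2.2.2.1]
      calc ‖M.act U p - M.act V p‖ = ‖(M.act U p - x) - (M.act V p - x)‖ := by
            rw [sub_sub_sub_cancel_right]
        _ ≤ ‖M.act U p - x‖ + ‖M.act V p - x‖ := norm_sub_le _ _
        _ ≤ 2 * ρ := by linarith
    refine (measure_mono h1).trans_eq ?_
    rw [measure_preimage_mul]
  · rw [Set.not_nonempty_iff_eq_empty.1 hne, measure_empty]
    exact bot_le

private lemma dbl_main (M : BFSS.Model N d F) (h22 : ActStmt M) (p : Cfg d) (ρ R : ℝ) :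
    ENNReal.ofReal (mu M p (R - ρ)) * volume (Metric.closedBall (0 : Cfg d) ρ)
      ≤ ENNReal.ofReal (mu M p (2 * ρ)) * volume (Metric.closedBall (0 : Cfg d) R) := by
  have hA := dbl_meas M h22 p ρ R
  have hlow : ENNReal.ofReal (mu M p (R - ρ)) * volume (Metric.closedBall (0 : Cfg d) ρ)
      ≤ ((hm N).prod volume) (dblA M p ρ R) := by
    rw [Measure.prod_apply hA, dbl_mu]
    have hS : MeasurableSet {U : BFSS.SU N | ‖M.act U p - p‖ ≤ R - ρ} :=
      (isClosed_le ((dbl_cont M h22 p).sub continuous_const).norm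
        continuous_const).measurableSet
    have h1 : ∀ U ∈ {U : BFSS.SU N | ‖M.act U p - p‖ ≤ R - ρ},
        volume (Metric.closedBall (0 : Cfg d) ρ) ≤ volume (Prod.mk U ⁻¹' dblA M p ρ R) := by
      intro U hU
      have hU' : ‖M.act U p - p‖ ≤ R - ρ := hU
      have h2 : Metric.closedBall (M.act U p) ρ ⊆ Prod.mk U ⁻¹' dblA M p ρ R := by
        intro x hx
        rw [mem_closedBall_iff_norm] at hx
        refine ⟨?_, ?_⟩
        · change ‖M.act U p - x‖ ≤ ρ
          rw [norm_sub_rev]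
          exact hx
        · change ‖x - p‖ ≤ R
          calc ‖x - p‖ = ‖(x - M.act U p) + (M.act U p - p)‖ := by rw [sub_add_sub_cancel]
            _ ≤ ‖x - M.act U p‖ + ‖M.act U p - p‖ := norm_add_le _ _
            _ ≤ R := by linarith
      refine le_trans (le_of_eq ?_) (measure_mono h2)
      rw [Measure.addHaar_closedBall_center volume (M.act U p)]
    calc hm N {U | ‖M.act U p - p‖ ≤ R - ρ} * volume (Metric.closedBall (0 : Cfg d) ρ)
        = ∫⁻ _ in {U | ‖M.act U p - p‖ ≤ R - ρ}, volume (Metric.closedBall (0 : Cfg d) ρ) ∂(hm N) := by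
          rw [setLIntegral_const, mul_comm]
      _ ≤ ∫⁻ U in {U | ‖M.act U p - p‖ ≤ R - ρ}, volume (Prod.mk U ⁻¹' dblA M p ρ R) ∂(hm N) :=
          setLIntegral_mono' hS h1
      _ ≤ _ := setLIntegral_le_lintegral _ _
  have hup : ((hm N).prod volume) (dblA M p ρ R)
      ≤ ENNReal.ofReal (mu M p (2 * ρ)) * volume (Metric.closedBall (0 : Cfg d) R) := by
    rw [Measure.prod_apply_symm hA, dbl_mu]
    have hB : MeasurableSet (Metric.closedBall p R) := Metric.isClosed_closedBall.measurableSet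
    have h1 : ∀ x : Cfg d, hm N ((fun U => (U, x)) ⁻¹' dblA M p ρ R) ≤
        (Metric.closedBall p R).indicator
          (fun _ => hm N {U | ‖M.act U p - p‖ ≤ 2 * ρ}) x := by
      intro x
      by_cases hx : x ∈ Metric.closedBall p R
      · rw [Set.indicator_of_mem hx]
        refine le_trans (measure_mono ?_) (dbl_up M h22 p x ρ)
        intro U hU
        exact hU.1
      · rw [Set.indicator_of_notMem hx]
        have h2 : (fun U => (U, x)) ⁻¹' dblA M p ρ R = ∅ := by
          ext U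
          simp only [Set.mem_preimage, Set.mem_empty_iff_false, iff_false]
          intro hU
          exact hx (mem_closedBall_iff_norm.2 hU.2)
        rw [h2, measure_empty]
    refine (lintegral_mono h1).trans_eq ?_
    rw [lintegral_indicator hB, setLIntegral_const, Measure.addHaar_closedBall_center]
  exact hlow.trans hup

theorem dbl (M : BFSS.Model N d F) (h22 : ActStmt M) : DblStmt M := by
  intro p r hr
  constructor
  · -- positivity
    have hop : IsOpen {U : BFSS.SU N | ‖M.act U p - p‖ < r} :=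
      isOpen_lt ((dbl_cont M h22 p).sub continuous_const).norm continuous_const
    have h1 : (1 : BFSS.SU N) ∈ {U : BFSS.SU N | ‖M.act U p - p‖ < r} := by
      change ‖M.act 1 p - p‖ < r
      rw [h22.2.1, sub_self, norm_zero]
      exact hr
    have h2 : 0 < hm N {U : BFSS.SU N | ‖M.act U p - p‖ < r} := hop.measure_pos _ ⟨1, h1⟩
    have h3 : 0 < hm N {U : BFSS.SU N | ‖M.act U p - p‖ ≤ r} :=
      h2.trans_le (measure_mono fun U (hU : ‖M.act U p - p‖ < r) => (le_of_lt hU :
        ‖M.act U p - p‖ ≤ r))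
    exact ENNReal.toReal_pos h3.ne' (measure_ne_top _ _)
  · have h1 := dbl_main M h22 p (r / 8) (17 * r / 8)
    have e1 : 17 * r / 8 - r / 8 = 2 * r := by ring
    have e2 : 2 * (r / 8) = r / 4 := by ring
    rw [e1, e2, Measure.addHaar_closedBall _ _ (by positivity),
      Measure.addHaar_closedBall _ _ (by positivity)] at h1
    have hfin : Module.finrank ℝ (Cfg d) = 9 * d := by
      rw [finrank_euclideanSpace, Fintype.card_prod, Fintype.card_fin, Fintype.card_fin]
    rw [hfin] at h1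
    set c := volume (Metric.ball (0 : Cfg d) 1) with hc
    have hc0 : c ≠ 0 := (Metric.measure_ball_pos volume (0 : Cfg d) one_pos).ne'
    have hct : c ≠ ⊤ := measure_ball_lt_top.ne
    have hmu0 : ∀ s, 0 ≤ mu M p s := fun s => measureReal_nonneg
    have h2 : mu M p (2 * r) * ((r / 8) ^ (9 * d) * c.toReal)
        ≤ mu M p (r / 4) * ((17 * r / 8) ^ (9 * d) * c.toReal) := by
      have h3 := ENNReal.toReal_mono (by finiteness) h1
      rw [ENNReal.toReal_mul, ENNReal.toReal_mul, ENNReal.toReal_mul, ENNReal.toReal_mul,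
        ENNReal.toReal_ofReal (hmu0 _), ENNReal.toReal_ofReal (hmu0 _),
        ENNReal.toReal_ofReal (by positivity), ENNReal.toReal_ofReal (by positivity)] at h3
      exact h3
    have hcp : 0 < c.toReal := ENNReal.toReal_pos hc0 hct
    have e3 : (17 * r / 8) ^ (9 * d) = 17 ^ (9 * d) * (r / 8) ^ (9 * d) := by
      rw [← mul_pow]
      congr 1
      ring
    rw [e3] at h2
    have hq : 0 < (r / 8) ^ (9 * d) * c.toReal := by positivity
    refine le_of_mul_le_mul_right ?_ hq
    calc mu M p (2 * r) * ((r / 8) ^ (9 * d) * c.toReal)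
        ≤ mu M p (r / 4) * (17 ^ (9 * d) * (r / 8) ^ (9 * d) * c.toReal) := h2
      _ = 17 ^ (9 * d) * mu M p (r / 4) * ((r / 8) ^ (9 * d) * c.toReal) := by ring

end Dbl

end Vale.Agent.P353.AN.G
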