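import Vale.Agent.P353.AN.G.Stmt
import Vale.Agent.P353.Z.U.MGauss

/-! # P353, all `N`, block G: G32, the action of `exp (iH)` on vectors killed by the generator -/

open MeasureTheory Filter Topology
open scoped ContDiff

namespace Vale.Agent.P353.AN.G

open Vale.Agent.P353.Z Vale.Agent.P353.Z.U

variable {N d : ℕ} {F : Type*} [NormedAddCommGroup F] [InnerProductSpace ℂ F]

/-- the generators in basis-free form -/
lemma exh_cS (M : BFSS.Model N d F) (S : Setup d F) (hrep : Rep M S) (C : Fin d) :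
    S.cS C = (-Complex.I) • mgz M.toOld (M.toOld.T C) := by
  have hf : S.f = M.toOld.f := hrep.hf
  have hth : S.th = M.toOld.θ := hrep.hth
  have hb : ∀ D E, S.bil 1 D E = mgb M.toOld D E := by
    intro D E
    simp only [CS.bil, CS.vec_one, hth]
    rfl
  have ht : ∀ D E, (M.toOld.T C * (M.toOld.T D * M.toOld.T E -
      M.toOld.T E * M.toOld.T D)).trace = Complex.I * (M.f C D E : ℂ) := by
    intro D E
    rw [Matrix.trace_mul_comm]
    have h3 := mf_trace M D E C
    rw [← mf_cyc M C D E] at h3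
    exact h3
  rw [mgz_apply, Setup.cS]
  simp only [hb, ht, hf]
  rw [smul_smul, Finset.smul_sum, Finset.smul_sum]
  refine Finset.sum_congr rfl fun D _ => ?_
  rw [Finset.smul_sum, Finset.smul_sum]
  refine Finset.sum_congr rfl fun E _ => ?_
  rw [smul_smul, smul_smul]
  congr 1
  show -Complex.I / 2 * (M.f C D E : ℂ) = -Complex.I * (-Complex.I / 2) *
    (Complex.I * (M.f C D E : ℂ))
  linear_combination (-Complex.I / 2 * (M.f C D E : ℂ)) * Complex.I_sq

/-- `exp (s z) v = v` if `z v = 0` -/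
lemma exh_kill [CompleteSpace F] (z : F →L[ℂ] F) (v : F) (hz : z v = 0) (s : ℝ) :
    mgE z s v = v := by
  have hφ : ∀ s, HasDerivAt (fun s => mgE z s v) 0 s := by
    intro s
    have h1 := ((ContinuousLinearMap.apply ℂ F v).restrictScalars ℝ).hasFDerivAt.comp_hasDerivAt s
      (mgE_deriv z s)
    refine h1.congr_deriv ?_
    show (z * mgE z s) v = 0
    have hc : z * mgE z s = mgE z s * z := mgE_comm (Commute.refl z) s
    rw [hc]
    show mgE z s (z v) = 0
    rw [hz, map_zero]
  have hconst := is_const_of_deriv_eq_zero (fun s => (hφ s).differentiableAt)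
    (fun s => (hφ s).deriv) s 0
  rw [hconst, mgE_zero]
  rfl

/-- `exp (i U x U*) = U exp (i x) U*` -/
lemma exh_tor (U : Matrix.specialUnitaryGroup (Fin N) ℂ) (x : mgH N) :
    NormedSpace.exp (Complex.I • mgc U.val (mgd x)) = mgc U.val (mgtorM x) := by
  have hinv : (U.val)⁻¹ = U.val.conjTranspose :=
    Matrix.inv_eq_right_inv (mg_unit U).2
  have hU : IsUnit U.val := by
    rw [Matrix.isUnit_iff_isUnit_det]
    rw [(Matrix.mem_specialUnitaryGroup_iff.1 U.2).2]
    exact isUnit_one
  have h1 : Complex.I • mgc U.val (mgd x) = U.val * (Complex.I • mgd x) * (U.val)⁻¹ := by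
    rw [hinv, mgc, Matrix.mul_smul, Matrix.smul_mul]
  rw [h1, Matrix.exp_conj _ _ hU, hinv, mgc]
  congr 2
  rw [mgd, mgtorM, ← Matrix.diagonal_smul, Matrix.exp_diagonal]
  congr 1
  funext j
  rw [Pi.coe_exp, ← Complex.exp_eq_exp_ℂ]
  show Complex.exp (Complex.I * _) = _
  rw [mul_comm]

/-- **G32** -/
theorem expH [FiniteDimensional ℂ F] (M : BFSS.Model N d F) : ExpHStmt M := by
  intro hd S hrep h v hv V hV
  have hcomp : CompleteSpace F := FiniteDimensional.complete ℂ F
  obtain ⟨hN, -⟩ := mg_dim M.toOld hd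
  set H : Matrix (Fin N) (Fin N) ℂ := ∑ A, (h A : ℂ) • M.T A with hHdef
  have hH : H.conjTranspose = H := by
    rw [hHdef, Matrix.conjTranspose_sum]
    refine Finset.sum_congr rfl fun A _ => ?_
    rw [Matrix.conjTranspose_smul, M.T_hermitian, RCLike.star_def, Complex.conj_ofReal]
  have htr : H.trace = 0 := by
    rw [hHdef, Matrix.trace_sum]
    refine Finset.sum_eq_zero fun A _ => ?_
    rw [Matrix.trace_smul, M.T_traceless, smul_zero]
  obtain ⟨U, x, hUx⟩ := mg_diag hN H hH htr
  have hV2 : V = U * mgtor ((1 : ℝ) • x) * U⁻¹ := by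
    apply Subtype.ext
    rw [hV, ← hUx, exh_tor, one_smul]
    rfl
  have hS : M.S V = mgE (mgz M.toOld H) 1 := by
    rw [hV2, ← hUx]
    exact mgS_conj M.toOld hd U x 1
  rw [hS]
  apply exh_kill
  have hZ : mgz M.toOld H = Complex.I • ∑ C, (h C : ℂ) • S.cS C := by
    rw [hHdef, map_sum, Finset.smul_sum]
    refine Finset.sum_congr rfl fun C _ => ?_
    rw [map_smul, exh_cS M S hrep C, smul_smul, smul_smul]
    show (h C : ℂ) • mgz M.toOld (M.toOld.T C) = _
    congr 1
    linear_combination (h C : ℂ) * Complex.I_sq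
  rw [hZ]
  show Complex.I • ((∑ C, (h C : ℂ) • S.cS C) v) = 0
  have h5 : (∑ C, (h C : ℂ) • S.cS C) v = ∑ C, (h C : ℂ) • S.cS C v := by
    rw [_root_.sum_apply]
    rfl
  rw [h5, hv, smul_zero]

end Vale.Agent.P353.AN.G
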