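import Vale.Agent.P353.AN.G.Stmt

/-! # P353, all `N`, block G21: scaling of Gaussian integrals -/

open MeasureTheory Filter Topology

namespace Vale.Agent.P353.AN.G

open Vale.Agent.P353.Z Vale.Agent.P353.Z.U

theorem gRat_om {d : ℕ} (m : ℝ) (ξ z : Cfg d) : om m ξ (m • ξ + z) = Real.sqrt m • z := by
  simp [om]

theorem gRat_om4 {d : ℕ} (m : ℝ) (ξ z : Cfg d) :
    om m ξ (m • ξ + (4 : ℝ) • z) = (4 : ℝ) • om m ξ (m • ξ + z) := by
  rw [gRat_om, gRat_om, smul_comm]

theorem gRat_fin (d : ℕ) : Module.finrank ℝ (Cfg d) = 9 * d := by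
  simp [Cfg]

theorem gRat (d : ℕ) : GRatStmt d := by
  intro ξ K hK m L hm hL
  have hs : 0 < Real.sqrt m := Real.sqrt_pos.2 hm
  set f : Cfg d → ℝ := fun x => ph2 m L ξ K x ^ 2 with hf
  set h : Cfg d → ℝ := fun x => if ‖om m ξ x‖ ≤ L / 2 then ph2 m L ξ K x ^ 2 else 0 with hh
  have e1 : ∫ z, f (m • ξ + z) = ∫ x, f x := integral_add_left_eq_self f (m • ξ)
  have e2 : ∫ z, h (m • ξ + z) = ∫ x, h x := integral_add_left_eq_self h (m • ξ)
  have e3 : ∫ z, f (m • ξ + (4 : ℝ) • z) =
      |((4 : ℝ) ^ Module.finrank ℝ (Cfg d))⁻¹| • ∫ z, f (m • ξ + z) :=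
    Measure.integral_comp_smul volume (fun z => f (m • ξ + z)) 4
  have e4 : ∫ x, f x = 4 ^ (9 * d) * ∫ z, f (m • ξ + (4 : ℝ) • z) := by
    rw [e3, gRat_fin, e1, smul_eq_mul, ← mul_assoc, abs_of_pos (by positivity),
      mul_inv_cancel₀ (by positivity), one_mul]
  have hle : ∀ z, f (m • ξ + (4 : ℝ) • z) ≤ h (m • ξ + z) := by
    intro z
    have hq : qK m ξ K (m • ξ + (4 : ℝ) • z) = 16 * qK m ξ K (m • ξ + z) := by
      rw [qK, gRat_om4, qK, map_smul, inner_smul_left, inner_smul_right]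
      simp
      ring
    have hq0 : 0 ≤ qK m ξ K (m • ξ + z) := hK _
    simp only [hf, hh, ph2]
    rw [gRat_om4, norm_smul, hq]
    have h4 : ‖(4 : ℝ)‖ = 4 := by norm_num
    rw [h4]
    by_cases hz : ‖om m ξ (m • ξ + z)‖ ≤ L / 2
    · rw [if_pos (by linarith), if_pos hz, if_pos (by linarith)]
      exact pow_le_pow_left₀ (Real.exp_pos _).le (Real.exp_le_exp.2 (by linarith)) 2
    · rw [if_neg (by linarith), if_neg hz]
      simp
  have hint : Integrable (fun z => h (m • ξ + z)) := by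
    have hc : Continuous fun z : Cfg d => Real.exp (-(1 / 2) * qK m ξ K (m • ξ + z)) ^ 2 := by
      have : Continuous fun z : Cfg d => qK m ξ K (m • ξ + z) := by
        unfold qK om
        fun_prop
      fun_prop
    have hI : (fun z => h (m • ξ + z)) = (Metric.closedBall (0 : Cfg d) (L / 2 / Real.sqrt m)).indicator
        (fun z : Cfg d => Real.exp (-(1 / 2) * qK m ξ K (m • ξ + z)) ^ 2) := by
      funext z
      have hiff : ‖om m ξ (m • ξ + z)‖ ≤ L / 2 ↔ z ∈ Metric.closedBall (0 : Cfg d) (L / 2 / Real.sqrt m) := by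
        rw [gRat_om, norm_smul, Real.norm_of_nonneg hs.le, mem_closedBall_zero_iff, le_div_iff₀ hs, mul_comm]
      by_cases hz : ‖om m ξ (m • ξ + z)‖ ≤ L / 2
      · rw [Set.indicator_of_mem (hiff.1 hz)]
        simp only [hh, ph2]
        rw [if_pos hz, if_pos (by linarith)]
      · rw [Set.indicator_of_notMem (fun hm' => hz (hiff.2 hm'))]
        simp only [hh]
        rw [if_neg hz]
    rw [hI, integrable_indicator_iff Metric.isClosed_closedBall.measurableSet]
    exact hc.continuousOn.integrableOn_compact (isCompact_closedBall _ _)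
  rw [e4, ← e2]
  refine mul_le_mul_of_nonneg_left ?_ (by positivity)
  exact integral_mono_of_nonneg (Eventually.of_forall fun z => by positivity) hint
    (Eventually.of_forall hle)
end Vale.Agent.P353.AN.G
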