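import Vale.Agent.P353.AN.G.Stmt
import Vale.Agent.P353.Z.U.Hes

/-! # P353, all `N`, block G: G07 -/

open MeasureTheory Filter Topology
open scoped ContDiff

namespace Vale.Agent.P353.AN.G

open Vale.Agent.P353.Z Vale.Agent.P353.Z.U
open Vale.Agent.P353.Z.Setup (c3)

variable {d : ℕ} {F : Type*} [NormedAddCommGroup F] [InnerProductSpace ℂ F] (S : Setup d F)

/-- the linearised field strength in terms of the matrices `D_k` -/
theorem gap_lin (ξ w : Cfg d) (k : Fin 3) (A : Fin d) :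
    S.LG ξ k A w = 2 * (w (c3 k, A) - ((hesD S ξ (k + 1)).mulVec (fun A => w (c3 (k + 2), A)) A -
      (hesD S ξ (k + 2)).mulVec (fun A => w (c3 (k + 1), A)) A)) := by
  rw [hesD_mulVec, hesD_mulVec]
  unfold Setup.LG Setup.LF
  have h2 : ∑ B, ∑ C, S.f A B C * (ξ (c3 (k + 1), B) * w (c3 (k + 2), C) +
      w (c3 (k + 1), B) * ξ (c3 (k + 2), C)) =
      ∑ B, ∑ C, S.f A B C * ξ (c3 (k + 1), B) * w (c3 (k + 2), C) -
      ∑ B, ∑ C, S.f A B C * ξ (c3 (k + 2), B) * w (c3 (k + 1), C) := by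
    rw [Finset.sum_comm (f := fun B C => S.f A B C * ξ (c3 (k + 2), B) * w (c3 (k + 1), C)),
      ← Finset.sum_sub_distrib]
    refine Finset.sum_congr rfl fun B _ => ?_
    rw [← Finset.sum_sub_distrib]
    refine Finset.sum_congr rfl fun C _ => ?_
    rw [S.f_swap' A B C]
    ring
  rw [h2]
  ring

theorem gap_norm (x : Cfg d) : ‖x‖ ^ 2 = (∑ k : Fin 3, ∑ A, x (c3 k, A) ^ 2) +
    ∑ i : Fin 9, ∑ A, (if i.val < 3 then 0 else x (i, A) ^ 2 : ℝ) := by
  rw [EuclideanSpace.real_norm_sq_eq, Fintype.sum_prod_type,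
    hes_sum9 fun i => ∑ A, x (i, A) ^ 2]
  congr 1
  refine Finset.sum_congr rfl fun i _ => ?_
  by_cases hi : i.val < 3
  · simp only [if_pos hi, Finset.sum_const_zero]
  · simp only [if_neg hi]

/-- **G07 Gap** -/
theorem gap (h : Gap3Stmt d) : GapStmt S := by
  intro ξ hξ K hK x hx
  obtain ⟨z1, z2, -⟩ := hes_zero S hξ
  have h1 := h (hesD S ξ) (hesD_transpose S ξ) (hesD_comm S z1) (fun k A => x (c3 k, A)) (by
    rw [Fin.sum_univ_three]
    exact hes_perp S hx z2)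
  have h2 : ∑ k, ∑ A, S.LG ξ k A x ^ 2 = 4 * ∑ k : Fin 3, ∑ A, (x (c3 k, A) -
      ((hesD S ξ (k + 1)).mulVec (fun A => x (c3 (k + 2), A)) A -
        (hesD S ξ (k + 2)).mulVec (fun A => x (c3 (k + 1), A)) A)) ^ 2 := by
    rw [Finset.mul_sum]
    refine Finset.sum_congr rfl fun k _ => ?_
    rw [Finset.mul_sum]
    refine Finset.sum_congr rfl fun A _ => ?_
    rw [gap_lin]
    ring
  have n3 : 0 ≤ ∑ i : Fin 9, ∑ j : Fin 9, ∑ A,
      (if i.val < 3 ∧ j.val < 3 then 0 else S.LF ξ A i j x ^ 2 : ℝ) := by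
    refine Finset.sum_nonneg fun i _ => Finset.sum_nonneg fun j _ =>
      Finset.sum_nonneg fun A _ => ?_
    split_ifs
    · exact le_rfl
    · exact sq_nonneg _
  rw [hK.sq, gap_norm]
  unfold Setup.hq
  linarith

end Vale.Agent.P353.AN.G
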