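import Vale.Agent.P353.AN.G.Stmt

/-! # P353, all `N`, block G: G04 Gap3 -/

namespace Vale.Agent.P353.AN.G

open Matrix

variable {d : ℕ}

private lemma g3_eig (D0 D1 D2 : Matrix (Fin d) (Fin d) ℝ) (w0 w1 w2 : Fin d → ℝ) (y : ℝ)
    (c1 : D2 * D0 - D0 * D2 = D1) (c2 : D0 * D1 - D1 * D0 = D2)
    (h0 : D1.mulVec w2 - D2.mulVec w1 = y • w0) (h1 : D2.mulVec w0 - D0.mulVec w2 = y • w1)
    (h2 : D0.mulVec w1 - D1.mulVec w0 = y • w2)
    (hd : D0.mulVec w0 + D1.mulVec w1 + D2.mulVec w2 = 0) :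
    D0.mulVec (D0.mulVec w0) + D1.mulVec (D1.mulVec w0) + D2.mulVec (D2.mulVec w0) = (y - y ^ 2) • w0 := by
  have e1 : y • D1.mulVec w2 = D1.mulVec (D0.mulVec w1) - D1.mulVec (D1.mulVec w0) := by
    rw [← Matrix.mulVec_smul, ← h2, Matrix.mulVec_sub]
  have e2 : y • D2.mulVec w1 = D2.mulVec (D2.mulVec w0) - D2.mulVec (D0.mulVec w2) := by
    rw [← Matrix.mulVec_smul, ← h1, Matrix.mulVec_sub]
  have e3 : D0.mulVec (D1.mulVec w1) - D1.mulVec (D0.mulVec w1) = D2.mulVec w1 := by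
    rw [Matrix.mulVec_mulVec, Matrix.mulVec_mulVec, ← Matrix.sub_mulVec, c2]
  have e4 : D2.mulVec (D0.mulVec w2) - D0.mulVec (D2.mulVec w2) = D1.mulVec w2 := by
    rw [Matrix.mulVec_mulVec, Matrix.mulVec_mulVec, ← Matrix.sub_mulVec, c1]
  have e5 : D0.mulVec (D0.mulVec w0) + D0.mulVec (D1.mulVec w1) + D0.mulVec (D2.mulVec w2) = 0 := by
    rw [← Matrix.mulVec_add, ← Matrix.mulVec_add, hd, Matrix.mulVec_zero]
  funext A
  have e1' := congrFun e1 A
  have e2' := congrFun e2 A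
  have e3' := congrFun e3 A
  have e4' := congrFun e4 A
  have e5' := congrFun e5 A
  have h0' := congrFun h0 A
  simp only [Pi.add_apply, Pi.sub_apply, Pi.zero_apply, Pi.smul_apply, smul_eq_mul] at *
  linear_combination e1' - e2' - e3' + e4' + e5' - (y - 1) * h0'

private lemma g3_pos (D0 D1 D2 : Matrix (Fin d) (Fin d) ℝ) (t0 : D0.transpose = -D0)
    (t1 : D1.transpose = -D1) (t2 : D2.transpose = -D2) (w : Fin d → ℝ)
    (h : D0.mulVec (D0.mulVec w) + D1.mulVec (D1.mulVec w) + D2.mulVec (D2.mulVec w) = 0) :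
    D0.mulVec w = 0 ∧ D1.mulVec w = 0 ∧ D2.mulVec w = 0 := by
  have key : ∀ D : Matrix (Fin d) (Fin d) ℝ, D.transpose = -D →
      w ⬝ᵥ D.mulVec (D.mulVec w) = -(D.mulVec w ⬝ᵥ D.mulVec w) := by
    intro D hD
    rw [Matrix.dotProduct_mulVec, ← Matrix.mulVec_transpose, hD, Matrix.neg_mulVec,
      neg_dotProduct]
  have h1 : w ⬝ᵥ (D0.mulVec (D0.mulVec w) + D1.mulVec (D1.mulVec w) +
      D2.mulVec (D2.mulVec w)) = 0 := by
    rw [h, dotProduct_zero]
  rw [dotProduct_add, dotProduct_add, key D0 t0, key D1 t1, key D2 t2] at h1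
  have n0 : 0 ≤ D0.mulVec w ⬝ᵥ D0.mulVec w := Finset.sum_nonneg fun i _ => mul_self_nonneg _
  have n1 : 0 ≤ D1.mulVec w ⬝ᵥ D1.mulVec w := Finset.sum_nonneg fun i _ => mul_self_nonneg _
  have n2 : 0 ≤ D2.mulVec w ⬝ᵥ D2.mulVec w := Finset.sum_nonneg fun i _ => mul_self_nonneg _
  exact ⟨dotProduct_self_eq_zero.1 (by linarith), dotProduct_self_eq_zero.1 (by linarith),
    dotProduct_self_eq_zero.1 (by linarith)⟩

/-- vector components -/
private def gvec (x : EuclideanSpace ℝ (Fin 3 × Fin d)) (k : Fin 3) : Fin d → ℝ := fun A => x (k, A)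

/-- the curl operator -/
private noncomputable def gT (D : Fin 3 → Matrix (Fin d) (Fin d) ℝ) :
    EuclideanSpace ℝ (Fin 3 × Fin d) →ₗ[ℝ] EuclideanSpace ℝ (Fin 3 × Fin d) where
  toFun x := WithLp.toLp 2 fun p =>
    (D (p.1 + 1)).mulVec (gvec x (p.1 + 2)) p.2 - (D (p.1 + 2)).mulVec (gvec x (p.1 + 1)) p.2
  map_add' := by
    intro x y
    ext p
    have h : ∀ k, gvec (x + y) k = gvec x k + gvec y k := fun k => rfl
    simp only [h, Matrix.mulVec_add, Pi.add_apply, PiLp.add_apply]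
    ring
  map_smul' := by
    intro c x
    ext p
    have h : ∀ k, gvec (c • x) k = c • gvec x k := fun k => rfl
    simp only [h, Matrix.mulVec_smul, Pi.smul_apply, PiLp.smul_apply, smul_eq_mul, RingHom.id_apply]
    ring

private lemma gT_vec (D : Fin 3 → Matrix (Fin d) (Fin d) ℝ) (x : EuclideanSpace ℝ (Fin 3 × Fin d)) (k : Fin 3) :
    gvec (gT D x) k = (D (k + 1)).mulVec (gvec x (k + 2)) - (D (k + 2)).mulVec (gvec x (k + 1)) := rfl

private lemma g_inner (x y : EuclideanSpace ℝ (Fin 3 × Fin d)) :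
    inner ℝ x y = ∑ k, gvec x k ⬝ᵥ gvec y k := by
  rw [PiLp.inner_apply, Fintype.sum_prod_type]
  refine Finset.sum_congr rfl fun k _ => Finset.sum_congr rfl fun A _ => ?_
  simp [gvec, mul_comm]

private lemma g_e1 : (0 : Fin 3) + 1 = 1 := rfl
private lemma g_e2 : (0 : Fin 3) + 2 = 2 := rfl
private lemma g_e3 : (1 : Fin 3) + 1 = 2 := rfl
private lemma g_e4 : (1 : Fin 3) + 2 = 0 := rfl
private lemma g_e5 : (2 : Fin 3) + 1 = 0 := rfl
private lemma g_e6 : (2 : Fin 3) + 2 = 1 := rfl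

private lemma gT_symm (D : Fin 3 → Matrix (Fin d) (Fin d) ℝ) (hD : ∀ k, (D k).transpose = -D k) :
    (gT D).IsSymmetric := by
  have key : ∀ k (a b : Fin d → ℝ), (D k).mulVec a ⬝ᵥ b = -(a ⬝ᵥ (D k).mulVec b) := by
    intro k a b
    rw [Matrix.dotProduct_mulVec, ← Matrix.mulVec_transpose, hD, Matrix.neg_mulVec, neg_dotProduct, neg_neg]
  intro x y
  rw [g_inner, g_inner]
  simp only [gT_vec, sub_dotProduct, dotProduct_sub, key, Fin.sum_univ_three, g_e1, g_e2, g_e3, g_e4, g_e5, g_e6]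
  ring

/-- divergence free vectors -/
private def gX (D : Fin 3 → Matrix (Fin d) (Fin d) ℝ) : Submodule ℝ (EuclideanSpace ℝ (Fin 3 × Fin d)) where
  carrier := {x | ∑ k, (D k).mulVec (gvec x k) = 0}
  add_mem' := by
    intro x y hx hy
    have h : ∀ k, gvec (x + y) k = gvec x k + gvec y k := fun k => rfl
    show ∑ k, (D k).mulVec (gvec (x + y) k) = 0
    simp only [h, Matrix.mulVec_add, Finset.sum_add_distrib]
    rw [show ∑ k, (D k).mulVec (gvec x k) = 0 from hx, show ∑ k, (D k).mulVec (gvec y k) = 0 from hy, add_zero]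
  zero_mem' := by
    have h : ∀ k, gvec (0 : EuclideanSpace ℝ (Fin 3 × Fin d)) k = 0 := fun k => rfl
    show ∑ k, (D k).mulVec (gvec 0 k) = 0
    simp [h]
  smul_mem' := by
    intro c x hx
    have h : ∀ k, gvec (c • x) k = c • gvec x k := fun k => rfl
    show ∑ k, (D k).mulVec (gvec (c • x) k) = 0
    simp only [h, Matrix.mulVec_smul, ← Finset.smul_sum]
    rw [show ∑ k, (D k).mulVec (gvec x k) = 0 from hx, smul_zero]

private lemma gT_mem (D : Fin 3 → Matrix (Fin d) (Fin d) ℝ)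
    (hc : ∀ k, D (k + 1) * D (k + 2) - D (k + 2) * D (k + 1) = D k) :
    ∀ x ∈ gX D, gT D x ∈ gX D := by
  intro x hx
  have hx' : ∑ k, (D k).mulVec (gvec x k) = 0 := hx
  show ∑ k, (D k).mulVec (gvec (gT D x) k) = 0
  have c0 := hc 0
  have c1 := hc 1
  have c2 := hc 2
  rw [g_e1, g_e2] at c0
  rw [g_e3, g_e4] at c1
  rw [g_e5, g_e6] at c2
  rw [← hx']
  simp only [gT_vec, Fin.sum_univ_three, g_e1, g_e2, g_e3, g_e4, g_e5, g_e6, Matrix.mulVec_sub, Matrix.mulVec_mulVec]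
  have a0 : (D 0).mulVec (gvec x 0) = (D 1 * D 2).mulVec (gvec x 0) - (D 2 * D 1).mulVec (gvec x 0) := by
    rw [← Matrix.sub_mulVec, c0]
  have a1 : (D 1).mulVec (gvec x 1) = (D 2 * D 0).mulVec (gvec x 1) - (D 0 * D 2).mulVec (gvec x 1) := by
    rw [← Matrix.sub_mulVec, c1]
  have a2 : (D 2).mulVec (gvec x 2) = (D 0 * D 1).mulVec (gvec x 2) - (D 1 * D 0).mulVec (gvec x 2) := by
    rw [← Matrix.sub_mulVec, c2]
  rw [a0, a1, a2]
  abel

theorem gap3 (d : ℕ) (h : CasStmt d) : Gap3Stmt d := by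
  intro D hD hc w hw
  set x : EuclideanSpace ℝ (Fin 3 × Fin d) := WithLp.toLp 2 fun p => w p.1 p.2 with hx
  have hxv : ∀ k, gvec x k = w k := fun k => rfl
  have hxX : x ∈ gX D := by
    show ∑ k, (D k).mulVec (gvec x k) = 0
    exact hw
  have hsym := gT_symm D hD
  have hinv := gT_mem D hc
  have hTX := hsym.restrict_invariant hinv
  set TX := (gT D).restrict hinv with hTXdef
  set b := hTX.eigenvectorBasis rfl with hb
  have hev : ∀ i, 1 / 4 ≤ (1 - hTX.eigenvalues rfl i) ^ 2 := by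
    intro i
    set y := hTX.eigenvalues rfl i with hy
    set v : EuclideanSpace ℝ (Fin 3 × Fin d) := ((b i : gX D) : EuclideanSpace ℝ (Fin 3 × Fin d)) with hv
    have hv0 : v ≠ 0 := by
      intro h0
      have h1 : b i = 0 := Subtype.ext h0
      exact b.orthonormal.ne_zero i h1
    have hTv : gT D v = y • v := by
      have := congrArg (Subtype.val) (hTX.apply_eigenvectorBasis rfl i)
      exact this
    have hvX : ∑ k, (D k).mulVec (gvec v k) = 0 := (b i).2
    have hk : ∀ k, (D (k + 1)).mulVec (gvec v (k + 2)) - (D (k + 2)).mulVec (gvec v (k + 1)) = y • gvec v k := by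
      intro k
      rw [← gT_vec, hTv]
      rfl
    have hcas : ∀ k, (∑ j, (D j * D j).mulVec (gvec v k)) = (y - y ^ 2) • gvec v k := by
      intro k
      have c0 := hc 0
      have c1 := hc 1
      have c2 := hc 2
      have k0 := hk 0
      have k1 := hk 1
      have k2 := hk 2
      rw [g_e1, g_e2] at c0 k0
      rw [g_e3, g_e4] at c1 k1
      rw [g_e5, g_e6] at c2 k2
      rw [Fin.sum_univ_three] at hvX
      simp only [Fin.sum_univ_three, ← Matrix.mulVec_mulVec]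
      fin_cases k
      · exact g3_eig (D 0) (D 1) (D 2) _ _ _ y c1 c2 k0 k1 k2 hvX
      · have := g3_eig (D 1) (D 2) (D 0) _ _ _ y c2 c0 k1 k2 k0 (by rw [← hvX]; abel)
        show (D 0).mulVec ((D 0).mulVec (gvec v 1)) + (D 1).mulVec ((D 1).mulVec (gvec v 1)) +
          (D 2).mulVec ((D 2).mulVec (gvec v 1)) = (y - y ^ 2) • gvec v 1
        rw [← this]
        abel
      · have := g3_eig (D 2) (D 0) (D 1) _ _ _ y c0 c1 k2 k0 k1 (by rw [← hvX]; abel)
        show (D 0).mulVec ((D 0).mulVec (gvec v 2)) + (D 1).mulVec ((D 1).mulVec (gvec v 2)) +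
          (D 2).mulVec ((D 2).mulVec (gvec v 2)) = (y - y ^ 2) • gvec v 2
        rw [← this]
        abel
    obtain ⟨k, hk0⟩ : ∃ k, gvec v k ≠ 0 := by
      by_contra hcon
      push Not at hcon
      apply hv0
      ext p
      exact congrFun (hcon p.1) p.2
    have h1 := h D hD hc (y ^ 2 - y) (gvec v k) hk0 (by rw [hcas k, ← neg_smul]; congr 1; ring)
    rcases h1 with h1 | h1
    · have hy0 : y = 0 := by
        by_contra hyne
        have hz : ∀ k, gvec v k = 0 := by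
          intro k
          have hD0 : ∀ k, (D 0).mulVec (gvec v k) = 0 ∧ (D 1).mulVec (gvec v k) = 0 ∧ (D 2).mulVec (gvec v k) = 0 := by
            intro k
            apply g3_pos (D 0) (D 1) (D 2) (hD 0) (hD 1) (hD 2)
            have := hcas k
            simp only [Fin.sum_univ_three, ← Matrix.mulVec_mulVec] at this
            rw [this, show y - y ^ 2 = 0 by linarith, zero_smul]
          have hDall : ∀ j k, (D j).mulVec (gvec v k) = 0 := by
            intro j k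
            fin_cases j
            · exact (hD0 k).1
            · exact (hD0 k).2.1
            · exact (hD0 k).2.2
          have := hk k
          rw [hDall, hDall, sub_zero] at this
          exact (smul_eq_zero.1 this.symm).resolve_left hyne
        exact hk0 (hz k)
      rw [hy0]
      norm_num
    · have h2 : 0 ≤ (y - 3 / 2) * (y + 1 / 2) := by nlinarith
      by_cases h3 : y ≤ 1 / 2
      · by_cases h4 : y + 1 / 2 ≤ 0
        · nlinarith
        · nlinarith
      · by_cases h4 : 3 / 2 ≤ y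
        · nlinarith
        · nlinarith
  have hmain : ‖(⟨x, hxX⟩ : gX D)‖ ^ 2 ≤ 4 * ‖(⟨x, hxX⟩ : gX D) - TX ⟨x, hxX⟩‖ ^ 2 := by
    set X0 : gX D := ⟨x, hxX⟩
    have e1 : ‖X0‖ ^ 2 = ∑ i, (b.repr X0 i) ^ 2 := by
      rw [← b.repr.norm_map, EuclideanSpace.norm_sq_eq]
      simp
    have e2 : ‖X0 - TX X0‖ ^ 2 = ∑ i, ((1 - hTX.eigenvalues rfl i) * b.repr X0 i) ^ 2 := by
      rw [← b.repr.norm_map, EuclideanSpace.norm_sq_eq]
      refine Finset.sum_congr rfl fun i _ => ?_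
      rw [map_sub, PiLp.sub_apply, hTX.eigenvectorBasis_apply_self_apply rfl X0 i]
      simp only [Real.norm_eq_abs, sq_abs, RCLike.ofReal_real_eq_id, id]
      ring
    rw [e1, e2, Finset.mul_sum]
    refine Finset.sum_le_sum fun i _ => ?_
    have := hev i
    rw [mul_pow]
    nlinarith [sq_nonneg (b.repr X0 i)]
  have hn1 : ‖(⟨x, hxX⟩ : gX D)‖ ^ 2 = ∑ k, ∑ A, w k A ^ 2 := by
    rw [Submodule.coe_norm, EuclideanSpace.norm_sq_eq, Fintype.sum_prod_type]
    simp [hx]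
  have hn2 : ‖(⟨x, hxX⟩ : gX D) - TX ⟨x, hxX⟩‖ ^ 2 = ∑ k, ∑ A,
      (w k A - ((D (k + 1)).mulVec (w (k + 2)) A - (D (k + 2)).mulVec (w (k + 1)) A)) ^ 2 := by
    have : (((⟨x, hxX⟩ : gX D) - TX ⟨x, hxX⟩ : gX D) : EuclideanSpace ℝ (Fin 3 × Fin d)) = x - gT D x := rfl
    rw [Submodule.coe_norm, this, EuclideanSpace.norm_sq_eq, Fintype.sum_prod_type]
    refine Finset.sum_congr rfl fun k _ => Finset.sum_congr rfl fun A _ => ?_
    rw [Real.norm_eq_abs, sq_abs]
    rfl
  rw [hn1, hn2] at hmain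
  exact hmain

end Vale.Agent.P353.AN.G
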