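import Vale.Agent.P353.AN.G.Stmt
import Vale.Agent.P353.Z.U.Inv
import Vale.Agent.P353.Z.U.A2

/-! # P353, all `N`, block G: G14, the gauge rotations fixing `ξ` kill the vacuum -/

open MeasureTheory Filter Topology
open scoped ContDiff

namespace Vale.Agent.P353.AN.G

open Vale.Agent.P353.Z Vale.Agent.P353.Z.U

namespace HK

variable {d : ℕ} {F : Type*} [NormedAddCommGroup F] [InnerProductSpace ℂ F] (S : Setup d F)

/-- `K_{AB} = ∑_C h_C f_{CAB}` -/
noncomputable def hkK (h : Fin d → ℝ) : Matrix (Fin d) (Fin d) ℝ :=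
  Matrix.of fun A B => ∑ C, h C * S.f C A B

lemma hkK_apply (h : Fin d → ℝ) (A B : Fin d) : hkK S h A B = ∑ C, h C * S.f C A B := rfl

lemma hkK_swap (h : Fin d → ℝ) (A B : Fin d) : hkK S h B A = -hkK S h A B := by
  rw [hkK_apply, hkK_apply, ← Finset.sum_neg_distrib]
  refine Finset.sum_congr rfl fun C _ => ?_
  rw [S.f_swap' C A B]
  ring

/-- `δ_{αβ} K_{AB}` -/
noncomputable def hkD (h : Fin d → ℝ) : Matrix (Fin 16 × Fin d) (Fin 16 × Fin d) ℝ :=
  Matrix.of fun p q => if p.1 = q.1 then hkK S h p.2 q.2 else 0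

lemma hkD_apply (h : Fin d → ℝ) (p q : Fin 16 × Fin d) :
    hkD S h p q = if p.1 = q.1 then hkK S h p.2 q.2 else 0 := rfl

lemma hkD_transpose (h : Fin d → ℝ) : (hkD S h).transpose = -hkD S h := by
  ext p q
  rw [Matrix.transpose_apply, Matrix.neg_apply, hkD_apply, hkD_apply]
  by_cases hpq : p.1 = q.1
  · rw [if_pos hpq, if_pos hpq.symm, hkK_swap]
  · rw [if_neg hpq, if_neg (Ne.symm hpq), neg_zero]

lemma hkD_gam (h : Fin d → ℝ) (j : Fin 9) (α β : Fin 16) (A B : Fin d) :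
    ∑ α', ∑ β', (S.g j α α').re * hkD S h (α', A) (β', B) * (S.g j β' β).re =
      hkD S h (α, A) (β, B) := by
  have h1 : ∀ α', ∑ β', (S.g j α α').re * hkD S h (α', A) (β', B) * (S.g j β' β).re =
      (InvPf.gr S j α α' * InvPf.gr S j α' β) * hkK S h A B := by
    intro α'
    rw [Finset.sum_eq_single α']
    · rw [hkD_apply, if_pos rfl]
      simp only [InvPf.gr, Matrix.map_apply]
      ring
    · intro β' _ hβ
      rw [hkD_apply, if_neg (fun hh => hβ hh.symm)]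
      ring
    · intro hh
      exact absurd (Finset.mem_univ _) hh
  rw [Finset.sum_congr rfl fun α' _ => h1 α', ← Finset.sum_mul, ← Matrix.mul_apply, InvPf.gr_sq,
    hkD_apply, Matrix.one_apply]
  by_cases hh : α = β
  · simp [hh]
  · simp [hh]

/-- `∑ h_C 𝒮_C` -/
noncomputable def hkT (h : Fin d → ℝ) : F →L[ℂ] F := ∑ C, (h C : ℂ) • S.cS C

lemma bD_hk (h : Fin d → ℝ) :
    bD S (hkD S h) = ∑ A, ∑ B, ((hkK S h A B : ℝ) : ℂ) • S.bil 1 A B := by
  have h1 := InvPf.kr S 1 ((hkK S h).map (Complex.ofRealHom))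
  simp only [Matrix.map_apply, Complex.ofRealHom_eq_coe] at h1
  rw [← h1]
  unfold bD
  refine Finset.sum_congr rfl fun p _ => Finset.sum_congr rfl fun q _ => ?_
  rw [hkD_apply, Matrix.one_apply]
  by_cases hpq : p.1 = q.1
  · rw [if_pos hpq, if_pos hpq, one_mul]
  · rw [if_neg hpq, if_neg hpq, zero_mul, Complex.ofReal_zero]

lemma hkT_eq (h : Fin d → ℝ) : hkT S h = (-Complex.I / 2) • bD S (hkD S h) := by
  rw [bD_hk]
  unfold hkT Setup.cS
  simp only [hkK_apply, smul_comm _ (-Complex.I / 2), ← Finset.smul_sum]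
  congr 1
  simp only [Finset.smul_sum, smul_smul, Complex.ofReal_sum, Finset.sum_smul, Complex.ofReal_mul]
  rw [Finset.sum_comm]
  refine Finset.sum_congr rfl fun A _ => ?_
  rw [Finset.sum_comm]

lemma hkT_vec (h : Fin d → ℝ) (P : Matrix (Fin 16) (Fin 16) ℂ) (A : Fin d) (b : Fin 16) :
    hkT S h * S.vec P A b - S.vec P A b * hkT S h =
      Complex.I • ∑ E, ((hkK S h A E : ℝ) : ℂ) • S.vec P E b := by
  unfold hkT
  rw [Finset.sum_mul, Finset.mul_sum, ← Finset.sum_sub_distrib]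
  have h1 : ∀ C, (h C : ℂ) • S.cS C * S.vec P A b - S.vec P A b * ((h C : ℂ) • S.cS C) =
      Complex.I • ∑ E, ((h C * S.f C A E : ℝ) : ℂ) • S.vec P E b := by
    intro C
    rw [smul_mul_assoc, mul_smul_comm, ← smul_sub, comm_cS, smul_comm, Finset.smul_sum]
    congr 1
    refine Finset.sum_congr rfl fun E _ => ?_
    rw [smul_smul]
    push_cast
    rfl
  rw [Finset.sum_congr rfl fun C _ => h1 C, ← Finset.smul_sum, Finset.sum_comm]
  congr 1
  refine Finset.sum_congr rfl fun E _ => ?_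
  rw [hkK_apply, ← Finset.sum_smul]
  push_cast
  rfl

lemma hkT_bil (h : Fin d → ℝ) (P : Matrix (Fin 16) (Fin 16) ℂ) (A B : Fin d) :
    hkT S h * S.bil P A B - S.bil P A B * hkT S h =
      Complex.I • (∑ E, ((hkK S h A E : ℝ) : ℂ) • S.bil P E B +
        ∑ E, ((hkK S h B E : ℝ) : ℂ) • S.bil P A E) := by
  have e1 : ∀ α, hkT S h * (S.th α A * S.vec P B α) - S.th α A * S.vec P B α * hkT S h =
      Complex.I • (∑ E, ((hkK S h A E : ℝ) : ℂ) • (S.th α E * S.vec P B α) +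
        ∑ E, ((hkK S h B E : ℝ) : ℂ) • (S.th α A * S.vec P E α)) := by
    intro α
    have a1 := hkT_vec S h 1 A α
    have a2 := hkT_vec S h P B α
    simp only [CS.vec_one] at a1
    have a3 : hkT S h * (S.th α A * S.vec P B α) - S.th α A * S.vec P B α * hkT S h =
        (hkT S h * S.th α A - S.th α A * hkT S h) * S.vec P B α +
          S.th α A * (hkT S h * S.vec P B α - S.vec P B α * hkT S h) := by
      noncomm_ring
    rw [a3, a1, a2, smul_mul_assoc, mul_smul_comm, ← smul_add, Finset.sum_mul, Finset.mul_sum]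
    simp only [smul_mul_assoc, mul_smul_comm]
  unfold CS.bil
  rw [Finset.mul_sum, Finset.sum_mul, ← Finset.sum_sub_distrib, Finset.sum_congr rfl fun α _ => e1 α,
    ← Finset.smul_sum, Finset.sum_add_distrib, Finset.sum_comm]
  congr 1
  congr 1
  · refine Finset.sum_congr rfl fun E _ => ?_
    rw [Finset.smul_sum]
  · rw [Finset.sum_comm]
    refine Finset.sum_congr rfl fun E _ => ?_
    rw [Finset.smul_sum]

lemma hkT_tot (h : Fin d → ℝ) (P : Matrix (Fin 16) (Fin 16) ℂ) :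
    hkT S h * S.tot P = S.tot P * hkT S h := by
  rw [← sub_eq_zero]
  unfold CS.tot
  rw [Finset.mul_sum, Finset.sum_mul, ← Finset.sum_sub_distrib,
    Finset.sum_congr rfl fun A _ => hkT_bil S h P A A, ← Finset.smul_sum, Finset.sum_add_distrib]
  have h1 : ∑ A, ∑ E, ((hkK S h A E : ℝ) : ℂ) • S.bil P E A =
      -∑ A, ∑ E, ((hkK S h A E : ℝ) : ℂ) • S.bil P A E := by
    rw [Finset.sum_comm, ← Finset.sum_neg_distrib]
    refine Finset.sum_congr rfl fun A _ => ?_
    rw [← Finset.sum_neg_distrib]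
    refine Finset.sum_congr rfl fun E _ => ?_
    rw [hkK_swap, Complex.ofReal_neg, neg_smul]
  rw [h1, neg_add_cancel, smul_zero]

/-- matrix of `ad x` -/
noncomputable def hkc (x : Fin d → ℝ) (A B : Fin d) : ℝ := ∑ C, S.f A B C * x C

/-- `K` commutes with `ad x` if `K` kills `x` -/
lemma hk_jac (h : Fin d → ℝ) (x : Fin d → ℝ)
    (hx : ∀ B, ∑ C, ∑ A, h C * S.f C A B * x A = 0) (P Q : Fin d) :
    ∑ X, (hkc S x X Q * hkK S h X P + hkc S x P X * hkK S h X Q) = 0 := by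
  have h1 : ∑ C, ∑ E, (h C * x E) * ∑ X, (S.f E X Q * S.f C P X + S.f E P X * S.f C Q X -
      S.f C X E * S.f X P Q) = 0 := by
    refine Finset.sum_eq_zero fun C _ => Finset.sum_eq_zero fun E _ => ?_
    rw [f_jac4, mul_zero]
  have h2 : ∑ C, ∑ E, (h C * x E) * ∑ X, (S.f E X Q * S.f C P X + S.f E P X * S.f C Q X -
      S.f C X E * S.f X P Q) =
      ∑ X, ∑ C, ∑ E, (h C * x E) * (S.f E X Q * S.f C P X + S.f E P X * S.f C Q X -
      S.f C X E * S.f X P Q) := by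
    simp only [Finset.mul_sum]
    calc _ = ∑ C, ∑ X, ∑ E, (h C * x E) * (S.f E X Q * S.f C P X + S.f E P X * S.f C Q X -
          S.f C X E * S.f X P Q) := Finset.sum_congr rfl fun C _ => Finset.sum_comm
      _ = _ := Finset.sum_comm
  have h3 : ∀ X, ∑ C, ∑ E, (h C * x E) * (S.f E X Q * S.f C P X + S.f E P X * S.f C Q X -
      S.f C X E * S.f X P Q) =
      -(hkc S x X Q * hkK S h X P + hkc S x P X * hkK S h X Q) := by
    intro X
    have a1 : ∑ C, ∑ E, (h C * x E) * (S.f E X Q * S.f C P X) = hkc S x X Q * -hkK S h X P := by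
      rw [← hkK_swap, hkK_apply, hkc, Finset.sum_mul_sum, Finset.sum_comm]
      refine Finset.sum_congr rfl fun C _ => Finset.sum_congr rfl fun E _ => ?_
      rw [S.f_cyc C X Q]
      ring
    have a2 : ∑ C, ∑ E, (h C * x E) * (S.f E P X * S.f C Q X) = hkc S x P X * -hkK S h X Q := by
      rw [← hkK_swap, hkK_apply, hkc, Finset.sum_mul_sum, Finset.sum_comm]
      refine Finset.sum_congr rfl fun C _ => Finset.sum_congr rfl fun E _ => ?_
      rw [S.f_cyc C P X]
      ring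
    have a3 : ∑ C, ∑ E, (h C * x E) * (S.f C X E * S.f X P Q) = 0 := by
      have := hx X
      calc _ = -((∑ C, ∑ A, h C * S.f C A X * x A) * S.f X P Q) := by
            rw [Finset.sum_mul, ← Finset.sum_neg_distrib]
            refine Finset.sum_congr rfl fun C _ => ?_
            rw [Finset.sum_mul, ← Finset.sum_neg_distrib]
            refine Finset.sum_congr rfl fun E _ => ?_
            rw [S.f_swap' C X E]
            ring
        _ = 0 := by rw [this, zero_mul, neg_zero]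
    simp only [mul_sub, mul_add, Finset.sum_sub_distrib, Finset.sum_add_distrib] at a1 a2 a3 ⊢
    rw [a1, a2, a3]
    ring
  rw [h2, Finset.sum_congr rfl fun X _ => h3 X, Finset.sum_neg_distrib, neg_eq_zero] at h1
  exact h1

/-- the colour part of the commutator with `Fx ξ` -/
lemma hk_col {M : Type*} [AddCommGroup M] [Module ℂ M] (h : Fin d → ℝ) (x : Fin d → ℝ)
    (hx : ∀ B, ∑ C, ∑ A, h C * S.f C A B * x A = 0) (b : Fin d → Fin d → M) :
    ∑ A, ∑ B, ((hkc S x A B : ℝ) : ℂ) •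
      (∑ E, ((hkK S h A E : ℝ) : ℂ) • b E B + ∑ E, ((hkK S h B E : ℝ) : ℂ) • b A E) = 0 := by
  have e1 : ∑ A, ∑ B, ((hkc S x A B : ℝ) : ℂ) • ∑ E, ((hkK S h A E : ℝ) : ℂ) • b E B =
      ∑ P, ∑ Q, ∑ X, ((hkc S x X Q * hkK S h X P : ℝ) : ℂ) • b P Q := by
    simp only [Finset.smul_sum, smul_smul, Complex.ofReal_mul]
    calc _ = ∑ B, ∑ A, ∑ E, (((hkc S x A B : ℝ) : ℂ) * ((hkK S h A E : ℝ) : ℂ)) • b E B :=
          Finset.sum_comm
      _ = ∑ B, ∑ E, ∑ A, (((hkc S x A B : ℝ) : ℂ) * ((hkK S h A E : ℝ) : ℂ)) • b E B :=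
          Finset.sum_congr rfl fun B _ => Finset.sum_comm
      _ = _ := Finset.sum_comm
  have e2 : ∑ A, ∑ B, ((hkc S x A B : ℝ) : ℂ) • ∑ E, ((hkK S h B E : ℝ) : ℂ) • b A E =
      ∑ P, ∑ Q, ∑ X, ((hkc S x P X * hkK S h X Q : ℝ) : ℂ) • b P Q := by
    simp only [Finset.smul_sum, smul_smul, Complex.ofReal_mul]
    exact Finset.sum_congr rfl fun A _ => Finset.sum_comm
  simp only [smul_add, Finset.sum_add_distrib]
  rw [e1, e2]
  simp only [← Finset.sum_add_distrib, ← add_smul, ← Complex.ofReal_add]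
  refine Finset.sum_eq_zero fun P _ => Finset.sum_eq_zero fun Q _ => ?_
  rw [← Finset.sum_smul, ← Complex.ofReal_sum, hk_jac S h x hx P Q, Complex.ofReal_zero, zero_smul]

lemma Fx_hk (ξ : Cfg d) : S.Fx ξ = (Complex.I / 2 * (S.κ : ℂ)) • ∑ q, ∑ A, ∑ B,
    ((hkc S (fun C => ξ (q, C)) A B : ℝ) : ℂ) • S.bil (S.g q) A B := by
  unfold Setup.Fx
  congr 1
  refine Finset.sum_congr rfl fun q _ => Finset.sum_congr rfl fun A _ =>
    Finset.sum_congr rfl fun B _ => ?_
  rw [← Finset.sum_smul, hkc]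
  push_cast
  rfl

lemma hkT_Fx (h : Fin d → ℝ) (ξ : Cfg d)
    (hx : ∀ i B, ∑ C, ∑ A, h C * S.f C A B * ξ (i, A) = 0) :
    hkT S h * S.Fx ξ = S.Fx ξ * hkT S h := by
  rw [← sub_eq_zero, Fx_hk, mul_smul_comm, smul_mul_assoc, ← smul_sub, Finset.mul_sum,
    Finset.sum_mul, ← Finset.sum_sub_distrib]
  have h1 : ∀ q, hkT S h * (∑ A, ∑ B, ((hkc S (fun C => ξ (q, C)) A B : ℝ) : ℂ) •
      S.bil (S.g q) A B) - (∑ A, ∑ B, ((hkc S (fun C => ξ (q, C)) A B : ℝ) : ℂ) •
      S.bil (S.g q) A B) * hkT S h = 0 := by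
    intro q
    have h2 := hk_col S h (fun C => ξ (q, C)) (hx q) (fun A B => S.bil (S.g q) A B)
    have h3 : ∀ A B, hkT S h * (((hkc S (fun C => ξ (q, C)) A B : ℝ) : ℂ) • S.bil (S.g q) A B) -
        (((hkc S (fun C => ξ (q, C)) A B : ℝ) : ℂ) • S.bil (S.g q) A B) * hkT S h =
        Complex.I • (((hkc S (fun C => ξ (q, C)) A B : ℝ) : ℂ) •
          (∑ E, ((hkK S h A E : ℝ) : ℂ) • S.bil (S.g q) E B +
            ∑ E, ((hkK S h B E : ℝ) : ℂ) • S.bil (S.g q) A E)) := by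
      intro A B
      rw [mul_smul_comm, smul_mul_assoc, ← smul_sub, hkT_bil, smul_comm]
    simp only [Finset.mul_sum, Finset.sum_mul, ← Finset.sum_sub_distrib, h3, ← Finset.smul_sum]
    rw [h2, smul_zero]
  rw [Finset.sum_eq_zero fun q _ => h1 q, smul_zero]

lemma hkT_Hf (h : Fin d → ℝ) (ξ : Cfg d)
    (hx : ∀ i B, ∑ C, ∑ A, h C * S.f C A B * ξ (i, A) = 0) :
    hkT S h * Hf S ξ = Hf S ξ * hkT S h := by
  unfold Hf Setup.FG
  rw [mul_sub, sub_mul, hkT_Fx S h ξ hx, mul_smul_comm, mul_smul_comm, smul_mul_assoc,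
    smul_mul_assoc, hkT_tot]

lemma bD_hkT (h : Fin d → ℝ) : bD S (hkD S h) = (2 * Complex.I) • hkT S h := by
  rw [hkT_eq, smul_smul]
  have : (2 * Complex.I) * (-Complex.I / 2) = 1 := by
    linear_combination -Complex.I_mul_I
  rw [this, one_smul]

end HK

/-- **G14 HKill** -/
theorem hKill {d : ℕ} {F : Type*} [NormedAddCommGroup F] [InnerProductSpace ℂ F]
    [FiniteDimensional ℂ F] (S : Setup d F) (h13 : VacDStmt S) : HKillStmt S := by
  intro ξ hξ E Ω hΩ h hx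
  have h1 : bD S (HK.hkD S h) Ω = 0 := by
    refine h13 ξ hξ E Ω hΩ (HK.hkD S h) (HK.hkD_transpose S h) (fun v => ?_) 3 (by decide)
      (fun α β A B => HK.hkD_gam S h 3 α β A B)
    have h2 := congrArg (fun T : F →L[ℂ] F => T v) (HK.hkT_Hf S h ξ hx)
    simp only [mul_apply_eq_comp] at h2
    rw [HK.bD_hkT, _root_.smul_apply, _root_.smul_apply, map_smul, h2]
  have h3 : ∑ C, (h C : ℂ) • S.cS C Ω = HK.hkT S h Ω := by
    simp only [HK.hkT, _root_.sum_apply, _root_.smul_apply]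
  rw [h3, HK.hkT_eq, _root_.smul_apply, h1, smul_zero]

end Vale.Agent.P353.AN.G
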