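import Vale.Agent.P353.AN.G.Stmt
import Vale.Agent.P353.Z.U.A1
import Vale.Agent.P353.Z.U.A1a
import Vale.Agent.P353.Z.U.A1b
import Vale.Agent.P353.Z.U.A2
import Vale.Agent.P353.Z.U.A4
import Vale.Agent.P353.Z.U.FBmn
import Vale.Agent.P353.Z.U.FFten

/-! # P353, all `N`, block G: G17, compensated rotations kill the vacuum -/

open MeasureTheory Filter Topology
open scoped ContDiff Matrix

namespace Vale.Agent.P353.AN.G

open Vale.Agent.P353.Z Vale.Agent.P353.Z.U

namespace JK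

variable {d : ℕ} {F : Type*} [NormedAddCommGroup F] [InnerProductSpace ℂ F] (S : Setup d F)

/-- `J_{kl} + ∑ a_C G_C` -/
noncomputable def X (k l : Fin 9) (a : Fin d → ℝ) (u : Cfg d → F) (x : Cfg d) : F :=
  S.J k l u x + ∑ C, (a C : ℂ) • S.G C u x

/-- its value on constants -/
noncomputable def s (k l : Fin 9) (a : Fin d → ℝ) : F →L[ℂ] F :=
  S.Skl k l + ∑ C, (a C : ℂ) • S.cS C

lemma s_apply (k l : Fin 9) (a : Fin d → ℝ) (v : F) :
    s S k l a v = S.Skl k l v + ∑ C, (a C : ℂ) • S.cS C v := by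
  unfold s
  rw [_root_.add_apply, _root_.sum_apply]
  rfl

lemma pd_const (i : Fin 9) (A : Fin d) (φ : F) (x : Cfg d) :
    pd i A (fun _ : Cfg d => φ) x = 0 := by
  unfold pd
  rw [fderiv_fun_const]
  simp

lemma X_const (k l : Fin 9) (a : Fin d → ℝ) (φ : F) :
    X S k l a (fun _ => φ) = fun _ => s S k l a φ := by
  funext x
  rw [s_apply]
  simp [X, Setup.J, Setup.G, pd_const]

lemma X_smooth (k l : Fin 9) (a : Fin d → ℝ) {u : Cfg d → F} (hu : ContDiff ℝ ∞ u) :
    ContDiff ℝ ∞ (X S k l a u) := by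
  unfold X
  exact (S.contDiff_J k l hu).add (ContDiff.sum fun C _ => contDiff_const.smul (A4.contDiff_G S C hu))

/-- value at a point where the vector field vanishes -/
lemma X_at {k l : Fin 9} {a : Fin d → ℝ} {ξ : Cfg d} (hξ : vf S k l a ξ = 0) (v : Cfg d → F) :
    X S k l a v ξ = s S k l a (v ξ) := by
  have hc : ∀ i B, (if i = l then ξ (k, B) else 0) - (if i = k then ξ (l, B) else 0) +
      ∑ C, ∑ A, a C * S.f C A B * ξ (i, A) = 0 := by
    intro i B
    have h1 : vf S k l a ξ (i, B) = 0 := by rw [hξ]; rfl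
    exact h1
  have h0 : ∑ A, ((ξ (k, A) : ℂ) • pd l A v ξ - (ξ (l, A) : ℂ) • pd k A v ξ) +
      ∑ C, (a C : ℂ) • ∑ i, ∑ A, ∑ B, ((S.f C A B : ℂ) * (ξ (i, A) : ℂ)) • pd i B v ξ = 0 := by
    have e1 : ∑ A, ((ξ (k, A) : ℂ) • pd l A v ξ - (ξ (l, A) : ℂ) • pd k A v ξ) =
        ∑ i, ∑ B, (((if i = l then ξ (k, B) else 0) - (if i = k then ξ (l, B) else 0) : ℝ) : ℂ) •
          pd i B v ξ := by
      rw [Finset.sum_comm]
      refine Finset.sum_congr rfl fun B _ => ?_
      simp only [Complex.ofReal_sub, sub_smul, Finset.sum_sub_distrib]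
      congr 1
      · rw [Finset.sum_eq_single l]
        · simp
        · intro i _ hi; simp [hi]
        · intro h; exact absurd (Finset.mem_univ _) h
      · rw [Finset.sum_eq_single k]
        · simp
        · intro i _ hi; simp [hi]
        · intro h; exact absurd (Finset.mem_univ _) h
    have e2 : ∑ C, (a C : ℂ) • ∑ i, ∑ A, ∑ B, ((S.f C A B : ℂ) * (ξ (i, A) : ℂ)) • pd i B v ξ =
        ∑ i, ∑ B, ((∑ C, ∑ A, a C * S.f C A B * ξ (i, A) : ℝ) : ℂ) • pd i B v ξ := by
      have e3 : ∀ i B, ((∑ C, ∑ A, a C * S.f C A B * ξ (i, A) : ℝ) : ℂ) • pd i B v ξ =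
          ∑ C, ∑ A, ((a C : ℂ) * ((S.f C A B : ℂ) * (ξ (i, A) : ℂ))) • pd i B v ξ := by
        intro i B
        push_cast
        rw [Finset.sum_smul]
        refine Finset.sum_congr rfl fun C _ => ?_
        rw [Finset.sum_smul]
        refine Finset.sum_congr rfl fun A _ => ?_
        rw [mul_assoc]
      simp only [e3, Finset.smul_sum, smul_smul]
      rw [Finset.sum_comm]
      refine Finset.sum_congr rfl fun i _ => ?_
      have : ∀ C, ∑ A, ∑ B, ((a C : ℂ) * ((S.f C A B : ℂ) * (ξ (i, A) : ℂ))) • pd i B v ξ =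
          ∑ B, ∑ A, ((a C : ℂ) * ((S.f C A B : ℂ) * (ξ (i, A) : ℂ))) • pd i B v ξ := fun C =>
        Finset.sum_comm
      rw [Finset.sum_congr rfl fun C _ => this C]
      exact Finset.sum_comm
    rw [e1, e2, ← Finset.sum_add_distrib]
    refine Finset.sum_eq_zero fun i _ => ?_
    rw [← Finset.sum_add_distrib]
    refine Finset.sum_eq_zero fun B _ => ?_
    rw [← add_smul, ← Complex.ofReal_add, hc i B]
    simp
  rw [s_apply]
  unfold X Setup.J Setup.G
  simp only [smul_add, Finset.sum_add_distrib]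
  have e4 : ∀ C, (a C : ℂ) • (-Complex.I) • ∑ i, ∑ A, ∑ B, ((S.f C A B : ℂ) * (ξ (i, A) : ℂ)) •
      pd i B v ξ = (-Complex.I) • (a C : ℂ) • ∑ i, ∑ A, ∑ B, ((S.f C A B : ℂ) * (ξ (i, A) : ℂ)) •
      pd i B v ξ := fun C => smul_comm _ _ _
  simp only [e4, ← Finset.smul_sum]
  have e5 := congrArg (fun z => (-Complex.I) • z) h0
  simp only [smul_add, smul_zero] at e5
  rw [← add_assoc, add_right_comm _ (S.Skl k l (v ξ)), e5, zero_add]

theorem A1 : A1Stmt S := a1 S (a1a S) (a1b S (fbmn S (f10 S)))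
theorem A7 : A7Stmt S := a7 S (A1 S)

lemma X_Q {k l : Fin 9} (hkl : Same k l) (a : Fin d → ℝ) (α : Fin 16) {u : Cfg d → F}
    (hu : ContDiff ℝ ∞ u) (x : Cfg d) : X S k l a (S.Qm 1 α u) x =
      S.Qm 1 α (X S k l a u) x + (Complex.I / 2) • ∑ β, S.g2 k l α β • S.Qm 1 β u x := by
  have h2 := (a2 (S := S)) 1 k l hkl α u hu x
  have h3 : ∀ C, S.G C (S.Qm 1 α u) x = S.Qm 1 α (S.G C u) x := fun C => (a3 (S := S)) 1 C α u hu x
  have h4 : S.Qm 1 α (X S k l a u) x = S.Qm 1 α (S.J k l u) x + ∑ C, (a C : ℂ) • S.Qm 1 α (S.G C u) x := by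
    have e1 := A4.Qm_add S 1 α (u := S.J k l u) (v := fun y => ∑ C, (a C : ℂ) • S.G C u y)
      (S.contDiff_J k l hu)
      (ContDiff.sum fun C _ => contDiff_const.smul (A4.contDiff_G S C hu)) x
    have e2 := A4.Qm_sum S Finset.univ 1 α (fun C y => (a C : ℂ) • S.G C u y)
      (fun C _ => contDiff_const.smul (A4.contDiff_G S C hu)) x
    have e3 : ∀ C, S.Qm 1 α (fun y => (a C : ℂ) • S.G C u y) x = (a C : ℂ) • S.Qm 1 α (S.G C u) x :=
      fun C => A4.Qm_cs S 1 α (a C : ℂ) (A4.contDiff_G S C hu) x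
    have e0 : X S k l a u = fun y => S.J k l u y + ∑ C, (a C : ℂ) • S.G C u y := rfl
    rw [e0, e1, e2]
    simp only [e3]
  rw [h4]
  unfold X
  simp only [h3]
  rw [← h2]
  abel

lemma g2_skew (k l : Fin 9) (α β : Fin 16) : S.g2 k l β α = -S.g2 k l α β := by
  have := congrFun (congrFun (S.g2_transpose' k l) α) β
  simpa [Matrix.transpose_apply] using this

/-- `s` commutes with `H_f` -/
lemma s_comm {k l : Fin 9} (hkl : Same k l) {a : Fin d → ℝ} {ξ : Cfg d} (hV : S.Vm 1 ξ = 0)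
    (hξ : vf S k l a ξ = 0) (φ : F) : Hf S ξ (s S k l a φ) = s S k l a (Hf S ξ φ) := by
  set u : Cfg d → F := fun _ => φ with hu
  have hus : ContDiff ℝ ∞ u := contDiff_const
  have hQ : ∀ β, ContDiff ℝ ∞ (S.Qm 1 β u) := fun β => A4.contDiff_Qm S 1 β hus
  have hHm : ∀ ψ : F, S.Hm 1 (fun _ => ψ) ξ = Hf S ξ ψ := by
    intro ψ
    have h1 : ∀ i A, pd i A (pd i A (fun _ : Cfg d => ψ)) ξ = 0 := by
      intro i A
      have h : pd i A (fun _ : Cfg d => ψ) = fun _ => (0 : F) := funext fun y => pd_const i A ψ y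
      rw [h, pd_const]
    unfold Setup.Hm Hf
    simp only [h1, Finset.sum_const_zero, smul_zero, zero_add, hV]
    rw [_root_.sub_apply]
    simp
  -- the two sides
  have h7 := A7 S 1 u hus ξ
  have h7' := A7 S 1 (X S k l a u) (X_smooth S k l a hus) ξ
  have hX : X S k l a u = fun _ => s S k l a φ := X_const S k l a φ
  rw [hX, hHm] at h7'
  rw [hHm] at h7
  have e1 : ∀ β, s S k l a (S.Qm 1 β (S.Qm 1 β u) ξ) = S.Qm 1 β (S.Qm 1 β (fun _ => s S k l a φ)) ξ +
      (Complex.I / 2) • ∑ γ, S.g2 k l β γ • (S.Qm 1 β (S.Qm 1 γ u) ξ + S.Qm 1 γ (S.Qm 1 β u) ξ) := by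
    intro β
    rw [← X_at S hξ, X_Q S hkl a β (hQ β)]
    have e2 : X S k l a (S.Qm 1 β u) = fun y => S.Qm 1 β (fun _ => s S k l a φ) y +
        (Complex.I / 2) • ∑ γ, S.g2 k l β γ • S.Qm 1 γ u y := by
      funext y
      rw [X_Q S hkl a β hus, hX]
    have hs0 : ContDiff ℝ ∞ (fun y => ∑ γ, S.g2 k l β γ • S.Qm 1 γ u y) :=
      ContDiff.sum fun γ _ => contDiff_const.smul (hQ γ)
    rw [e2, A4.Qm_add S 1 β (u := S.Qm 1 β (fun _ => s S k l a φ))
        (v := fun y => (Complex.I / 2) • ∑ γ, S.g2 k l β γ • S.Qm 1 γ u y)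
        (A4.contDiff_Qm S 1 β contDiff_const) (contDiff_const.smul hs0),
      A4.Qm_cs S 1 β (Complex.I / 2) hs0,
      A4.Qm_sum S Finset.univ 1 β (fun γ y => S.g2 k l β γ • S.Qm 1 γ u y)
        (fun γ _ => contDiff_const.smul (hQ γ))]
    have e3 : ∀ γ, S.Qm 1 β (fun y => S.g2 k l β γ • S.Qm 1 γ u y) ξ =
        S.g2 k l β γ • S.Qm 1 β (S.Qm 1 γ u) ξ := fun γ => A4.Qm_cs S 1 β _ (hQ γ) ξ
    simp only [e3, smul_add, Finset.sum_add_distrib]
    abel
  have e4 : ∑ β, ∑ γ, S.g2 k l β γ • (S.Qm 1 β (S.Qm 1 γ u) ξ + S.Qm 1 γ (S.Qm 1 β u) ξ) = 0 := by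
    set T := ∑ β, ∑ γ, S.g2 k l β γ • (S.Qm 1 β (S.Qm 1 γ u) ξ + S.Qm 1 γ (S.Qm 1 β u) ξ) with hT
    have e5 : T = -T := by
      conv_lhs => rw [hT, Finset.sum_comm]
      rw [hT, ← Finset.sum_neg_distrib]
      refine Finset.sum_congr rfl fun β _ => ?_
      rw [← Finset.sum_neg_distrib]
      refine Finset.sum_congr rfl fun γ _ => ?_
      rw [g2_skew, neg_smul, add_comm]
    have e6 : (2 : ℂ) • T = 0 := by
      rw [two_smul]
      nth_rewrite 2 [e5]
      abel
    exact (smul_eq_zero.1 e6).resolve_left (by norm_num)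
  have e7 : s S k l a ((16 : ℂ) • Hf S ξ φ) = (16 : ℂ) • Hf S ξ (s S k l a φ) := by
    rw [← h7, ← h7', map_sum, Finset.sum_congr rfl fun β _ => e1 β, Finset.sum_add_distrib,
      ← Finset.smul_sum, e4, smul_zero, add_zero]
  rw [map_smul] at e7
  exact (smul_right_injective F (by norm_num : (16 : ℂ) ≠ 0) e7).symm

/-- the matrix of `s` -/
noncomputable def DD (k l : Fin 9) (a : Fin d → ℝ) : Matrix (Fin 16 × Fin d) (Fin 16 × Fin d) ℝ :=
  fun p q => -(1 / 4) * (if p.2 = q.2 then (S.g2 k l p.1 q.1).re else 0) -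
    1 / 2 * (if p.1 = q.1 then ∑ C, a C * S.f C p.2 q.2 else 0)

lemma DD_skew (k l : Fin 9) (a : Fin d → ℝ) : (DD S k l a).transpose = -DD S k l a := by
  ext p q
  rw [Matrix.transpose_apply, Matrix.neg_apply]
  unfold DD
  have h1 : (S.g2 k l q.1 p.1).re = -(S.g2 k l p.1 q.1).re := by
    rw [g2_skew S k l p.1 q.1, Complex.neg_re]
  have h2 : ∑ C, a C * S.f C q.2 p.2 = -∑ C, a C * S.f C p.2 q.2 := by
    rw [← Finset.sum_neg_distrib]
    refine Finset.sum_congr rfl fun C _ => ?_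
    rw [S.f_swap' C p.2 q.2]
    ring
  by_cases h3 : p.2 = q.2
  · by_cases h4 : p.1 = q.1
    · rw [if_pos h3, if_pos h3.symm, if_pos h4, if_pos h4.symm, h1, h2]
      ring
    · rw [if_pos h3, if_pos h3.symm, if_neg h4, if_neg (Ne.symm h4), h1]
      ring
  · by_cases h4 : p.1 = q.1
    · rw [if_neg h3, if_neg (Ne.symm h3), if_pos h4, if_pos h4.symm, h2]
      ring
    · rw [if_neg h3, if_neg (Ne.symm h3), if_neg h4, if_neg (Ne.symm h4)]
      ring

lemma s_eq (k l : Fin 9) (a : Fin d → ℝ) : s S k l a = Complex.I • bD S (DD S k l a) := by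
  have hre : ∀ α β, S.g2 k l α β = ((S.g2 k l α β).re : ℂ) := fun α β =>
    Complex.ext (by simp) (by simp [S.g2_im k l α β])
  have e1 : S.Skl k l = Complex.I • ∑ p : Fin 16 × Fin d, ∑ q : Fin 16 × Fin d,
      ((-(1 / 4) * (if p.2 = q.2 then (S.g2 k l p.1 q.1).re else 0) : ℝ) : ℂ) •
        (S.th p.1 p.2 * S.th q.1 q.2) := by
    unfold Setup.Skl CS.tot CS.bil CS.vec
    rw [Finset.smul_sum, Finset.smul_sum, Fintype.sum_prod_type_right]
    refine Finset.sum_congr rfl fun A _ => ?_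
    rw [Finset.smul_sum]
    refine Finset.sum_congr rfl fun α _ => ?_
    rw [Finset.mul_sum, Finset.smul_sum, Finset.smul_sum, Fintype.sum_prod_type_right]
    rw [Finset.sum_eq_single A]
    · refine Finset.sum_congr rfl fun β _ => ?_
      rw [if_pos rfl, mul_smul_comm, smul_smul, smul_smul]
      congr 1
      conv_lhs => rw [hre α β]
      push_cast
      ring
    · intro B _ hB
      refine Finset.sum_eq_zero fun β _ => ?_
      rw [if_neg (Ne.symm hB)]
      simp
    · intro h; exact absurd (Finset.mem_univ _) h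
  have e2 : ∑ C, (a C : ℂ) • S.cS C = Complex.I • ∑ p : Fin 16 × Fin d, ∑ q : Fin 16 × Fin d,
      ((-(1 / 2 * (if p.1 = q.1 then ∑ C, a C * S.f C p.2 q.2 else 0)) : ℝ) : ℂ) •
        (S.th p.1 p.2 * S.th q.1 q.2) := by
    have e3 : ∀ A B, (∑ C, (a C : ℂ) * (S.f C A B : ℂ)) = ((∑ C, a C * S.f C A B : ℝ) : ℂ) := by
      intro A B
      push_cast
      rfl
    have e4 : ∑ C, (a C : ℂ) • S.cS C = (-Complex.I / 2) • ∑ A, ∑ B,
        ((∑ C, a C * S.f C A B : ℝ) : ℂ) • S.bil 1 A B := by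
      unfold Setup.cS
      have : ∀ C, (a C : ℂ) • (-Complex.I / 2) • ∑ D, ∑ E, (S.f C D E : ℂ) • S.bil 1 D E =
          (-Complex.I / 2) • ∑ D, ∑ E, ((a C : ℂ) * (S.f C D E : ℂ)) • S.bil 1 D E := by
        intro C
        rw [smul_comm, Finset.smul_sum]
        congr 1
        refine Finset.sum_congr rfl fun D _ => ?_
        rw [Finset.smul_sum]
        refine Finset.sum_congr rfl fun E _ => ?_
        rw [smul_smul]
      rw [Finset.sum_congr rfl fun C _ => this C, ← Finset.smul_sum, Finset.sum_comm]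
      congr 1
      refine Finset.sum_congr rfl fun A _ => ?_
      rw [Finset.sum_comm]
      refine Finset.sum_congr rfl fun B _ => ?_
      rw [← Finset.sum_smul, e3]
    rw [e4, Finset.smul_sum, Finset.smul_sum, Fintype.sum_prod_type_right]
    refine Finset.sum_congr rfl fun A _ => ?_
    rw [Finset.smul_sum]
    have e5 : ∀ B, (-Complex.I / 2) • ((∑ C, a C * S.f C A B : ℝ) : ℂ) • S.bil 1 A B =
        ∑ α, (Complex.I * ((-(1 / 2 * ∑ C, a C * S.f C A B) : ℝ) : ℂ)) • (S.th α A * S.th α B) := by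
      intro B
      have e6 : S.bil 1 A B = ∑ α, S.th α A * S.th α B := by
        unfold CS.bil
        exact Finset.sum_congr rfl fun α _ => by rw [S.vec_one]
      rw [e6, smul_smul, Finset.smul_sum]
      refine Finset.sum_congr rfl fun α _ => ?_
      congr 1
      push_cast
      ring
    rw [Finset.sum_congr rfl fun B _ => e5 B, Finset.sum_comm]
    refine Finset.sum_congr rfl fun α _ => ?_
    rw [Finset.smul_sum, Fintype.sum_prod_type]
    rw [Finset.sum_eq_single α]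
    · refine Finset.sum_congr rfl fun B _ => ?_
      rw [if_pos rfl, smul_smul]
    · intro β _ hβ
      refine Finset.sum_eq_zero fun B _ => ?_
      rw [if_neg (Ne.symm hβ)]
      simp
    · intro h; exact absurd (Finset.mem_univ _) h
  unfold s bD DD
  rw [e1, e2, ← smul_add, ← Finset.sum_add_distrib]
  congr 1
  refine Finset.sum_congr rfl fun p _ => ?_
  rw [← Finset.sum_add_distrib]
  refine Finset.sum_congr rfl fun q _ => ?_
  rw [← add_smul, ← Complex.ofReal_add, ← sub_eq_add_neg]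

lemma re3 {x y z : ℂ} (hx : x.im = 0) (hy : y.im = 0) (hz : z.im = 0) :
    (x * y * z).re = x.re * y.re * z.re := by
  simp [Complex.mul_re, Complex.mul_im, hx, hy, hz]

lemma re2 {x z : ℂ} (hx : x.im = 0) (hz : z.im = 0) : (x * z).re = x.re * z.re := by
  simp [Complex.mul_re, hx, hz]

/-- conjugation by a gamma matrix not in the plane -/
lemma g2_conj {j k l : Fin 9} (hk : j ≠ k) (hl : j ≠ l) : S.g j * S.g2 k l * S.g j = S.g2 k l := by
  have h1 : S.g j * S.g k = -(S.g k * S.g j) := by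
    have := S.g_anti j k
    rw [if_neg hk] at this
    exact eq_neg_of_add_eq_zero_left this
  have h2 : S.g j * S.g l = -(S.g l * S.g j) := by
    have := S.g_anti j l
    rw [if_neg hl] at this
    exact eq_neg_of_add_eq_zero_left this
  have h3 : S.g j * S.g j = 1 := S.g_sq j
  unfold CS.g2
  rw [mul_smul_comm, smul_mul_assoc]
  congr 1
  have h4 : ∀ a b : Matrix (Fin 16) (Fin 16) ℂ, S.g j * a = -(a * S.g j) → S.g j * b = -(b * S.g j) →
      S.g j * (a * b) * S.g j = a * b := by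
    intro a b ha hb
    calc S.g j * (a * b) * S.g j = (S.g j * a) * b * S.g j := by simp only [mul_assoc]
      _ = -(a * (S.g j * b) * S.g j) := by rw [ha]; simp only [neg_mul, mul_assoc]
      _ = a * b * (S.g j * S.g j) := by rw [hb]; simp only [mul_neg, neg_mul, neg_neg, mul_assoc]
      _ = a * b := by rw [h3, mul_one]
  rw [mul_sub, sub_mul, h4 _ _ h1 h2, h4 _ _ h2 h1]

lemma DD_conj {j k l : Fin 9} (hk : j ≠ k) (hl : j ≠ l) (a : Fin d → ℝ) (α β : Fin 16)
    (A B : Fin d) : ∑ α', ∑ β', (S.g j α α').re * DD S k l a (α', A) (β', B) * (S.g j β' β).re =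
      DD S k l a (α, A) (β, B) := by
  have h1 : ∑ α', ∑ β', (S.g j α α').re * (S.g2 k l α' β').re * (S.g j β' β).re =
      (S.g2 k l α β).re := by
    have e1 : S.g2 k l α β = ∑ α', ∑ β', S.g j α α' * S.g2 k l α' β' * S.g j β' β := by
      conv_lhs => rw [← g2_conj S hk hl]
      rw [Matrix.mul_apply]
      simp only [Matrix.mul_apply, Finset.sum_mul]
      exact Finset.sum_comm
    conv_rhs => rw [e1]
    rw [Complex.re_sum]
    refine Finset.sum_congr rfl fun α' _ => ?_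
    rw [Complex.re_sum]
    refine Finset.sum_congr rfl fun β' _ => ?_
    rw [re3 (S.g_real j α α') (S.g2_im k l α' β') (S.g_real j β' β)]
  have h2 : ∑ α', (S.g j α α').re * (S.g j α' β).re = if α = β then 1 else 0 := by
    have e1 := congrFun (congrFun (S.g_sq j) α) β
    rw [Matrix.mul_apply, Matrix.one_apply] at e1
    have e2 := congrArg Complex.re e1
    rw [Complex.re_sum] at e2
    rw [← Finset.sum_congr rfl fun α' _ => re2 (S.g_real j α α') (S.g_real j α' β), e2]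
    split_ifs <;> simp
  have h3 : ∀ α' β', (S.g j α α').re * DD S k l a (α', A) (β', B) * (S.g j β' β).re =
      -(1 / 4) * (if A = B then 1 else 0) *
        ((S.g j α α').re * (S.g2 k l α' β').re * (S.g j β' β).re) -
      1 / 2 * (∑ C, a C * S.f C A B) *
        (if α' = β' then (S.g j α α').re * (S.g j β' β).re else 0) := by
    intro α' β'
    unfold DD
    simp only []
    by_cases h4 : A = B
    · by_cases h5 : α' = β'
      · rw [if_pos h4, if_pos h4, if_pos h5, if_pos h5]; ring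
      · rw [if_pos h4, if_pos h4, if_neg h5, if_neg h5]; ring
    · by_cases h5 : α' = β'
      · rw [if_neg h4, if_neg h4, if_pos h5, if_pos h5]; ring
      · rw [if_neg h4, if_neg h4, if_neg h5, if_neg h5]; ring
  simp only [h3, Finset.sum_sub_distrib, ← Finset.mul_sum]
  rw [h1]
  have h6 : ∑ α', ∑ β', (if α' = β' then (S.g j α α').re * (S.g j β' β).re else 0) =
      if α = β then 1 else 0 := by
    rw [← h2]
    refine Finset.sum_congr rfl fun α' _ => ?_
    rw [Finset.sum_ite_eq]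
    simp
  rw [h6]
  unfold DD
  simp only []
  by_cases h4 : A = B
  · by_cases h5 : α = β
    · rw [if_pos h4, if_pos h4, if_pos h5, if_pos h5]; ring
    · rw [if_pos h4, if_pos h4, if_neg h5, if_neg h5]; ring
  · by_cases h5 : α = β
    · rw [if_neg h4, if_neg h4, if_pos h5, if_pos h5]; ring
    · rw [if_neg h4, if_neg h4, if_neg h5, if_neg h5]; ring

lemma exists_j (k l : Fin 9) : ∃ j : Fin 9, 3 ≤ j.val ∧ j ≠ k ∧ j ≠ l := by
  revert k l
  decide

end JK

/-- **G17** -/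
theorem jKill {d : ℕ} {F : Type*} [NormedAddCommGroup F] [InnerProductSpace ℂ F]
    [FiniteDimensional ℂ F] (S : Setup d F) (h13 : VacDStmt S) : JKillStmt S := by
  intro ξ hV E Ω hΩ k l hkl a hξ
  obtain ⟨j, hj, hjk, hjl⟩ := JK.exists_j k l
  have h1 : bD S (JK.DD S k l a) Ω = 0 := by
    refine h13 ξ hV E Ω hΩ _ (JK.DD_skew S k l a) (fun v => ?_) j hj
      (fun α β A B => JK.DD_conj S hjk hjl a α β A B)
    have h2 := JK.s_comm S hkl hV hξ v
    rw [JK.s_eq, _root_.smul_apply, _root_.smul_apply, map_smul] at h2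
    exact smul_right_injective F Complex.I_ne_zero h2
  rw [← JK.s_apply, JK.s_eq, _root_.smul_apply, h1, smul_zero]

end Vale.Agent.P353.AN.G
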