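import Vale.Agent.P353.AN.G.Stmt
import Vale.Agent.P353.Z.U.GamLem

/-! # P353, all `N`, block G, G12: `L_β(x)Ω + iN_β(Kx)Ω = 0` -/

open MeasureTheory Filter Topology
open scoped ContDiff Matrix

namespace Vale.Agent.P353.AN.G

open Vale.Agent.P353.Z Vale.Agent.P353.Z.U

variable {d : ℕ} {F : Type*} [NormedAddCommGroup F] [InnerProductSpace ℂ F]

namespace Kill

theorem B_add (S : Setup d F) (β : Fin 16) (x y : Cfg d) :
    S.B β (x + y) = S.B β x + S.B β y := by
  unfold Setup.B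
  simp only [← Finset.sum_add_distrib, ← add_smul]
  refine Finset.sum_congr rfl fun i _ => Finset.sum_congr rfl fun A _ => ?_
  simp

theorem B_smul (S : Setup d F) (β : Fin 16) (c : ℝ) (x : Cfg d) :
    S.B β (c • x) = (c : ℂ) • S.B β x := by
  unfold Setup.B
  simp only [Finset.smul_sum, smul_smul]
  refine Finset.sum_congr rfl fun i _ => Finset.sum_congr rfl fun A _ => ?_
  simp

theorem Lb_add (S : Setup d F) (ξ : Cfg d) (β : Fin 16) (x y : Cfg d) :
    Lb S ξ β (x + y) = Lb S ξ β x + Lb S ξ β y := by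
  have h1 : S.MM β (x + y) = S.MM β x + S.MM β y := by
    unfold Setup.MM
    simp only [← Finset.sum_add_distrib, ← add_smul]
    refine Finset.sum_congr rfl fun i _ => Finset.sum_congr rfl fun A _ => ?_
    congr 1
    simp [mul_add]
  have h2 : S.DW ξ β (x + y) = S.DW ξ β x + S.DW ξ β y := by
    unfold Setup.DW
    rw [← smul_add]
    congr 1
    simp only [← Finset.sum_add_distrib, ← add_smul]
    refine Finset.sum_congr rfl fun A _ => Finset.sum_congr rfl fun B _ =>
      Finset.sum_congr rfl fun C _ => Finset.sum_congr rfl fun i _ =>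
      Finset.sum_congr rfl fun j _ => ?_
    congr 1
    simp [mul_add]
  unfold Lb
  rw [h1, h2]
  abel

theorem Lb_smul (S : Setup d F) (ξ : Cfg d) (β : Fin 16) (c : ℝ) (x : Cfg d) :
    Lb S ξ β (c • x) = (c : ℂ) • Lb S ξ β x := by
  have h1 : S.MM β (c • x) = (c : ℂ) • S.MM β x := by
    unfold Setup.MM
    simp only [Finset.smul_sum, smul_smul]
    refine Finset.sum_congr rfl fun i _ => Finset.sum_congr rfl fun A _ => ?_
    congr 1
    simp
    ring
  have h2 : S.DW ξ β (c • x) = (c : ℂ) • S.DW ξ β x := by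
    unfold Setup.DW
    rw [smul_comm (c : ℂ)]
    congr 1
    simp only [Finset.smul_sum, smul_smul]
    refine Finset.sum_congr rfl fun A _ => Finset.sum_congr rfl fun B _ =>
      Finset.sum_congr rfl fun C _ => Finset.sum_congr rfl fun i _ =>
      Finset.sum_congr rfl fun j _ => ?_
    congr 1
    simp
    ring
  unfold Lb
  rw [h1, h2, smul_add]

/-- a vector with energy below the lowest eigenvalue vanishes -/
theorem eq_zero_of_low {S : Setup d F} {ξ : Cfg d} {E : ℝ} {Ω : F} (hL : IsLow S ξ E Ω) {w : F}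
    {E' : ℝ} (hw : Hf S ξ w = (E' : ℂ) • w) (hE : E' < E) : w = 0 := by
  have h1 := hL.low w
  rw [hw, inner_smul_right, inner_self_eq_norm_sq_to_K] at h1
  have h2 : (((E' : ℂ)) * (((‖w‖ : ℝ) : ℂ)) ^ 2).re = E' * ‖w‖ ^ 2 := by
    rw [← Complex.ofReal_pow, ← Complex.ofReal_mul, Complex.ofReal_re]
  have h3 : E * ‖w‖ ^ 2 ≤ E' * ‖w‖ ^ 2 := by
    refine h1.trans (le_of_eq ?_)
    simpa using h2
  have h4 : ‖w‖ ^ 2 = 0 := by nlinarith [sq_nonneg ‖w‖]
  simpa using h4

/-- the algebra behind `Kill`: `v_β` satisfies `H v_β = (E - r) v_β - (i/2) ∑ Γ_{βγ} v_γ` -/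
theorem core {S : Setup d F} {ξ : Cfg d} {E : ℝ} {Ω : F} (hL : IsLow S ξ E Ω) {r : ℝ} (hr : 1 ≤ r)
    (v : Fin 16 → F)
    (hv : ∀ β, Hf S ξ (v β) = ((E - r : ℝ) : ℂ) • v β -
      (Complex.I / 2) • ∑ γ, S.Gam β γ • v γ) (β : Fin 16) : v β = 0 := by
  -- `Γ² = -1`
  have hG : ∀ β, ∑ γ, S.Gam β γ • ∑ δ, S.Gam γ δ • v δ = -v β := by
    intro β
    simp only [Finset.smul_sum, smul_smul]
    rw [Finset.sum_comm]
    simp only [← Finset.sum_smul]
    have h1 : ∀ δ, ∑ γ, S.Gam β γ * S.Gam γ δ = -(if β = δ then 1 else 0) := by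
      intro δ
      have h2 := congrFun (congrFun S.Gam_sq β) δ
      rw [Matrix.mul_apply] at h2
      rw [h2]
      simp [Matrix.one_apply]
    simp only [h1]
    simp
  have hw : ∀ s : ℝ, s * s = 1 → v β + ((s : ℂ) * Complex.I) • ∑ γ, S.Gam β γ • v γ = 0 := by
    intro s hs
    have hsC : (s : ℂ) * (s : ℂ) = 1 := by exact_mod_cast hs
    have hs1 : -1 ≤ s := by nlinarith
    refine eq_zero_of_low hL (E' := E - r - s / 2) ?_ (by nlinarith)
    have h1 : Hf S ξ (∑ γ, S.Gam β γ • v γ) =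
        ((E - r : ℝ) : ℂ) • (∑ γ, S.Gam β γ • v γ) + (Complex.I / 2) • v β := by
      rw [map_sum]
      simp only [map_smul, hv, smul_sub, Finset.sum_sub_distrib]
      have e1 : ∑ γ, S.Gam β γ • ((E - r : ℝ) : ℂ) • v γ =
          ((E - r : ℝ) : ℂ) • ∑ γ, S.Gam β γ • v γ := by
        rw [Finset.smul_sum]
        refine Finset.sum_congr rfl fun γ _ => ?_
        rw [smul_comm]
      have e2 : ∑ γ, S.Gam β γ • (Complex.I / 2) • ∑ δ, S.Gam γ δ • v δ =
          (Complex.I / 2) • ∑ γ, S.Gam β γ • ∑ δ, S.Gam γ δ • v δ := by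
        rw [Finset.smul_sum]
        refine Finset.sum_congr rfl fun γ _ => ?_
        rw [smul_comm]
      rw [e1, e2, hG, smul_neg, sub_neg_eq_add]
    rw [map_add, map_smul, hv, h1]
    set g := ∑ γ, S.Gam β γ • v γ
    have hI : Complex.I * Complex.I = -1 := Complex.I_mul_I
    have e3 : ((s : ℂ) * Complex.I) • ((Complex.I / 2) • v β) = (-(s : ℂ) / 2) • v β := by
      rw [smul_smul]
      congr 1
      linear_combination ((s : ℂ) / 2) * hI
    have e4 : (((E - r - s / 2 : ℝ)) : ℂ) • (((s : ℂ) * Complex.I) • g) =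
        ((s : ℂ) * Complex.I) • (((E - r : ℝ) : ℂ) • g) - (Complex.I / 2) • g := by
      rw [smul_smul, smul_smul, ← sub_smul]
      congr 1
      push_cast
      linear_combination (-Complex.I / 2) * hsC
    rw [smul_add, smul_add, e3, e4]
    have e5 : (((E - r - s / 2 : ℝ)) : ℂ) • v β =
        ((E - r : ℝ) : ℂ) • v β + (-(s : ℂ) / 2) • v β := by
      rw [← add_smul]
      congr 1
      push_cast
      ring
    rw [e5]
    abel
  have hp := hw 1 (by norm_num)
  have hm := hw (-1) (by norm_num)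
  have h2 : (2 : ℂ) • v β = 0 := by
    have h3 : v β + (((1 : ℝ) : ℂ) * Complex.I) • (∑ γ, S.Gam β γ • v γ) +
        (v β + (((-1 : ℝ) : ℂ) * Complex.I) • (∑ γ, S.Gam β γ • v γ)) = 0 := by
      rw [hp, hm, add_zero]
    rw [two_smul, ← h3]
    have h4 : (((-1 : ℝ) : ℂ) * Complex.I) • (∑ γ, S.Gam β γ • v γ) =
        -((((1 : ℝ) : ℂ) * Complex.I) • (∑ γ, S.Gam β γ • v γ)) := by
      rw [← neg_smul]
      congr 1
      push_cast
      ring
    rw [h4]
    abel
  exact (smul_eq_zero.1 h2).resolve_left two_ne_zero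

/-- the case of an eigenvector of `K` -/
theorem eig {S : Setup d F} (h6 : PerpKStmt S) (h7 : GapStmt S) (h8 : TanStmt S)
    (h9 : LinNStmt S) (h10 : LinLStmt S) {ξ : Cfg d} (h0 : S.Vm 1 ξ = 0) {K : Cfg d →L[ℝ] Cfg d}
    (hK : S.IsK ξ K) {E : ℝ} {Ω : F} (hL : IsLow S ξ E Ω) {r : ℝ} {x : Cfg d} (hx : K x = r • x)
    (β : Fin 16) : Lb S ξ β x Ω + Complex.I • S.B β (K x) Ω = 0 := by
  rcases eq_or_ne r 0 with h | hr
  · have hx0 : K x = 0 := by rw [hx, h, zero_smul]
    have hB : S.B β (0 : Cfg d) = 0 := by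
      have := B_smul S β 0 (0 : Cfg d)
      simpa using this
    rw [h8 ξ h0 K hK x hx0 β, hx0, hB]
    simp
  rcases eq_or_ne x 0 with rfl | hx1
  · have hB : S.B β (0 : Cfg d) = 0 := by
      have := B_smul S β 0 (0 : Cfg d)
      simpa using this
    have hLb : Lb S ξ β (0 : Cfg d) = 0 := by
      have := Lb_smul S ξ β 0 (0 : Cfg d)
      simpa using this
    rw [map_zero, hB, hLb]
    simp
  have hn : 0 < ‖x‖ ^ 2 := by positivity
  have hperp : S.Perp ξ x := by
    have h1 := h6 ξ h0 K hK (r⁻¹ • x)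
    rw [map_smul, hx, smul_smul, inv_mul_cancel₀ hr, one_smul] at h1
    exact h1
  have hpos : 0 ≤ r := by
    have h1 := hK.pos x
    rw [hx, inner_smul_right, real_inner_self_eq_norm_sq] at h1
    by_contra hneg
    push Not at hneg
    nlinarith
  have hgap : 1 ≤ r := by
    have h1 := h7 ξ h0 K hK x hperp
    rw [hx, norm_smul, mul_pow, Real.norm_eq_abs, sq_abs] at h1
    by_contra hlt
    push Not at hlt
    have h2 : r ^ 2 < 1 := by nlinarith
    nlinarith
  have hBx : ∀ γ, S.B γ (K x) = (r : ℂ) • S.B γ x := fun γ => by rw [hx, B_smul]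
  have hBxx : ∀ γ, S.B γ (K (K x)) = ((r * r : ℝ) : ℂ) • S.B γ x := fun γ => by
    rw [hx, map_smul, hx, smul_smul, B_smul]
  refine core hL hgap (fun β => Lb S ξ β x Ω + Complex.I • S.B β (K x) Ω) (fun β => ?_) β
  have e9 := h9 ξ h0 x hperp β Ω
  have e10 := h10 ξ h0 K hK x β Ω
  rw [hL.eig, map_smul] at e9 e10
  rw [sub_eq_iff_eq_add] at e9 e10
  simp only [hBx, smul_apply, map_add, map_smul, smul_add,
    Finset.sum_add_distrib]
  rw [e9, e10, hBxx]
  have hI : Complex.I * Complex.I = -1 := Complex.I_mul_I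
  have e1 : ∑ γ, S.Gam β γ • Complex.I • (r : ℂ) • S.B γ x Ω =
      (Complex.I * (r : ℂ)) • ∑ γ, S.Gam β γ • S.B γ x Ω := by
    rw [Finset.smul_sum]
    refine Finset.sum_congr rfl fun γ _ => ?_
    rw [smul_smul, smul_smul, smul_smul]
    congr 1
    ring
  rw [e1]
  set p := Lb S ξ β x Ω
  set q := S.B β x Ω
  set P := ∑ γ, S.Gam β γ • Lb S ξ γ x Ω
  set Q := ∑ γ, S.Gam β γ • S.B γ x Ω
  simp only [smul_apply, smul_add, smul_sub, smul_smul]
  match_scalars
  · ring
  · ring
  · linear_combination (r : ℂ) * hI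
  · ring

end Kill

/-- **G12** -/
theorem kill [FiniteDimensional ℂ F] (S : Setup d F) (h6 : PerpKStmt S) (h7 : GapStmt S)
    (h8 : TanStmt S) (h9 : LinNStmt S) (h10 : LinLStmt S) : KillStmt S := by
  intro ξ h0 K hK E Ω hL β x
  let W : Submodule ℝ (Cfg d) :=
    { carrier := {x | Lb S ξ β x Ω + Complex.I • S.B β (K x) Ω = 0}
      add_mem' := fun {x y} hx hy => by
        simp only [Set.mem_ofPred_eq] at hx hy ⊢
        rw [map_add, Kill.B_add, Kill.Lb_add, add_apply, add_apply, smul_add]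
        calc _ = (Lb S ξ β x Ω + Complex.I • S.B β (K x) Ω) +
              (Lb S ξ β y Ω + Complex.I • S.B β (K y) Ω) := by abel
          _ = 0 := by rw [hx, hy, add_zero]
      zero_mem' := by
        simp only [Set.mem_ofPred_eq]
        have hB : S.B β (0 : Cfg d) = 0 := by
          have := Kill.B_smul S β 0 (0 : Cfg d)
          simpa using this
        have hLb : Lb S ξ β (0 : Cfg d) = 0 := by
          have := Kill.Lb_smul S ξ β 0 (0 : Cfg d)
          simpa using this
        rw [map_zero, hB, hLb]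
        simp
      smul_mem' := fun c x hx => by
        simp only [Set.mem_ofPred_eq] at hx ⊢
        rw [map_smul, Kill.B_smul, Kill.Lb_smul, smul_apply, smul_apply, smul_comm, ← smul_add, hx,
          smul_zero] }
  have hsymm : (K : Cfg d →ₗ[ℝ] Cfg d).IsSymmetric := fun x y => hK.symm x y
  have htop : ⨆ μ, Module.End.eigenspace (K : Cfg d →ₗ[ℝ] Cfg d) μ = ⊤ := by
    have := hsymm.orthogonalComplement_iSup_eigenspaces_eq_bot
    rwa [Submodule.orthogonal_eq_bot_iff] at this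
  have hle : (⊤ : Submodule ℝ (Cfg d)) ≤ W := by
    rw [← htop]
    exact iSup_le fun μ y hy =>
      Kill.eig h6 h7 h8 h9 h10 h0 hK hL (Module.End.mem_eigenspace_iff.1 hy) β
  exact hle Submodule.mem_top

end Vale.Agent.P353.AN.G
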