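import Vale.Agent.P353.AN.G.Stmt
import Vale.Agent.P353.Z.U.LimA
import Vale.Agent.P353.Z.U.Hes
import Vale.Agent.P353.Z.U.A2
import Vale.Agent.P353.Z.U.EsaBase
import Vale.Agent.P353.Z.U.QmBase

/-! # P353, all `N`, block G: G10 `[H_f, L_β(a)] = -iN_β(K²a) - (i/2)(ΓL(a))_β` -/

open MeasureTheory Filter Topology
open scoped ContDiff

namespace Vale.Agent.P353.AN.G

open Vale.Agent.P353.Z Vale.Agent.P353.Z.U

namespace LinLP

variable {d : ℕ} {F : Type*} [NormedAddCommGroup F] [InnerProductSpace ℂ F] (S : Setup d F)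

/-- derivative of `V_1` at `x` in direction `e` -/
noncomputable def dV (x e : Cfg d) : ℝ :=
  (∑ k, ∑ A, S.GG 1 k A x * S.LG x k A e) +
    (∑ i : Fin 9, ∑ A, if i.val < 3 then 0 else x (i, A) * e (i, A)) +
    (1 / 2) * (∑ i : Fin 9, ∑ j : Fin 9, ∑ A,
      if i.val < 3 ∧ j.val < 3 then 0 else S.FF A i j x * S.LF x A i j e)

/-- polarisation of `hq` -/
noncomputable def hb (ξ x e : Cfg d) : ℝ :=
  (∑ k, ∑ A, S.LG ξ k A x * S.LG ξ k A e) +
    (∑ i : Fin 9, ∑ A, if i.val < 3 then 0 else x (i, A) * e (i, A)) +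
    (1 / 2) * (∑ i : Fin 9, ∑ j : Fin 9, ∑ A,
      if i.val < 3 ∧ j.val < 3 then 0 else S.LF ξ A i j x * S.LF ξ A i j e)

lemma LF_smul (ξ : Cfg d) (A : Fin d) (i j : Fin 9) (t : ℝ) (e : Cfg d) :
    S.LF ξ A i j (t • e) = t * S.LF ξ A i j e := by
  simp only [Setup.LF, Finset.mul_sum]
  refine Finset.sum_congr rfl fun B _ => Finset.sum_congr rfl fun C _ => ?_
  simp only [PiLp.smul_apply, smul_eq_mul]
  ring

lemma LF_add (ξ : Cfg d) (A : Fin d) (i j : Fin 9) (x e : Cfg d) :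
    S.LF ξ A i j (x + e) = S.LF ξ A i j x + S.LF ξ A i j e := by
  unfold Setup.LF
  rw [← mul_add, ← Finset.sum_add_distrib]
  congr 1
  refine Finset.sum_congr rfl fun B _ => ?_
  rw [← Finset.sum_add_distrib]
  refine Finset.sum_congr rfl fun C _ => ?_
  simp only [PiLp.add_apply]
  ring

lemma LF_left (ξ a : Cfg d) (A : Fin d) (i j : Fin 9) (t : ℝ) (e : Cfg d) :
    S.LF (ξ + t • a) A i j e = S.LF ξ A i j e + t * S.LF a A i j e := by
  simp only [Setup.LF, Finset.mul_sum, ← Finset.sum_add_distrib]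
  refine Finset.sum_congr rfl fun B _ => Finset.sum_congr rfl fun C _ => ?_
  simp only [PiLp.add_apply, PiLp.smul_apply, smul_eq_mul]
  ring

lemma FF_smul (A : Fin d) (i j : Fin 9) (t : ℝ) (e : Cfg d) :
    S.FF A i j (t • e) = t ^ 2 * S.FF A i j e := by
  simp only [Setup.FF, Finset.mul_sum]
  refine Finset.sum_congr rfl fun B _ => Finset.sum_congr rfl fun C _ => ?_
  simp only [PiLp.smul_apply, smul_eq_mul]
  ring

lemma LG_add (ξ : Cfg d) (k : Fin 3) (A : Fin d) (x e : Cfg d) :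
    S.LG ξ k A (x + e) = S.LG ξ k A x + S.LG ξ k A e := by
  unfold Setup.LG
  rw [LF_add, PiLp.add_apply]
  ring

lemma dFF (A : Fin d) (i j : Fin 9) (x e : Cfg d) :
    HasDerivAt (fun s : ℝ => S.FF A i j (x + s • e)) (S.LF x A i j e) 0 := by
  have h : (fun s : ℝ => S.FF A i j (x + s • e)) =
      fun s => S.FF A i j x + s * S.LF x A i j e + s ^ 2 * S.FF A i j e := by
    funext s
    rw [hes_FF_add, LF_smul, FF_smul]
  rw [h]
  have h2 := (((hasDerivAt_id (0 : ℝ)).mul_const (S.LF x A i j e)).const_add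
    (S.FF A i j x)).fun_add ((hasDerivAt_pow 2 (0 : ℝ)).mul_const (S.FF A i j e))
  simpa using h2

lemma dco (i : Fin 9) (A : Fin d) (x e : Cfg d) :
    HasDerivAt (fun s : ℝ => (x + s • e) (i, A)) (e (i, A)) 0 := by
  have h : (fun s : ℝ => (x + s • e) (i, A)) = fun s => x (i, A) + s * e (i, A) := by
    funext s
    simp
  rw [h]
  simpa using ((hasDerivAt_id (0 : ℝ)).mul_const (e (i, A))).const_add (x (i, A))

lemma dGG (k : Fin 3) (A : Fin d) (x e : Cfg d) :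
    HasDerivAt (fun s : ℝ => S.GG 1 k A (x + s • e)) (S.LG x k A e) 0 := by
  unfold Setup.GG Setup.LG
  have h := (dFF S A (Setup.c3 (k + 1)) (Setup.c3 (k + 2)) x e).fun_add
    ((dco (Setup.c3 k) A x e).const_mul (2 * 1))
  simpa using h

lemma dLF (A : Fin d) (i j : Fin 9) (ξ a e : Cfg d) :
    HasDerivAt (fun t : ℝ => S.LF (ξ + t • a) A i j e) (S.LF a A i j e) 0 := by
  have h : (fun t : ℝ => S.LF (ξ + t • a) A i j e) =
      fun t => S.LF ξ A i j e + t * S.LF a A i j e := by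
    funext t
    rw [LF_left]
  rw [h]
  simpa using ((hasDerivAt_id (0 : ℝ)).mul_const (S.LF a A i j e)).const_add (S.LF ξ A i j e)

lemma dLG (k : Fin 3) (A : Fin d) (ξ a e : Cfg d) :
    HasDerivAt (fun t : ℝ => S.LG (ξ + t • a) k A e)
      (S.LF a A (Setup.c3 (k + 1)) (Setup.c3 (k + 2)) e) 0 := by
  unfold Setup.LG
  exact (dLF S A (Setup.c3 (k + 1)) (Setup.c3 (k + 2)) ξ a e).add_const _

lemma dVm (x e : Cfg d) : HasDerivAt (fun s : ℝ => S.Vm 1 (x + s • e)) (dV S x e) 0 := by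
  have h : (fun s : ℝ => S.Vm 1 (x + s • e)) = fun s =>
      (1 / 2) * (∑ k, ∑ A, S.GG 1 k A (x + s • e) ^ 2) +
    (1 / 2) * (∑ i : Fin 9, ∑ A, if i.val < 3 then 0 else (x + s • e) (i, A) ^ 2) +
    (1 / 4) * (∑ i : Fin 9, ∑ j : Fin 9, ∑ A,
      if i.val < 3 ∧ j.val < 3 then 0 else S.FF A i j (x + s • e) ^ 2) := by
    funext s
    rw [sq_stmt S 1 (x + s • e)]
    norm_num
  rw [h]
  have h1 : HasDerivAt (fun s : ℝ => ∑ k, ∑ A, S.GG 1 k A (x + s • e) ^ 2)
      (∑ k, ∑ A, 2 * (S.GG 1 k A x * S.LG x k A e)) 0 := by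
    refine HasDerivAt.fun_sum fun k _ => HasDerivAt.fun_sum fun A _ => ?_
    have h2 := (dGG S k A x e).fun_pow 2
    simpa [mul_assoc] using h2
  have h3 : HasDerivAt (fun s : ℝ => ∑ i : Fin 9, ∑ A, if i.val < 3 then 0 else
      (x + s • e) (i, A) ^ 2)
      (∑ i : Fin 9, ∑ A, if i.val < 3 then 0 else 2 * (x (i, A) * e (i, A))) 0 := by
    refine HasDerivAt.fun_sum fun i _ => HasDerivAt.fun_sum fun A _ => ?_
    by_cases hi : i.val < 3
    · simp only [if_pos hi]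
      exact hasDerivAt_const _ _
    · simp only [if_neg hi]
      have h2 := (dco i A x e).fun_pow 2
      simpa [mul_assoc] using h2
  have h4 : HasDerivAt (fun s : ℝ => ∑ i : Fin 9, ∑ j : Fin 9, ∑ A,
      if i.val < 3 ∧ j.val < 3 then 0 else S.FF A i j (x + s • e) ^ 2)
      (∑ i : Fin 9, ∑ j : Fin 9, ∑ A, if i.val < 3 ∧ j.val < 3 then 0 else
        2 * (S.FF A i j x * S.LF x A i j e)) 0 := by
    refine HasDerivAt.fun_sum fun i _ => HasDerivAt.fun_sum fun j _ =>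
      HasDerivAt.fun_sum fun A _ => ?_
    by_cases hi : i.val < 3 ∧ j.val < 3
    · simp only [if_pos hi]
      exact hasDerivAt_const _ _
    · simp only [if_neg hi]
      have h2 := (dFF S A i j x e).fun_pow 2
      simpa [mul_assoc] using h2
  have h5 := ((h1.const_mul (1 / 2)).fun_add (h3.const_mul (1 / 2))).fun_add (h4.const_mul (1 / 4))
  refine h5.congr_deriv ?_
  unfold dV
  have e1 : ∑ k, ∑ A, 2 * (S.GG 1 k A x * S.LG x k A e) =
      2 * ∑ k, ∑ A, S.GG 1 k A x * S.LG x k A e := by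
    simp only [Finset.mul_sum]
  have e2 : (∑ i : Fin 9, ∑ A, if i.val < 3 then 0 else 2 * (x (i, A) * e (i, A))) =
      2 * ∑ i : Fin 9, ∑ A, if i.val < 3 then 0 else x (i, A) * e (i, A) := by
    simp only [Finset.mul_sum, mul_ite, mul_zero]
  have e3 : (∑ i : Fin 9, ∑ j : Fin 9, ∑ A, if i.val < 3 ∧ j.val < 3 then 0 else
        2 * (S.FF A i j x * S.LF x A i j e)) =
      2 * ∑ i : Fin 9, ∑ j : Fin 9, ∑ A, if i.val < 3 ∧ j.val < 3 then 0 else
        S.FF A i j x * S.LF x A i j e := by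
    simp only [Finset.mul_sum, mul_ite, mul_zero]
  rw [e1, e2, e3]
  ring

lemma line_gen {f : Cfg d → ℝ} {x e : Cfg d} {c : ℝ} (hf : DifferentiableAt ℝ f x)
    (h : HasDerivAt (fun s : ℝ => f (x + s • e)) c 0) : fderiv ℝ f x e = c := by
  have h2 : HasDerivAt (fun t : ℝ => x + t • e) e 0 := by
    simpa using ((hasDerivAt_id (0 : ℝ)).smul_const e).const_add x
  have h3 : HasFDerivAt f (fderiv ℝ f x) (x + (0 : ℝ) • e) := by simpa using hf.hasFDerivAt
  have h4 : HasDerivAt (fun s : ℝ => f (x + s • e)) (fderiv ℝ f x e) 0 :=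
    h3.comp_hasDerivAt (0 : ℝ) h2
  exact h4.unique h

lemma fderiv_Vm (x e : Cfg d) : fderiv ℝ (S.Vm 1) x e = dV S x e :=
  line_gen ((S.esa_contDiff_Vm 1).differentiable (by simp) x) (dVm S x e)

/-- the gradient of `V_1` along a line through a zero -/
lemma ddV {ξ : Cfg d} (h : S.Vm 1 ξ = 0) (a e : Cfg d) :
    HasDerivAt (fun t : ℝ => dV S (ξ + t • a) e) (hb S ξ a e) 0 := by
  obtain ⟨z1, z2, z3⟩ := hes_zero S h
  unfold dV hb
  refine HasDerivAt.fun_add (HasDerivAt.fun_add ?_ ?_) (HasDerivAt.const_mul _ ?_)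
  · refine HasDerivAt.fun_sum fun k _ => HasDerivAt.fun_sum fun A _ => ?_
    have h1 := (dGG S k A ξ a).fun_mul (dLG S k A ξ a e)
    simpa [z1] using h1
  · refine HasDerivAt.fun_sum fun i _ => HasDerivAt.fun_sum fun A _ => ?_
    by_cases hi : i.val < 3
    · simp only [if_pos hi]
      exact hasDerivAt_const _ _
    · simp only [if_neg hi]
      exact (dco i A ξ a).mul_const _
  · refine HasDerivAt.fun_sum fun i _ => HasDerivAt.fun_sum fun j _ =>
      HasDerivAt.fun_sum fun A _ => ?_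
    by_cases hi : i.val < 3 ∧ j.val < 3
    · simp only [if_pos hi]
      exact hasDerivAt_const _ _
    · simp only [if_neg hi]
      have h1 := (dFF S A i j ξ a).fun_mul (dLF S A i j ξ a e)
      simpa [z3 i j A hi] using h1

lemma hq_add (ξ a e : Cfg d) : S.hq ξ (a + e) = S.hq ξ a + S.hq ξ e + hb S ξ a e := by
  unfold Setup.hq hb
  have e1 : ∑ k, ∑ A, S.LG ξ k A (a + e) ^ 2 = (∑ k, ∑ A, S.LG ξ k A a ^ 2) +
      (∑ k, ∑ A, S.LG ξ k A e ^ 2) + 2 * ∑ k, ∑ A, S.LG ξ k A a * S.LG ξ k A e := by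
    simp only [Finset.mul_sum, ← Finset.sum_add_distrib]
    refine Finset.sum_congr rfl fun k _ => Finset.sum_congr rfl fun A _ => ?_
    rw [LG_add]
    ring
  have e2 : (∑ i : Fin 9, ∑ A, if i.val < 3 then 0 else (a + e) (i, A) ^ 2) =
      (∑ i : Fin 9, ∑ A, if i.val < 3 then 0 else a (i, A) ^ 2) +
      (∑ i : Fin 9, ∑ A, if i.val < 3 then 0 else e (i, A) ^ 2) +
      2 * ∑ i : Fin 9, ∑ A, if i.val < 3 then 0 else a (i, A) * e (i, A) := by
    simp only [Finset.mul_sum, ← Finset.sum_add_distrib]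
    refine Finset.sum_congr rfl fun k _ => Finset.sum_congr rfl fun A _ => ?_
    split_ifs
    · ring
    · rw [PiLp.add_apply]
      ring
  have e3 : (∑ i : Fin 9, ∑ j : Fin 9, ∑ A, if i.val < 3 ∧ j.val < 3 then 0 else
        S.LF ξ A i j (a + e) ^ 2) =
      (∑ i : Fin 9, ∑ j : Fin 9, ∑ A, if i.val < 3 ∧ j.val < 3 then 0 else
        S.LF ξ A i j a ^ 2) +
      (∑ i : Fin 9, ∑ j : Fin 9, ∑ A, if i.val < 3 ∧ j.val < 3 then 0 else
        S.LF ξ A i j e ^ 2) +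
      2 * ∑ i : Fin 9, ∑ j : Fin 9, ∑ A, if i.val < 3 ∧ j.val < 3 then 0 else
        S.LF ξ A i j a * S.LF ξ A i j e := by
    simp only [Finset.mul_sum, ← Finset.sum_add_distrib]
    refine Finset.sum_congr rfl fun i _ => Finset.sum_congr rfl fun j _ =>
      Finset.sum_congr rfl fun A _ => ?_
    split_ifs
    · ring
    · rw [LF_add]
      ring
  rw [e1, e2, e3]
  ring

lemma hb_K {ξ : Cfg d} {K : Cfg d →L[ℝ] Cfg d} (hK : S.IsK ξ K) (a : Cfg d) (i : Fin 9)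
    (A : Fin d) : hb S ξ a (EuclideanSpace.single (i, A) 1) = K (K a) (i, A) := by
  set e : Cfg d := EuclideanSpace.single (i, A) 1 with he
  have h1 := hq_add S ξ a e
  have h2 : ‖K (a + e)‖ ^ 2 = ‖K a‖ ^ 2 + 2 * inner ℝ (K a) (K e) + ‖K e‖ ^ 2 := by
    rw [map_add]
    exact norm_add_sq_real _ _
  rw [hK.sq, hK.sq, hK.sq] at h2
  have h3 : inner ℝ (K a) (K e) = inner ℝ (K (K a)) e := (hK.symm (K a) e).symm
  have h4 : inner ℝ (K (K a)) e = K (K a) (i, A) := by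
    rw [he, EuclideanSpace.inner_single_right]
    simp
  rw [h3, h4] at h2
  linarith

/-- `Fx` is linear -/
lemma Fx_line (x a : Cfg d) (t : ℝ) : S.Fx (x + t • a) = S.Fx x + (t : ℂ) • S.Fx a := by
  simp only [Setup.Fx, Finset.smul_sum, ← Finset.sum_add_distrib]
  refine Finset.sum_congr rfl fun q _ => Finset.sum_congr rfl fun A _ =>
    Finset.sum_congr rfl fun B _ => Finset.sum_congr rfl fun C _ => ?_
  simp only [smul_smul, ← add_smul]
  congr 1
  simp only [PiLp.add_apply, PiLp.smul_apply, smul_eq_mul]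
  push_cast
  ring

lemma W_line (β : Fin 16) (x a : Cfg d) (t : ℝ) :
    S.W β (x + t • a) = S.W β x + (t : ℂ) • S.DW x β a + ((t : ℂ) ^ 2) • S.W β a := by
  have h := lm_W_affine S β 1 t x a
  rw [one_smul] at h
  rw [h]
  push_cast
  simp

lemma MM_line (β : Fin 16) (x a : Cfg d) (t : ℝ) :
    S.MM β (x + t • a) = S.MM β x + (t : ℂ) • S.MM β a := by
  have h := lm_MM_affine S β 1 t x a
  rw [one_smul] at h
  rw [h]
  push_cast
  simp

lemma DW_line (β : Fin 16) (x a e : Cfg d) (t : ℝ) :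
    S.DW (x + t • a) β e = S.DW x β e + (t : ℂ) • S.DW a β e := by
  have h := lmT_left S β 1 t x a e
  rw [one_smul] at h
  rw [lm_DW, lm_DW, lm_DW, h]
  push_cast
  module

lemma pd_const (i : Fin 9) (A : Fin d) (φ : F) (x : Cfg d) :
    pd i A (fun _ : Cfg d => φ) x = 0 := by
  unfold pd
  rw [fderiv_fun_const]
  simp

/-- supercharge on constants -/
lemma Qm_const (β : Fin 16) (φ : F) (x : Cfg d) :
    S.Qm 1 β (fun _ => φ) x = S.W β x φ + S.MM β x φ := by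
  simp [Setup.Qm, Setup.Q, pd_const]

lemma G_const (C : Fin d) (φ : F) (x : Cfg d) : S.G C (fun _ => φ) x = S.cS C φ := by
  simp [Setup.G, pd_const]

lemma pd_pd_const (i : Fin 9) (A : Fin d) (φ : F) (x : Cfg d) :
    pd i A (pd i A (fun _ : Cfg d => φ)) x = 0 := by
  have h : pd i A (fun _ : Cfg d => φ) = fun _ => (0 : F) := funext fun y => pd_const i A φ y
  rw [h, pd_const]

lemma Hm_const (φ : F) (x : Cfg d) :
    S.Hm 1 (fun _ => φ) x = ((S.Vm 1 x : ℝ) : ℂ) • φ + Hf S x φ := by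
  simp only [Setup.Hm, pd_pd_const, Hf]
  simp [add_sub_assoc]

lemma Hf_line (x a : Cfg d) (t : ℝ) : Hf S (x + t • a) = Hf S x + (t : ℂ) • S.Fx a := by
  unfold Hf
  rw [Fx_line]
  abel

lemma pd_Qm_const (β : Fin 16) (φ : F) (i : Fin 9) (A : Fin d) (x : Cfg d) :
    pd i A (S.Qm 1 β (fun _ => φ)) x = S.DW x β (EuclideanSpace.single (i, A) 1) φ +
      S.MM β (EuclideanSpace.single (i, A) 1) φ := by
  unfold pd
  refine line_fderiv (b := S.W β (EuclideanSpace.single (i, A) 1) φ)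
    ((HB.contDiff_Qm S 1 β contDiff_const).differentiable (by simp) x) fun t => ?_
  rw [Qm_const, Qm_const, W_line, MM_line]
  simp only [_root_.add_apply, _root_.smul_apply]
  module

lemma pd_pd_Qm_const (β : Fin 16) (φ : F) (i : Fin 9) (A : Fin d) (x : Cfg d) :
    pd i A (pd i A (S.Qm 1 β (fun _ => φ))) x =
      S.DW (EuclideanSpace.single (i, A) 1) β (EuclideanSpace.single (i, A) 1) φ := by
  have h : ContDiff ℝ ∞ (pd i A (S.Qm 1 β (fun _ => φ))) :=
    contDiff_pd (HB.contDiff_Qm S 1 β contDiff_const)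
  rw [pd]
  refine line_fderiv (b := (0 : F)) (h.differentiable (by simp) x) fun t => ?_
  rw [pd_Qm_const, pd_Qm_const, DW_line]
  simp only [_root_.add_apply, _root_.smul_apply]
  module

lemma pd_Hm_const (φ : F) (i : Fin 9) (A : Fin d) (x : Cfg d) :
    pd i A (S.Hm 1 (fun _ => φ)) x =
      ((dV S x (EuclideanSpace.single (i, A) 1) : ℝ) : ℂ) • φ +
        S.Fx (EuclideanSpace.single (i, A) 1) φ := by
  have h : S.Hm 1 (fun _ => φ) = fun y => ((S.Vm 1 y : ℝ) : ℂ) • φ + Hf S y φ :=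
    funext fun y => Hm_const S φ y
  have hF : ContDiff ℝ ∞ (fun y => Hf S y φ) := by
    have h1 : ContDiff ℝ ∞ (fun y => S.Fx y φ) :=
      Setup.contDiff_clm_apply' (contDiff_Fx S) contDiff_const
    have h2 : (fun y => Hf S y φ) = fun y => S.Fx y φ - ((3 / 4 : ℂ) • S.FG) φ := by
      funext y
      simp [Hf]
    rw [h2]
    exact h1.sub contDiff_const
  have hV : ContDiff ℝ ∞ (fun y => ((S.Vm 1 y : ℝ) : ℂ) • φ) :=
    (Setup.contDiff_ofReal (S.esa_contDiff_Vm 1)).smul contDiff_const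
  rw [h, pd_add (hV.differentiable (by simp) x) (hF.differentiable (by simp) x),
    pd_rsmul ((S.esa_contDiff_Vm 1).differentiable (by simp) x) (differentiableAt_const φ),
    pd_const, smul_zero, add_zero, fderiv_Vm]
  congr 1
  unfold pd
  refine line_fderiv (b := (0 : F)) (hF.differentiable (by simp) x) fun t => ?_
  rw [Hf_line]
  simp

/-- constant term -/
noncomputable def c0 (β : Fin 16) (φ : F) : F :=
  (-(1 / 2) : ℂ) • ∑ i : Fin 9, ∑ A : Fin d,
      S.DW (EuclideanSpace.single (i, A) 1) β (EuclideanSpace.single (i, A) 1) φ +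
    Complex.I • ∑ i, ∑ A, S.vec (S.g i) A β (S.Fx (EuclideanSpace.single (i, A) 1) φ) +
    (Complex.I * S.κ) • ∑ C, S.th β C (S.cS C φ)

/-- `A4` on constants -/
lemma a4_const (h4 : A4Stmt S) (β : Fin 16) (φ : F) (x : Cfg d) :
    c0 S β φ + (Hf S x (S.W β x φ + S.MM β x φ) - (S.W β x (Hf S x φ) + S.MM β x (Hf S x φ))) +
      Complex.I • ∑ i, ∑ A, ((dV S x (EuclideanSpace.single (i, A) 1) : ℝ) : ℂ) •
        S.vec (S.g i) A β φ +
      (Complex.I / 2) • ∑ γ, S.Gam β γ • (S.W γ x φ + S.MM γ x φ) = 0 := by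
  have h := h4 1 β (fun _ => φ) contDiff_const x
  have e1 : S.Hm 1 (S.Qm 1 β (fun _ => φ)) x =
      (-(1 / 2) : ℂ) • ∑ i : Fin 9, ∑ A : Fin d,
        S.DW (EuclideanSpace.single (i, A) 1) β (EuclideanSpace.single (i, A) 1) φ +
      ((S.Vm 1 x : ℝ) : ℂ) • (S.W β x φ + S.MM β x φ) +
      Hf S x (S.W β x φ + S.MM β x φ) := by
    simp only [Setup.Hm, pd_pd_Qm_const, Qm_const, Hf]
    simp [add_sub_assoc]
  have e2 : S.Qm 1 β (S.Hm 1 (fun _ => φ)) x =
      (-Complex.I) • ∑ i, ∑ A, ((dV S x (EuclideanSpace.single (i, A) 1) : ℝ) : ℂ) •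
        S.vec (S.g i) A β φ +
      (-Complex.I) • ∑ i, ∑ A, S.vec (S.g i) A β (S.Fx (EuclideanSpace.single (i, A) 1) φ) +
      ((S.Vm 1 x : ℝ) : ℂ) • (S.W β x φ + S.MM β x φ) +
      (S.W β x (Hf S x φ) + S.MM β x (Hf S x φ)) := by
    simp only [Setup.Qm, Setup.Q, pd_Hm_const, Hm_const, map_add, map_smul, smul_add,
      Finset.sum_add_distrib, Complex.ofReal_one, one_smul]
    abel
  rw [e1, e2] at h
  simp only [Qm_const, G_const] at h
  unfold c0
  have h' := sub_eq_zero.2 h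
  rw [← h']
  simp only [Complex.ofReal_one, mul_one]
  module

end LinLP

open LinLP in
/-- **G10 LinL** -/
theorem linL {d : ℕ} {F : Type*} [NormedAddCommGroup F] [InnerProductSpace ℂ F] (S : Setup d F)
    (h4 : A4Stmt S) (hcr : CritStmt S) : LinLStmt S := by
  intro ξ hξ K hK a β v
  obtain ⟨P, hP⟩ : ∃ P, P = Hf S ξ (Lb S ξ β a v) - Lb S ξ β a (Hf S ξ v) +
    (Complex.I / 2) • ∑ γ, S.Gam β γ • Lb S ξ γ a v := ⟨_, rfl⟩
  obtain ⟨Q, hQ⟩ : ∃ Q, Q = Hf S ξ (S.W β a v) + S.Fx a (Lb S ξ β a v) -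
    S.W β a (Hf S ξ v) - Lb S ξ β a (S.Fx a v) +
    (Complex.I / 2) • ∑ γ, S.Gam β γ • S.W γ a v := ⟨_, rfl⟩
  obtain ⟨R, hR⟩ : ∃ R, R = S.Fx a (S.W β a v) - S.W β a (S.Fx a v) := ⟨_, rfl⟩
  have hT : ∀ (γ : Fin 16) (t : ℝ) (w : F), S.W γ (ξ + t • a) w + S.MM γ (ξ + t • a) w =
      (t : ℂ) • Lb S ξ γ a w + ((t : ℂ) ^ 2) • S.W γ a w := by
    intro γ t w
    have h1 : S.W γ ξ w + S.MM γ ξ w = 0 := by
      rw [← _root_.add_apply, hcr ξ hξ γ]
      rfl
    rw [W_line, MM_line]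
    simp only [_root_.add_apply, _root_.smul_apply, Lb, smul_add]
    rw [show S.W γ ξ w + (t : ℂ) • S.DW ξ γ a w + (t : ℂ) ^ 2 • S.W γ a w +
      (S.MM γ ξ w + (t : ℂ) • S.MM γ a w) = (S.W γ ξ w + S.MM γ ξ w) +
      ((t : ℂ) • S.MM γ a w + (t : ℂ) • S.DW ξ γ a w + (t : ℂ) ^ 2 • S.W γ a w) by abel, h1,
      zero_add]
  have hI : ∀ t : ℝ, c0 S β v + (t : ℂ) • P + ((t : ℂ) ^ 2) • Q + ((t : ℂ) ^ 3) • R +
      Complex.I • ∑ i, ∑ A, ((dV S (ξ + t • a) (EuclideanSpace.single (i, A) 1) : ℝ) : ℂ) •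
        S.vec (S.g i) A β v = 0 := by
    intro t
    have h := a4_const S h4 β v (ξ + t • a)
    have hG : ∑ γ, S.Gam β γ • ((t : ℂ) • Lb S ξ γ a v + ((t : ℂ) ^ 2) • S.W γ a v) =
        (t : ℂ) • (∑ γ, S.Gam β γ • Lb S ξ γ a v) +
          ((t : ℂ) ^ 2) • ∑ γ, S.Gam β γ • S.W γ a v := by
      rw [Finset.smul_sum, Finset.smul_sum, ← Finset.sum_add_distrib]
      refine Finset.sum_congr rfl fun γ _ => ?_
      module
    simp only [hT, Hf_line] at h
    rw [hG] at h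
    rw [← h, hP, hQ, hR]
    simp only [_root_.add_apply, _root_.smul_apply, map_add, map_smul]
    module
  have hd : HasDerivAt (fun t : ℝ => c0 S β v + (t : ℂ) • P + ((t : ℂ) ^ 2) • Q +
      ((t : ℂ) ^ 3) • R +
      Complex.I • ∑ i, ∑ A, ((dV S (ξ + t • a) (EuclideanSpace.single (i, A) 1) : ℝ) : ℂ) •
        S.vec (S.g i) A β v)
      (P + Complex.I • ∑ i, ∑ A, ((K (K a) (i, A) : ℝ) : ℂ) • S.vec (S.g i) A β v) 0 := by
    have h5 : HasDerivAt (fun t : ℝ => (t : ℂ)) 1 (0 : ℝ) := by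
      simpa using (hasDerivAt_id (0 : ℝ)).ofReal_comp
    have h6 : HasDerivAt (fun t : ℝ => (t : ℂ) ^ 2) 0 (0 : ℝ) := by
      simpa using h5.fun_pow 2
    have h7 : HasDerivAt (fun t : ℝ => (t : ℂ) ^ 3) 0 (0 : ℝ) := by
      simpa using h5.fun_pow 3
    have h8 : HasDerivAt (fun t : ℝ => ∑ i, ∑ A,
        ((dV S (ξ + t • a) (EuclideanSpace.single (i, A) 1) : ℝ) : ℂ) • S.vec (S.g i) A β v)
        (∑ i, ∑ A, ((K (K a) (i, A) : ℝ) : ℂ) • S.vec (S.g i) A β v) 0 := by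
      refine HasDerivAt.fun_sum fun i _ => HasDerivAt.fun_sum fun A _ => ?_
      have h9 := ddV S hξ a (EuclideanSpace.single (i, A) 1)
      rw [hb_K S hK] at h9
      exact h9.ofReal_comp.smul_const _
    have h10 := ((((h5.smul_const P).const_add (c0 S β v)).fun_add (h6.smul_const Q)).fun_add
      (h7.smul_const R)).fun_add (h8.const_smul Complex.I)
    simpa using h10
  have h0 : HasDerivAt (fun t : ℝ => c0 S β v + (t : ℂ) • P + ((t : ℂ) ^ 2) • Q +
      ((t : ℂ) ^ 3) • R +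
      Complex.I • ∑ i, ∑ A, ((dV S (ξ + t • a) (EuclideanSpace.single (i, A) 1) : ℝ) : ℂ) •
        S.vec (S.g i) A β v) 0 0 := by
    rw [funext hI]
    exact hasDerivAt_const _ _
  have h1 := hd.unique h0
  have h2 : S.B β (K (K a)) v = ∑ i, ∑ A, ((K (K a) (i, A) : ℝ) : ℂ) • S.vec (S.g i) A β v := by
    simp only [Setup.B, _root_.sum_apply, _root_.smul_apply]
  rw [← h2, hP] at h1
  rw [← sub_eq_zero, ← h1]
  module

end Vale.Agent.P353.AN.G
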