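import Vale.Agent.P353.AN.G.Stmt

/-! # P353, all `N`, block G: `[H_f, N_β(a)]` (G09), by direct computation -/

open MeasureTheory Filter Topology
open scoped ContDiff Matrix

namespace Vale.Agent.P353.AN.G

open Vale.Agent.P353.Z Vale.Agent.P353.Z.U

namespace LinN

section alg

variable {d : ℕ} {R : Type*} [Ring R] [Algebra ℂ R] (S : CS d R)

/-- commutator of `(Nθ^D)_β` with a bilinear -/
lemma vec_comm_bil (N M : Matrix (Fin 16) (Fin 16) ℂ) (D A B : Fin d) (β : Fin 16) :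
    S.vec N D β * S.bil M A B - S.bil M A B * S.vec N D β =
      (if D = A then S.vec (N * M) B β else 0) - (if D = B then S.vec (N * Mᵀ) A β else 0) := by
  have hb : S.bil M A B = ∑ δ, S.vec 1 A δ * S.vec M B δ := by
    rw [S.sum_vec_mul_vec]; simp
  rw [hb, Finset.mul_sum, Finset.sum_mul, ← Finset.sum_sub_distrib]
  have h1 : ∀ δ, S.vec N D β * (S.vec 1 A δ * S.vec M B δ) -
      S.vec 1 A δ * S.vec M B δ * S.vec N D β =
      (if D = A then (N β δ) • S.vec M B δ else 0) -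
        (if D = B then ((N * Mᵀ) β δ) • S.vec 1 A δ else 0) := by
    intro δ
    have e1 := S.vec_anti N 1 D A β δ
    have e2 := S.vec_anti N M D B β δ
    have : S.vec N D β * (S.vec 1 A δ * S.vec M B δ) -
      S.vec 1 A δ * S.vec M B δ * S.vec N D β =
      (S.vec N D β * S.vec 1 A δ + S.vec 1 A δ * S.vec N D β) * S.vec M B δ -
      S.vec 1 A δ * (S.vec N D β * S.vec M B δ + S.vec M B δ * S.vec N D β) := by
      noncomm_ring
    rw [this, e1, e2]
    congr 1
    · by_cases h : D = A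
      · simp [h]
      · simp [h]
    · by_cases h : D = B
      · simp [h]
      · simp [h]
  rw [Finset.sum_congr rfl fun δ _ => h1 δ, Finset.sum_sub_distrib]
  congr 1
  · by_cases h : D = A
    · simp only [if_pos h]
      rw [S.vec_mul]
    · simp [h]
  · by_cases h : D = B
    · simp only [if_pos h, CS.vec_one]
      rfl
    · simp [h]

end alg

variable {d : ℕ} {F : Type*} [NormedAddCommGroup F] [InnerProductSpace ℂ F] (S : Setup d F)

/-- `X_A(x) = x_i^A γ^i` -/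
noncomputable def XX (x : Cfg d) (A : Fin d) : Matrix (Fin 16) (Fin 16) ℂ :=
  ∑ i, (x (i, A) : ℂ) • S.g i

lemma XX_transpose (x : Cfg d) (A : Fin d) : (XX S x A)ᵀ = XX S x A := by
  unfold XX
  rw [Matrix.transpose_sum]
  exact Finset.sum_congr rfl fun i _ => by rw [Matrix.transpose_smul, S.g_symm]

lemma XX_anti (x y : Cfg d) (A B : Fin d) : XX S x A * XX S y B + XX S y B * XX S x A =
    (2 : ℂ) • ((∑ i, (x (i, A) : ℂ) * (y (i, B) : ℂ)) • (1 : Matrix (Fin 16) (Fin 16) ℂ)) := by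
  have h1 : XX S x A * XX S y B =
      ∑ i, ∑ j, ((x (i, A) : ℂ) * (y (j, B) : ℂ)) • (S.g i * S.g j) := by
    simp only [XX, Finset.sum_mul, Finset.mul_sum, smul_mul_smul_comm]
    exact Finset.sum_comm
  have h2 : XX S y B * XX S x A =
      ∑ i, ∑ j, ((x (i, A) : ℂ) * (y (j, B) : ℂ)) • (S.g j * S.g i) := by
    simp only [XX, Finset.sum_mul, Finset.mul_sum, smul_mul_smul_comm]
    refine Finset.sum_congr rfl fun i _ => Finset.sum_congr rfl fun j _ => ?_
    rw [mul_comm]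
  rw [h1, h2, ← Finset.sum_add_distrib]
  simp only [← Finset.sum_add_distrib, ← smul_add, S.g_anti]
  have h3 : ∀ i, ∑ j, ((x (i, A) : ℂ) * (y (j, B) : ℂ)) •
      (if i = j then (2 : Matrix (Fin 16) (Fin 16) ℂ) else 0) =
      ((x (i, A) : ℂ) * (y (i, B) : ℂ)) • (2 : Matrix (Fin 16) (Fin 16) ℂ) := by
    intro i
    simp
  rw [Finset.sum_congr rfl fun i _ => h3 i, ← Finset.sum_smul, smul_smul, mul_comm, mul_smul]
  congr 1
  rw [← one_add_one_eq_two, ← one_add_one_eq_two, add_smul, one_smul]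

lemma XX_comm (x y : Cfg d) (A B : Fin d) : (1 / 2 : ℂ) • (XX S x A * XX S y B -
    XX S y B * XX S x A) = ∑ i, ∑ j, ((x (i, A) : ℂ) * (y (j, B) : ℂ)) • S.g2 i j := by
  have h1 : XX S x A * XX S y B =
      ∑ i, ∑ j, ((x (i, A) : ℂ) * (y (j, B) : ℂ)) • (S.g i * S.g j) := by
    simp only [XX, Finset.sum_mul, Finset.mul_sum, smul_mul_smul_comm]
    exact Finset.sum_comm
  have h2 : XX S y B * XX S x A =
      ∑ i, ∑ j, ((x (i, A) : ℂ) * (y (j, B) : ℂ)) • (S.g j * S.g i) := by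
    simp only [XX, Finset.sum_mul, Finset.mul_sum, smul_mul_smul_comm]
    refine Finset.sum_congr rfl fun i _ => Finset.sum_congr rfl fun j _ => ?_
    rw [mul_comm]
  rw [h1, h2, ← Finset.sum_sub_distrib, Finset.smul_sum]
  refine Finset.sum_congr rfl fun i _ => ?_
  rw [← Finset.sum_sub_distrib, Finset.smul_sum]
  refine Finset.sum_congr rfl fun j _ => ?_
  rw [← smul_sub, smul_comm]
  rfl

lemma B_eq (β : Fin 16) (a : Cfg d) : S.B β a = ∑ A, S.vec (XX S a A) A β := by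
  unfold Setup.B XX
  rw [Finset.sum_comm]
  refine Finset.sum_congr rfl fun A _ => ?_
  rw [S.vec_sum]
  exact Finset.sum_congr rfl fun i _ => (S.vec_smul _ _ _ _).symm

lemma MM_eq (β : Fin 16) (a : Cfg d) : S.MM β a =
    ∑ A, S.vec (∑ i, ((aw i * a (i, A) : ℝ) : ℂ) • (S.g i * S.Gam)) A β := by
  unfold Setup.MM
  rw [Finset.sum_comm]
  refine Finset.sum_congr rfl fun A _ => ?_
  rw [S.vec_sum]
  exact Finset.sum_congr rfl fun i _ => (S.vec_smul _ _ _ _).symm

lemma DW_eq (ξ : Cfg d) (β : Fin 16) (a : Cfg d) : S.DW ξ β a =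
    (S.κ : ℂ) • ∑ A, ∑ B, ∑ C, (S.f A B C : ℂ) •
      S.vec ((1 / 2 : ℂ) • (XX S ξ B * XX S a C - XX S a C * XX S ξ B)) A β := by
  unfold Setup.DW
  congr 1
  refine Finset.sum_congr rfl fun A _ => Finset.sum_congr rfl fun B _ =>
    Finset.sum_congr rfl fun C _ => ?_
  rw [XX_comm, S.vec_sum, Finset.smul_sum]
  refine Finset.sum_congr rfl fun i _ => ?_
  rw [S.vec_sum, Finset.smul_sum]
  refine Finset.sum_congr rfl fun j _ => ?_
  rw [S.vec_smul, smul_smul]
  congr 1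
  ring

lemma Fx_eq (ξ : Cfg d) : S.Fx ξ = (Complex.I / 2 * (S.κ : ℂ)) • ∑ A, ∑ B, ∑ C,
    (S.f A B C : ℂ) • S.bil (XX S ξ C) A B := by
  unfold Setup.Fx
  congr 1
  rw [Finset.sum_comm]
  refine Finset.sum_congr rfl fun A _ => ?_
  rw [Finset.sum_comm]
  refine Finset.sum_congr rfl fun B _ => ?_
  rw [Finset.sum_comm]
  refine Finset.sum_congr rfl fun C _ => ?_
  unfold XX
  rw [S.bil_sum, Finset.smul_sum]
  refine Finset.sum_congr rfl fun q _ => ?_
  rw [S.bil_smul, smul_smul]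

/-- commutator of `F(ξ)` with `(Nθ^D)_β` -/
lemma Fx_vec (ξ : Cfg d) (N : Matrix (Fin 16) (Fin 16) ℂ) (D : Fin d) (β : Fin 16) :
    S.Fx ξ * S.vec N D β - S.vec N D β * S.Fx ξ =
      -((Complex.I * (S.κ : ℂ)) • ∑ B, ∑ C, (S.f D B C : ℂ) • S.vec (N * XX S ξ C) B β) := by
  have h1 : ∑ A, ∑ B, ∑ C, (S.f A B C : ℂ) • (S.bil (XX S ξ C) A B * S.vec N D β -
      S.vec N D β * S.bil (XX S ξ C) A B) =
      -((2 : ℂ) • ∑ B, ∑ C, (S.f D B C : ℂ) • S.vec (N * XX S ξ C) B β) := by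
    have h2 : ∀ A B C, (S.f A B C : ℂ) • (S.bil (XX S ξ C) A B * S.vec N D β -
        S.vec N D β * S.bil (XX S ξ C) A B) =
        (if D = B then (S.f A B C : ℂ) • S.vec (N * XX S ξ C) A β else 0) -
        (if D = A then (S.f A B C : ℂ) • S.vec (N * XX S ξ C) B β else 0) := by
      intro A B C
      have h3 := vec_comm_bil S.toCS N (XX S ξ C) D A B β
      rw [XX_transpose] at h3
      rw [← neg_sub, h3, neg_sub, smul_sub]
      congr 1
      · split_ifs <;> simp
      · split_ifs <;> simp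
    simp only [h2, Finset.sum_sub_distrib]
    have h4 : ∑ A, ∑ B, ∑ C, (if D = B then (S.f A B C : ℂ) • S.vec (N * XX S ξ C) A β else 0) =
        -∑ B, ∑ C, (S.f D B C : ℂ) • S.vec (N * XX S ξ C) B β := by
      rw [← Finset.sum_neg_distrib]
      refine Finset.sum_congr rfl fun A _ => ?_
      rw [Finset.sum_comm, ← Finset.sum_neg_distrib]
      refine Finset.sum_congr rfl fun C _ => ?_
      rw [Finset.sum_ite_eq Finset.univ D]
      simp only [Finset.mem_univ, if_true]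
      rw [S.f_swap A D C]
      push_cast
      rw [neg_smul]
    have h5 : ∑ A, ∑ B, ∑ C, (if D = A then (S.f A B C : ℂ) • S.vec (N * XX S ξ C) B β else 0) =
        ∑ B, ∑ C, (S.f D B C : ℂ) • S.vec (N * XX S ξ C) B β := by
      have h6 : ∀ A, ∑ B, ∑ C, (if D = A then (S.f A B C : ℂ) • S.vec (N * XX S ξ C) B β else 0) =
          if D = A then ∑ B, ∑ C, (S.f A B C : ℂ) • S.vec (N * XX S ξ C) B β else 0 := by
        intro A
        split_ifs
        · rfl
        · simp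
      rw [Finset.sum_congr rfl fun A _ => h6 A, Finset.sum_ite_eq Finset.univ D]
      simp
    rw [h4, h5, two_smul]
    abel
  rw [Fx_eq, smul_mul_assoc, mul_smul_comm, ← smul_sub]
  have h7 : (∑ A, ∑ B, ∑ C, (S.f A B C : ℂ) • S.bil (XX S ξ C) A B) * S.vec N D β -
      S.vec N D β * (∑ A, ∑ B, ∑ C, (S.f A B C : ℂ) • S.bil (XX S ξ C) A B) =
      ∑ A, ∑ B, ∑ C, (S.f A B C : ℂ) • (S.bil (XX S ξ C) A B * S.vec N D β -
      S.vec N D β * S.bil (XX S ξ C) A B) := by
    simp only [Finset.sum_mul, Finset.mul_sum, smul_sub, Finset.sum_sub_distrib,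
      smul_mul_assoc, mul_smul_comm]
  rw [h7, h1, smul_neg, smul_smul]
  congr 2
  ring

/-- `[F(ξ), N_β(a)] = i (DW)_β(a)` for `a` orthogonal to the gauge directions -/
lemma Fx_B (ξ a : Cfg d) (ha : S.Perp ξ a) (β : Fin 16) :
    S.Fx ξ * S.B β a - S.B β a * S.Fx ξ = Complex.I • S.DW ξ β a := by
  have h0 : S.Fx ξ * S.B β a - S.B β a * S.Fx ξ =
      -((Complex.I * (S.κ : ℂ)) • ∑ A, ∑ B, ∑ C, (S.f A B C : ℂ) •
        S.vec (XX S a C * XX S ξ B) A β) := by
    rw [B_eq, Finset.mul_sum, Finset.sum_mul, ← Finset.sum_sub_distrib]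
    rw [Finset.sum_congr rfl fun D _ => Fx_vec S ξ (XX S a D) D β, Finset.sum_neg_distrib,
      ← Finset.smul_sum]
    congr 2
    rw [Finset.sum_comm]
    refine Finset.sum_congr rfl fun B _ => ?_
    rw [Finset.sum_comm]
    refine Finset.sum_congr rfl fun C _ => Finset.sum_congr rfl fun D _ => ?_
    rw [S.f_cyc D B C]
  rw [h0, DW_eq, smul_smul, ← smul_neg]
  congr 1
  rw [← Finset.sum_neg_distrib]
  refine Finset.sum_congr rfl fun A _ => ?_
  -- for each colour `A`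
  have h1 : ∀ B C, S.vec (XX S a C * XX S ξ B) A β =
      -S.vec ((1 / 2 : ℂ) • (XX S ξ B * XX S a C - XX S a C * XX S ξ B)) A β +
        (∑ i, (ξ (i, B) : ℂ) * (a (i, C) : ℂ)) • S.vec 1 A β := by
    intro B C
    have h2 := XX_anti S ξ a B C
    have h3 : XX S a C * XX S ξ B =
        -((1 / 2 : ℂ) • (XX S ξ B * XX S a C - XX S a C * XX S ξ B)) +
          (∑ i, (ξ (i, B) : ℂ) * (a (i, C) : ℂ)) • (1 : Matrix (Fin 16) (Fin 16) ℂ) := by
      have h4 : (∑ i, (ξ (i, B) : ℂ) * (a (i, C) : ℂ)) • (1 : Matrix (Fin 16) (Fin 16) ℂ) =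
          (1 / 2 : ℂ) • (XX S ξ B * XX S a C + XX S a C * XX S ξ B) := by
        rw [h2, smul_smul]
        norm_num
      rw [h4, ← smul_neg, ← smul_add]
      have h5 : -(XX S ξ B * XX S a C - XX S a C * XX S ξ B) +
          (XX S ξ B * XX S a C + XX S a C * XX S ξ B) = (2 : ℂ) • (XX S a C * XX S ξ B) := by
        rw [two_smul]; abel
      rw [h5, smul_smul]
      norm_num
    conv_lhs => rw [h3]
    rw [S.vec_add, S.vec_neg, S.vec_smul (∑ i, (ξ (i, B) : ℂ) * (a (i, C) : ℂ))]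
  have h6 : ∑ B, ∑ C, (S.f A B C : ℂ) • ((∑ i, (ξ (i, B) : ℂ) * (a (i, C) : ℂ)) • S.vec 1 A β) =
      0 := by
    simp only [smul_smul, ← Finset.sum_smul]
    have h7 := ha A
    have h8 : ∑ B, ∑ C, (S.f A B C : ℂ) * (∑ i, (ξ (i, B) : ℂ) * (a (i, C) : ℂ)) =
        ((∑ i, ∑ B, ∑ C, S.f A B C * ξ (i, B) * a (i, C) : ℝ) : ℂ) := by
      push_cast
      rw [Finset.sum_comm (s := (Finset.univ : Finset (Fin 9)))]
      refine Finset.sum_congr rfl fun B _ => ?_
      rw [Finset.sum_comm (s := (Finset.univ : Finset (Fin 9)))]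
      refine Finset.sum_congr rfl fun C _ => ?_
      rw [Finset.mul_sum]
      exact Finset.sum_congr rfl fun i _ => by ring
    rw [h8, h7]
    simp
  simp only [h1, smul_add, smul_neg, Finset.sum_add_distrib, Finset.sum_neg_distrib] 
  rw [h6, add_zero, neg_neg]

/-- `[FG, N_β(a)]` -/
lemma FG_B (β : Fin 16) (a : Cfg d) : S.FG * S.B β a - S.B β a * S.FG =
    -((2 * Complex.I) • ∑ A, S.vec (XX S a A * S.Gam) A β) := by
  have h1 : ∀ A, S.tot S.Gam * S.vec (XX S a A) A β - S.vec (XX S a A) A β * S.tot S.Gam =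
      -((2 : ℂ) • S.vec (XX S a A * S.Gam) A β) := by
    intro A
    rw [← S.vec_comm_tot (XX S a A) S.Gam S.Gam_transpose A β]
    abel
  unfold Setup.FG
  rw [smul_mul_assoc, mul_smul_comm, ← smul_sub, B_eq, Finset.mul_sum, Finset.sum_mul,
    ← Finset.sum_sub_distrib, Finset.sum_congr rfl fun A _ => h1 A, Finset.sum_neg_distrib,
    ← Finset.smul_sum, smul_neg, smul_smul]
  congr 2
  ring

lemma gam_id (i : Fin 9) : (3 / 2 : ℂ) • (S.g i * S.Gam) =
    ((aw i : ℝ) : ℂ) • (S.g i * S.Gam) - (1 / 2 : ℂ) • (S.Gam * S.g i) := by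
  by_cases hi : i.val < 3
  · rw [← S.g_Gam_comm hi, ← sub_smul]
    congr 1
    simp only [aw, if_pos hi]
    norm_num
  · have h2 : S.Gam * S.g i = -(S.g i * S.Gam) := by
      rw [S.g_Gam_anti (not_lt.1 hi), neg_neg]
    rw [h2, smul_neg, sub_neg_eq_add, ← add_smul]
    congr 1
    simp only [aw, if_neg hi]
    norm_num

lemma Gam_B (β : Fin 16) (a : Cfg d) : (3 / 2 : ℂ) • ∑ A, S.vec (XX S a A * S.Gam) A β =
    S.MM β a - (1 / 2 : ℂ) • ∑ γ, S.Gam β γ • S.B γ a := by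
  have h1 : ∑ γ, S.Gam β γ • S.B γ a = ∑ A, S.vec (S.Gam * XX S a A) A β := by
    simp only [B_eq, Finset.smul_sum]
    rw [Finset.sum_comm]
    exact Finset.sum_congr rfl fun A _ => (S.vec_mul _ _ _ _).symm
  rw [h1, MM_eq, Finset.smul_sum, Finset.smul_sum, ← Finset.sum_sub_distrib]
  refine Finset.sum_congr rfl fun A _ => ?_
  rw [← S.vec_smul, ← S.vec_smul, ← S.vec_sub]
  congr 1
  unfold XX
  rw [Finset.sum_mul, Finset.mul_sum, Finset.smul_sum, Finset.smul_sum, ← Finset.sum_sub_distrib]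
  refine Finset.sum_congr rfl fun i _ => ?_
  rw [Matrix.smul_mul, Matrix.mul_smul, smul_comm, gam_id, smul_sub, smul_smul]
  congr 1
  · congr 1
    push_cast
    ring
  · rw [smul_comm]

end LinN

open LinN in
/-- **G09** -/
theorem linN {d : ℕ} {F : Type*} [NormedAddCommGroup F] [InnerProductSpace ℂ F] (S : Setup d F) :
    LinNStmt S := by
  intro ξ _ a ha β v
  have h1 := Fx_B S ξ a ha β
  have h2 := FG_B S β a
  have h3 := Gam_B S β a
  have h4 : Hf S ξ * S.B β a - S.B β a * Hf S ξ =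
      Complex.I • Lb S ξ β a - (Complex.I / 2) • ∑ γ, S.Gam β γ • S.B γ a := by
    have e1 : Hf S ξ * S.B β a - S.B β a * Hf S ξ =
        (S.Fx ξ * S.B β a - S.B β a * S.Fx ξ) -
          (3 / 4 : ℂ) • (S.FG * S.B β a - S.B β a * S.FG) := by
      unfold Hf
      rw [sub_mul, mul_sub, smul_mul_assoc, mul_smul_comm, smul_sub]
      abel
    rw [e1, h1, h2, smul_neg, sub_neg_eq_add, smul_smul]
    have e2 : (3 / 4 * (2 * Complex.I) : ℂ) = Complex.I * (3 / 2) := by ring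
    rw [e2, mul_smul, h3]
    unfold Lb
    rw [smul_sub, smul_smul, smul_add]
    have e3 : (Complex.I * (1 / 2) : ℂ) = Complex.I / 2 := by ring
    rw [e3]
    abel
  have h5 := congrArg (fun T : F →L[ℂ] F => T v) h4
  simpa using h5

end Vale.Agent.P353.AN.G
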