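import Vale.Agent.P353.AN.G.Stmt
import Vale.Agent.P353.Z.U.Qua
import Vale.Agent.P353.Z.U.Vac
import Vale.Agent.P353.Z.U.Inv
import Mathlib.Analysis.InnerProductSpace.Rayleigh

/-! # P353, all `N`, block G, G11: the lowest eigenvalue of `H_f` is simple -/

open MeasureTheory Filter Topology
open scoped ContDiff

namespace Vale.Agent.P353.AN.G

open Vale.Agent.P353.Z Vale.Agent.P353.Z.U

variable {d : ℕ} {F : Type*} [NormedAddCommGroup F] [InnerProductSpace ℂ F]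

/-- `i ∑ R_{pq} θ_p θ_q` is symmetric for real antisymmetric `R` -/
theorem lowEx_symm (S : Setup d F) (R : Matrix (Fin 16 × Fin d) (Fin 16 × Fin d) ℝ)
    (hR : R.transpose = -R) (v w : F) :
    inner ℂ (Complex.I • ∑ p, ∑ q, (R p q : ℂ) • S.th p.1 p.2 (S.th q.1 q.2 v)) w =
      inner ℂ v (Complex.I • ∑ p, ∑ q, (R p q : ℂ) • S.th p.1 p.2 (S.th q.1 q.2 w)) := by
  have hRs : ∀ p q, R q p = -R p q := fun p q => by
    have := congrFun (congrFun hR p) q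
    simpa using this
  rw [inner_smul_left, inner_smul_right, sum_inner, inner_sum]
  simp only [sum_inner, inner_sum, inner_smul_left, inner_smul_right, S.th_sa, Complex.conj_I,
    Complex.conj_ofReal]
  rw [Finset.sum_comm, Finset.mul_sum, Finset.mul_sum]
  refine Finset.sum_congr rfl fun p _ => ?_
  rw [Finset.mul_sum, Finset.mul_sum]
  refine Finset.sum_congr rfl fun q _ => ?_
  rw [hRs p q]
  push_cast
  ring

/-- `H_f` is symmetric at a zero of `V_1` -/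
theorem lowEx_Hf_symm (S : Setup d F) (ξ : Cfg d) (hξ : S.Vm 1 ξ = 0) (v w : F) :
    inner ℂ (Hf S ξ v) w = inner ℂ v (Hf S ξ w) := by
  obtain ⟨R, hR, -, hH⟩ := inv S ξ hξ
  have h : ∀ v : F, Hf S ξ v =
      Complex.I • ∑ p, ∑ q, (R p q : ℂ) • S.th p.1 p.2 (S.th q.1 q.2 v) := fun v => hH v
  rw [h, h]
  exact lowEx_symm S R hR v w

/-- **G11** the lowest eigenvalue of `H_f` is simple -/
theorem lowEx [FiniteDimensional ℂ F] (S : Setup d F) : LowExStmt S := by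
  intro hirr hF ξ hξ
  obtain ⟨R, hR, hRi, hH⟩ := inv S ξ hξ
  have h : ∀ v : F, Hf S ξ v =
      Complex.I • ∑ p, ∑ q, (R p q : ℂ) • S.th p.1 p.2 (S.th q.1 q.2 v) := fun v => hH v
  have hsym : ((Hf S ξ : F →L[ℂ] F) : F →ₗ[ℂ] F).IsSymmetric := fun v w =>
    lowEx_Hf_symm S ξ hξ v w
  have : Nontrivial F := by
    obtain ⟨v, hv⟩ := hF
    exact nontrivial_of_ne v 0 hv
  obtain ⟨E, hE⟩ : ∃ E : ℝ, E = (⨅ x : { x : F // x ≠ 0 },
      RCLike.re (inner ℂ ((((Hf S ξ : F →L[ℂ] F) : F →ₗ[ℂ] F)) (x : F)) (x : F)) /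
        ‖(x : F)‖ ^ 2 : ℝ) := ⟨_, rfl⟩
  have hev := hsym.hasEigenvalue_iInf_of_finiteDimensional
  obtain ⟨v₀, hv₀⟩ := hev.exists_hasEigenvector
  have hv₀n : v₀ ≠ 0 := hv₀.2
  have hv₀e : Hf S ξ v₀ = (E : ℂ) • v₀ := by
    have := hv₀.apply_eq_smul
    rw [hE]
    exact this
  -- lower bound
  have hbdd : BddBelow (Set.range fun x : { x : F // x ≠ 0 } =>
      RCLike.re (inner ℂ ((((Hf S ξ : F →L[ℂ] F) : F →ₗ[ℂ] F)) (x : F)) (x : F)) /
        ‖(x : F)‖ ^ 2) := by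
    refine ⟨-‖(Hf S ξ : F →L[ℂ] F)‖, ?_⟩
    rintro _ ⟨x, rfl⟩
    have hx : 0 < ‖(x : F)‖ := norm_pos_iff.2 x.2
    have h1 : |RCLike.re (inner ℂ ((((Hf S ξ : F →L[ℂ] F) : F →ₗ[ℂ] F)) (x : F)) (x : F))| ≤
        ‖(Hf S ξ : F →L[ℂ] F)‖ * ‖(x : F)‖ ^ 2 := by
      refine (RCLike.abs_re_le_norm _).trans ((norm_inner_le_norm _ _).trans ?_)
      have h2 := (Hf S ξ).le_opNorm (x : F)
      calc ‖Hf S ξ (x : F)‖ * ‖(x : F)‖ ≤ (‖Hf S ξ‖ * ‖(x : F)‖) * ‖(x : F)‖ :=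
            mul_le_mul_of_nonneg_right h2 hx.le
        _ = _ := by ring
    show -‖(Hf S ξ : F →L[ℂ] F)‖ ≤ _
    rw [le_div_iff₀ (by positivity)]
    have := (abs_le.1 h1).1
    linarith
  have hlow : ∀ v : F, E * ‖v‖ ^ 2 ≤ (inner ℂ v (Hf S ξ v)).re := by
    intro v
    by_cases hv : v = 0
    · subst hv
      simp
    · have h1 := ciInf_le hbdd (⟨v, hv⟩ : { x : F // x ≠ 0 })
      rw [← hE] at h1
      have h2 : 0 < ‖v‖ ^ 2 := by
        have := norm_pos_iff.2 hv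
        positivity
      have h3 := (le_div_iff₀ h2).1 h1
      refine h3.trans (le_of_eq ?_)
      have h4 : inner ℂ (Hf S ξ v) v = inner ℂ v (Hf S ξ v) := lowEx_Hf_symm S ξ hξ v v
      show RCLike.re (inner ℂ (Hf S ξ v) v) = _
      rw [h4]
      rfl
  have hre : ∀ v : F, (inner ℂ v (((-E : ℝ) : ℂ) • v + Complex.I • ∑ p : Fin 16 × Fin d,
      ∑ q : Fin 16 × Fin d, (R p q : ℂ) • S.th p.1 p.2 (S.th q.1 q.2 v))).re =
      (inner ℂ v (Hf S ξ v)).re - E * ‖v‖ ^ 2 := by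
    intro v
    have h0 : inner ℂ v v = ((‖v‖ ^ 2 : ℝ) : ℂ) := by
      rw [inner_self_eq_norm_sq_to_K]
      simp
    rw [← h v, inner_add_right, inner_smul_right, h0, ← Complex.ofReal_mul, Complex.add_re,
      Complex.ofReal_re]
    ring
  obtain ⟨Ω, hΩ, huniq⟩ := qua S (vac S) hirr hF R (-E) hR hRi (fun v => by
    rw [hre v]
    linarith [hlow v])
  have hkey : ∀ v : F, Hf S ξ v = (E : ℂ) • v → ∃ c : ℂ, v = c • Ω := by
    intro v hv
    refine huniq v ?_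
    rw [hre v, hv, inner_smul_right]
    have h0 : inner ℂ v v = ((‖v‖ ^ 2 : ℝ) : ℂ) := by
      rw [inner_self_eq_norm_sq_to_K]
      simp
    rw [h0, ← Complex.ofReal_mul, Complex.ofReal_re]
    ring
  refine ⟨E, Ω, hΩ, ?_, hlow, hkey⟩
  obtain ⟨c, hc⟩ := hkey v₀ hv₀e
  have hc0 : c ≠ 0 := by
    rintro rfl
    exact hv₀n (by rw [hc, zero_smul])
  have h1 : Ω = c⁻¹ • v₀ := by
    rw [hc, smul_smul, inv_mul_cancel₀ hc0, one_smul]
  rw [h1, map_smul, hv₀e, smul_comm]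

end Vale.Agent.P353.AN.G
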