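import Vale.Agent.P353.AN.G.Stmt
import Vale.Agent.P353.Z.U.All

/-! # P353, all `N`, block G, G37: `c_N ≥ p(N)` -/

open MeasureTheory Filter Topology
open scoped ContDiff

namespace Vale.Agent.P353.AN.G

open Vale.Agent.P353.Z Vale.Agent.P353.Z.U

universe w

section

variable {d : ℕ} {F : Type w} [NormedAddCommGroup F] [InnerProductSpace ℂ F]

theorem G37_loc (S : Setup d F) (m : ℝ) (β : Fin 16) {u : Cfg d → F} {x : Cfg d}
    (hx : x ∉ tsupport u) : S.Qm m β u x = 0 := by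
  have h0 : u x = 0 := image_eq_zero_of_notMem_tsupport hx
  have h1 : ∀ i A, pd i A u x = 0 := by
    intro i A
    have : fderiv ℝ u x = 0 := by
      have h := (tsupport_fderiv_subset ℝ (f := u))
      by_contra hne
      exact hx (h (subset_tsupport _ hne))
    simp [pd, this]
  simp [Setup.Qm, Setup.Q, h0, h1]

theorem G37_nsq {k : ℕ} (a : Fin k → ℂ) {v : Fin k → Cfg d → F} (hv : ∀ j, Setup.Tst (v j))
    (hd : ∀ x i j, v i x ≠ 0 → v j x ≠ 0 → i = j) :
    nsq (fun x => ∑ j, a j • v j x) = ∑ j, ‖a j‖ ^ 2 * nsq (v j) := by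
  have h1 : ∀ x, ‖∑ j, a j • v j x‖ ^ 2 = ∑ j, ‖a j‖ ^ 2 * ‖v j x‖ ^ 2 := by
    intro x
    by_cases h : ∃ i, v i x ≠ 0
    · obtain ⟨i, hi⟩ := h
      have h2 : ∀ j, j ≠ i → v j x = 0 := fun j hj => by
        by_contra hne
        exact hj (hd x j i hne hi)
      rw [Finset.sum_eq_single i (fun j _ hj => by rw [h2 j hj, smul_zero])
        (fun h => absurd (Finset.mem_univ i) h),
        Finset.sum_eq_single i (fun j _ hj => by rw [h2 j hj]; simp)
        (fun h => absurd (Finset.mem_univ i) h), norm_smul, mul_pow]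
    · push Not at h
      simp [h]
  have h2 : ∀ j, Integrable (fun x => ‖a j‖ ^ 2 * ‖v j x‖ ^ 2)
      (volume : Measure (Cfg d)) := by
    intro j
    exact (hv j).norm_sq_int.const_mul _
  unfold nsq
  simp only [h1]
  rw [integral_finsetSum _ fun j _ => h2 j]
  refine Finset.sum_congr rfl fun j _ => ?_
  rw [integral_const_mul]

end

section M

variable {N d : ℕ} {F : Type w} [NormedAddCommGroup F] [InnerProductSpace ℂ F]

theorem G37_iso {M : BFSS.Model N d F} (h22 : ActStmt M) (U : BFSS.SU N) (x y : Cfg d) :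
    ‖M.act U x - M.act U y‖ = ‖x - y‖ := by
  obtain ⟨-, -, hadd, hsmul, hnorm, -⟩ := h22
  have h1 : x - y = x + (-1 : ℝ) • y := by rw [neg_one_smul, sub_eq_add_neg]
  rw [← hnorm U (x - y), h1, hadd, hsmul, neg_one_smul, sub_eq_add_neg]

theorem G37_dist {M : BFSS.Model N d F} (h22 : ActStmt M) {p q : Cfg d}
    (h : ∀ U, M.act U p ≠ q) : ∃ η : ℝ, 0 < η ∧ ∀ U V, η ≤ ‖M.act U p - M.act V q‖ := by
  have hc : Continuous fun U : BFSS.SU N => ‖M.act U p - q‖ := by
    have h1 := h22.2.2.2.2.2.1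
    have h3 : Continuous fun U : BFSS.SU N => ((U, p) : BFSS.SU N × Cfg d) :=
      continuous_id.prodMk continuous_const
    have h2 : Continuous ((fun p : BFSS.SU N × Cfg d => M.act p.1 p.2) ∘
      fun U : BFSS.SU N => ((U, p) : BFSS.SU N × Cfg d)) := Continuous.comp h1 h3
    exact (Continuous.sub h2 continuous_const).norm
  obtain ⟨U0, -, hU0⟩ := isCompact_univ.exists_isMinOn (Set.univ_nonempty (α := BFSS.SU N))
    hc.continuousOn
  refine ⟨‖M.act U0 p - q‖, norm_pos_iff.2 (sub_ne_zero.2 (h U0)), fun U V => ?_⟩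
  have h3 : M.act U p = M.act V (M.act (V⁻¹ * U) p) := by
    rw [← h22.1, mul_inv_cancel_left]
  rw [h3, G37_iso h22]
  exact isMinOn_iff.1 hU0 (V⁻¹ * U) (Set.mem_univ _)

/-- **G37 Main** -/
theorem main_stmt [FiniteDimensional ℂ F] (M : BFSS.Model N d F) (h22 : ActStmt M)
    (h35 : ZerStmt M) (h36 : OneStmt M) : GStmt M := by
  classical
  intro hd S hS m' hm' c hc
  obtain ⟨ξ, hz, hξ⟩ := h35 S hS
  choose C m0 hm0 hu using fun π => h36 hd S hS (ξ π) (hz π) 1 one_pos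
  have hη' : ∀ π π' : Nat.Partition N, ∃ η : ℝ, 0 < η ∧
      (π ≠ π' → ∀ U V, η ≤ ‖M.act U (ξ π) - M.act V (ξ π')‖) := by
    intro π π'
    by_cases h : π = π'
    · exact ⟨1, one_pos, fun h' => absurd h h'⟩
    · obtain ⟨η, h1, h2⟩ := G37_dist h22 (p := ξ π) (q := ξ π') fun U hU => h (hξ π π' U hU)
      exact ⟨η, h1, fun _ => h2⟩
  choose η hη0 hη using hη'
  obtain ⟨R, hR⟩ : ∃ R : ℝ, R = 1 + ∑ π, |C π| := ⟨_, rfl⟩
  have hCR : ∀ π, 1 + |C π| ≤ R := fun π => by
    have := Finset.single_le_sum (f := fun π => |C π|) (fun π _ => abs_nonneg (C π))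
      (Finset.mem_univ π)
    linarith
  have hR0 : 0 ≤ R := by
    rw [hR]
    have : 0 ≤ ∑ π, |C π| := Finset.sum_nonneg fun π _ => abs_nonneg (C π)
    linarith
  obtain ⟨m, hm⟩ : ∃ m : ℝ, m = 1 + ∑ π, m0 π + ∑ p : Nat.Partition N × Nat.Partition N,
      (2 * R + 1) / η p.1 p.2 := ⟨_, rfl⟩
  have hs1 : 0 ≤ ∑ π, m0 π := Finset.sum_nonneg fun π _ => (hm0 π).le
  have hs2 : 0 ≤ ∑ p : Nat.Partition N × Nat.Partition N, (2 * R + 1) / η p.1 p.2 :=
    Finset.sum_nonneg fun p _ => div_nonneg (by linarith) (hη0 _ _).le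
  have hm1 : 1 ≤ m := by rw [hm]; linarith
  have hmpos : 0 < m := by linarith
  have hmm : ∀ π, m0 π ≤ m := fun π => by
    have := Finset.single_le_sum (f := m0) (fun π _ => (hm0 π).le) (Finset.mem_univ π)
    rw [hm]
    linarith
  have hmη : ∀ π π', 2 * R + 1 ≤ m * η π π' := fun π π' => by
    have h1 := Finset.single_le_sum (f := fun p : Nat.Partition N × Nat.Partition N =>
      (2 * R + 1) / η p.1 p.2) (fun p _ => div_nonneg (by linarith) (hη0 _ _).le)
      (Finset.mem_univ (π, π'))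
    simp only at h1
    rw [← div_le_iff₀ (hη0 π π'), hm]
    linarith
  choose u hInv hpos hQ hsupp using fun π => hu π m (hmm π)
  have hsq : 1 ≤ Real.sqrt m := Real.one_le_sqrt.2 hm1
  have hn1 : ∀ π x, u π x ≠ 0 → ∃ U, ‖x - m • M.act U (ξ π)‖ ≤ |C π| := by
    intro π x hx
    obtain ⟨U, hU⟩ := hsupp π x hx
    refine ⟨U, hU.trans ?_⟩
    calc C π / Real.sqrt m ≤ |C π| / Real.sqrt m :=
          div_le_div_of_nonneg_right (le_abs_self _) (by linarith)
      _ ≤ |C π| := div_le_self (abs_nonneg _) hsq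
  have hn2 : ∀ π x, x ∈ tsupport (u π) → ∃ U, ‖x - m • M.act U (ξ π)‖ ≤ R := by
    intro π x hx
    obtain ⟨y, hy, hxy⟩ := Metric.mem_closure_iff.1 hx 1 one_pos
    obtain ⟨U, hU⟩ := hn1 π y hy
    refine ⟨U, ?_⟩
    have h1 : x - m • M.act U (ξ π) = (x - y) + (y - m • M.act U (ξ π)) := by abel
    rw [h1]
    refine (norm_add_le _ _).trans ?_
    rw [dist_eq_norm] at hxy
    have := hCR π
    linarith
  have hdis : ∀ π π' x, x ∈ tsupport (u π) → x ∈ tsupport (u π') → π = π' := by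
    intro π π' x h1 h2
    by_contra hne
    obtain ⟨U, hU⟩ := hn2 π x h1
    obtain ⟨V, hV⟩ := hn2 π' x h2
    have h3 := hη π π' hne U V
    have h4 : m * ‖M.act U (ξ π) - M.act V (ξ π')‖ ≤ 2 * R := by
      have h5 : m • M.act U (ξ π) - m • M.act V (ξ π') =
          (x - m • M.act V (ξ π')) - (x - m • M.act U (ξ π)) := by abel
      have h6 := norm_sub_le (x - m • M.act V (ξ π')) (x - m • M.act U (ξ π))
      rw [← h5, ← smul_sub, norm_smul, Real.norm_of_nonneg hmpos.le] at h6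
      linarith
    have h7 := mul_le_mul_of_nonneg_left h3 hmpos.le
    have h8 := hmη π π'
    linarith
  refine Z.U.All.thmB_all S _ m hmpos ?_ m' hm' c hc
  obtain ⟨e⟩ : Nonempty (Fin (Fintype.card (Nat.Partition N)) ≃ Nat.Partition N) :=
    ⟨(Fintype.equivFin _).symm⟩
  refine ⟨fun j => u (e j), fun j => hInv (e j), fun a ha => ?_⟩
  have hT : ∀ j, Setup.Tst (u (e j)) := fun j => (hInv (e j)).1
  have e1 : nsq (fun x => ∑ j, a j • u (e j) x) = ∑ j, ‖a j‖ ^ 2 * nsq (u (e j)) :=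
    G37_nsq a hT fun x i j hi hj =>
      e.injective (hdis _ _ x (subset_tsupport _ hi) (subset_tsupport _ hj))
  have e2 : ∀ β, nsq (S.Qm m β (fun x => ∑ j, a j • u (e j) x)) =
      ∑ j, ‖a j‖ ^ 2 * nsq (S.Qm m β (u (e j))) := by
    intro β
    have h1 : S.Qm m β (fun x => ∑ j, a j • u (e j) x) =
        fun x => ∑ j, a j • S.Qm m β (u (e j)) x :=
      funext fun x => HB.Qm_sum S m β Finset.univ a (fun j => (hT j).1) x
    rw [h1]
    refine G37_nsq a (fun j => HB.Tst_Qm S m β (hT j)) fun x i j hi hj => ?_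
    have hi' : x ∈ tsupport (u (e i)) := by
      by_contra h
      exact hi (G37_loc S m β h)
    have hj' : x ∈ tsupport (u (e j)) := by
      by_contra h
      exact hj (G37_loc S m β h)
    exact e.injective (hdis _ _ x hi' hj')
  have e3 : 0 < nsq (fun x => ∑ j, a j • u (e j) x) := by
    rw [e1]
    obtain ⟨j, hj⟩ : ∃ j, a j ≠ 0 := by
      by_contra h
      push Not at h
      exact ha (funext h)
    refine Finset.sum_pos' (fun i _ => mul_nonneg (by positivity) (hpos _).le) ⟨j,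
      Finset.mem_univ _, ?_⟩
    exact mul_pos (by have := norm_pos_iff.2 hj; positivity) (hpos _)
  have e4 : ∑ β, nsq (S.Qm m β (fun x => ∑ j, a j • u (e j) x)) ≤
      m * nsq (fun x => ∑ j, a j • u (e j) x) := by
    simp only [e2]
    rw [Finset.sum_comm, e1, Finset.mul_sum]
    refine Finset.sum_le_sum fun j _ => ?_
    rw [← Finset.mul_sum]
    have h1 := hQ (e j)
    have h2 : (0 : ℝ) ≤ ‖a j‖ ^ 2 := by positivity
    calc ‖a j‖ ^ 2 * ∑ β, nsq (S.Qm m β (u (e j))) ≤ ‖a j‖ ^ 2 * (1 * m * nsq (u (e j))) :=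
          mul_le_mul_of_nonneg_left h1 h2
      _ = m * (‖a j‖ ^ 2 * nsq (u (e j))) := by ring
  refine e4.trans_lt ?_
  have : m < 8 * m := by linarith
  exact mul_lt_mul_of_pos_right this e3

end M

end Vale.Agent.P353.AN.G
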