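import Vale.Agent.P353.AN.G.Stmt
import Vale.Agent.P353.Z.U.Hes
import Vale.Agent.P353.Z.U.Near

/-! # P353, all `N`, block G30: near constancy of the Gaussian along the group -/

open MeasureTheory Filter Topology
open scoped ContDiff

namespace Vale.Agent.P353.AN.G

open Vale.Agent.P353.Z Vale.Agent.P353.Z.U
open Vale.Agent.P353.Z.Setup (c3)

namespace NearConAux

universe w

variable {N d : ℕ} {F : Type w} [NormedAddCommGroup F] [InnerProductSpace ℂ F]

/-- `V_1(ξ + t w) / t²` as a continuous function of `t` -/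
noncomputable def ncg (S : Setup d F) (ξ w : Cfg d) (t : ℝ) : ℝ :=
  (1 / 2) * (∑ k, ∑ A, (S.LG ξ k A w + t * S.FF A (c3 (k + 1)) (c3 (k + 2)) w) ^ 2) +
    (1 / 2) * (∑ i : Fin 9, ∑ A, if i.val < 3 then 0 else w (i, A) ^ 2) +
    (1 / 4) * (∑ i : Fin 9, ∑ j : Fin 9, ∑ A,
      if i.val < 3 ∧ j.val < 3 then 0 else (S.LF ξ A i j w + t * S.FF A i j w) ^ 2)

lemma ncg_cont (S : Setup d F) (ξ w : Cfg d) : Continuous (ncg S ξ w) := by
  unfold ncg
  refine ((continuous_const.mul (continuous_finsetSum _ fun k _ => continuous_finsetSum _ fun A _ =>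
    ?_)).add continuous_const).add (continuous_const.mul (continuous_finsetSum _ fun i _ =>
      continuous_finsetSum _ fun j _ => continuous_finsetSum _ fun A _ => ?_))
  · exact (continuous_const.add (continuous_id.mul continuous_const)).pow 2
  · split_ifs
    · exact continuous_const
    · exact (continuous_const.add (continuous_id.mul continuous_const)).pow 2

lemma ncg_zero (S : Setup d F) (ξ w : Cfg d) : ncg S ξ w 0 = S.hq ξ w := by
  unfold ncg Setup.hq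
  simp only [zero_mul, add_zero]

lemma FF_smul (S : Setup d F) (A : Fin d) (i j : Fin 9) (t : ℝ) (w : Cfg d) :
    S.FF A i j (t • w) = t ^ 2 * S.FF A i j w := by
  unfold Setup.FF
  have h : ∑ B, ∑ C, S.f A B C * (t • w) (i, B) * (t • w) (j, C) =
      t ^ 2 * ∑ B, ∑ C, S.f A B C * w (i, B) * w (j, C) := by
    simp only [Finset.mul_sum, PiLp.smul_apply, smul_eq_mul]
    refine Finset.sum_congr rfl fun B _ => Finset.sum_congr rfl fun C _ => ?_
    ring
  rw [h]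
  ring

lemma ncg_eq (S : Setup d F) {ξ : Cfg d} (h : S.Vm 1 ξ = 0) (w : Cfg d) (t : ℝ) :
    S.Vm 1 (ξ + t • w) = t ^ 2 * ncg S ξ w t := by
  obtain ⟨h1, h2, h3⟩ := hes_zero S h
  have e1 : ∀ k A, S.GG 1 k A (ξ + t • w) =
      t * (S.LG ξ k A w + t * S.FF A (c3 (k + 1)) (c3 (k + 2)) w) := by
    intro k A
    have h4 := h1 k A
    unfold Setup.GG at h4 ⊢
    unfold Setup.LG
    rw [hes_FF_add, FF_smul, NearAux.LF_smul, PiLp.add_apply, PiLp.smul_apply, smul_eq_mul]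
    linear_combination h4
  have e2 : ∀ (i : Fin 9) A, (if i.val < 3 then 0 else (ξ + t • w) (i, A) ^ 2 : ℝ) =
      t ^ 2 * (if i.val < 3 then 0 else w (i, A) ^ 2 : ℝ) := by
    intro i A
    by_cases hi : i.val < 3
    · rw [if_pos hi, if_pos hi, mul_zero]
    · rw [if_neg hi, if_neg hi, PiLp.add_apply, PiLp.smul_apply, smul_eq_mul, h2 i A hi]
      ring
  have e3 : ∀ (i j : Fin 9) A,
      (if i.val < 3 ∧ j.val < 3 then 0 else S.FF A i j (ξ + t • w) ^ 2 : ℝ) =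
      t ^ 2 * (if i.val < 3 ∧ j.val < 3 then 0 else
        (S.LF ξ A i j w + t * S.FF A i j w) ^ 2 : ℝ) := by
    intro i j A
    by_cases hij : i.val < 3 ∧ j.val < 3
    · rw [if_pos hij, if_pos hij, mul_zero]
    · rw [if_neg hij, if_neg hij, hes_FF_add, FF_smul, NearAux.LF_smul, h3 i j A hij]
      ring
  rw [sq_stmt S 1 (ξ + t • w)]
  unfold ncg
  simp only [e1, e2, e3, mul_pow]
  simp only [← Finset.mul_sum]
  ring

/-- the quadratic form is invariant under the stabiliser -/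
lemma hq_stab (M : BFSS.Model N d F) (h22 : ActStmt M) {S : Setup d F} (hS : Rep M S)
    {ξ : Cfg d} (h : S.Vm 1 ξ = 0) {U : BFSS.SU N} (hU : M.act U ξ = ξ) (x : Cfg d) :
    S.hq ξ (M.act U x) = S.hq ξ x := by
  obtain ⟨-, -, hadd, hsm, -, -, hV⟩ := h22
  have key : ∀ t : ℝ, t ≠ 0 → ncg S ξ (M.act U x) t = ncg S ξ x t := by
    intro t ht
    have h1 : S.Vm 1 (ξ + t • M.act U x) = S.Vm 1 (ξ + t • x) := by
      have h2 : ξ + t • M.act U x = M.act U (ξ + t • x) := by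
        rw [hadd, hsm, hU]
      rw [h2, hV S hS]
    rw [ncg_eq S h, ncg_eq S h] at h1
    exact mul_left_cancel₀ (pow_ne_zero 2 ht) h1
  have hcl : IsClosed {t : ℝ | ncg S ξ (M.act U x) t = ncg S ξ x t} :=
    isClosed_eq (ncg_cont S ξ _) (ncg_cont S ξ _)
  have hde : Dense {t : ℝ | t ≠ 0} := by
    have := dense_compl_singleton (0 : ℝ)
    exact this
  have h0 : (0 : ℝ) ∈ {t : ℝ | ncg S ξ (M.act U x) t = ncg S ξ x t} := by
    have h3 : closure {t : ℝ | t ≠ 0} ⊆ {t : ℝ | ncg S ξ (M.act U x) t = ncg S ξ x t} :=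
      closure_minimal (fun t ht => key t ht) hcl
    exact h3 (hde 0)
  have h4 : ncg S ξ (M.act U x) 0 = ncg S ξ x 0 := h0
  rwa [ncg_zero, ncg_zero] at h4

/-- the action as a linear map -/
noncomputable def actL (M : BFSS.Model N d F) (h22 : ActStmt M) (U : BFSS.SU N) :
    Cfg d →L[ℝ] Cfg d :=
  LinearMap.mkContinuous
    { toFun := fun x => M.act U x
      map_add' := fun x y => h22.2.2.1 U x y
      map_smul' := fun c x => h22.2.2.2.1 U c x } 1
    (fun x => by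
      rw [one_mul]
      exact (h22.2.2.2.2.1 U x).le)

lemma actL_apply (M : BFSS.Model N d F) (h22 : ActStmt M) (U : BFSS.SU N) (x : Cfg d) :
    actL M h22 U x = M.act U x := rfl

lemma act_inner (M : BFSS.Model N d F) (h22 : ActStmt M) (U : BFSS.SU N) (x y : Cfg d) :
    inner ℝ (M.act U x) (M.act U y) = inner ℝ x y := by
  have h : ∀ z, ‖actL M h22 U z‖ = ‖z‖ := fun z => h22.2.2.2.2.1 U z
  have := (LinearMap.norm_map_iff_inner_map_map (𝕜 := ℝ) (actL M h22 U)).1 h x y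
  exact this

/-- a form bound by polarisation -/
lemma sq_pol {K : Cfg d →L[ℝ] Cfg d} (K' : Cfg d →L[ℝ] Cfg d)
    (hK : ∀ x y, inner ℝ (K x) y = inner ℝ x (K y))
    (hK' : ∀ x y, inner ℝ (K' x) y = inner ℝ x (K' y))
    (h : ∀ x, ‖K' x‖ ^ 2 = ‖K x‖ ^ 2) (x : Cfg d) : K' (K' x) = K (K x) := by
  have h1 : ∀ x y, inner ℝ (K' x) (K' y) = inner ℝ (K x) (K y) := by
    intro x y
    have h2 := h (x + y)
    rw [map_add, map_add, norm_add_sq_real, norm_add_sq_real, h x, h y] at h2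
    linarith
  refine ext_inner_right ℝ fun y => ?_
  rw [hK', hK, h1]

/-- the stabiliser commutes with `K` -/
lemma K_comm (M : BFSS.Model N d F) (h2 : SqCommStmt) (h22 : ActStmt M) {S : Setup d F}
    (hS : Rep M S) {ξ : Cfg d} (h : S.Vm 1 ξ = 0) {K : Cfg d →L[ℝ] Cfg d} (hK : S.IsK ξ K)
    {U : BFSS.SU N} (hU : M.act U ξ = ξ) (x : Cfg d) :
    K (M.act U x) = M.act U (K x) := by
  have hinv1 : ∀ y, M.act U⁻¹ (M.act U y) = y := by
    intro y
    rw [← h22.1, inv_mul_cancel, h22.2.1]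
  have hinv2 : ∀ y, M.act U (M.act U⁻¹ y) = y := by
    intro y
    rw [← h22.1, mul_inv_cancel, h22.2.1]
  set K' : Cfg d →L[ℝ] Cfg d := (actL M h22 U⁻¹).comp (K.comp (actL M h22 U)) with hK'
  have hK'a : ∀ y, K' y = M.act U⁻¹ (K (M.act U y)) := fun y => rfl
  have hsym : ∀ x y, inner ℝ (K' x) y = inner ℝ x (K' y) := by
    intro x y
    rw [hK'a, hK'a, ← act_inner M h22 U (M.act U⁻¹ (K (M.act U x))) y, hinv2, hK.symm,
      ← act_inner M h22 U x (M.act U⁻¹ (K (M.act U y))), hinv2]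
  have hn : ∀ x, ‖K' x‖ ^ 2 = ‖K x‖ ^ 2 := by
    intro x
    rw [hK'a, h22.2.2.2.2.1, hK.sq, hK.sq, hq_stab M h22 hS h hU]
  have hsq := sq_pol K' hK.symm hsym hn
  have hc : ∀ y, actL M h22 U (K (K y)) = K (K (actL M h22 U y)) := by
    intro y
    rw [← hsq y, hK'a, hK'a, hinv2, actL_apply, hinv2, actL_apply]
  have := h2 (Cfg d) K (actL M h22 U) hK.symm hK.pos hc x
  exact this.symm

/-- uniform near invariance of the form `⟨w, K w⟩` -/
lemma near_unif (M : BFSS.Model N d F) (h2 : SqCommStmt) (h22 : ActStmt M) {S : Setup d F}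
    (hS : Rep M S) {ξ : Cfg d} (h : S.Vm 1 ξ = 0) {K : Cfg d →L[ℝ] Cfg d} (hK : S.IsK ξ K)
    {ε : ℝ} (hε : 0 < ε) : ∃ δ : ℝ, 0 < δ ∧ ∀ (U : BFSS.SU N) (w : Cfg d),
      ‖M.act U ξ - ξ‖ ≤ δ →
      |inner ℝ (M.act U w) (K (M.act U w)) - inner ℝ w (K w)| ≤ ε * ‖w‖ ^ 2 := by
  have hact : Continuous fun p : BFSS.SU N × Cfg d => M.act p.1 p.2 := h22.2.2.2.2.2.1
  set G : BFSS.SU N × Cfg d → ℝ := fun p =>
    |inner ℝ (M.act p.1 p.2) (K (M.act p.1 p.2)) - inner ℝ p.2 (K p.2)| with hG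
  have hGc : Continuous G := by
    refine Continuous.abs (Continuous.sub ?_ ?_)
    · exact hact.inner (K.continuous.comp hact)
    · exact continuous_snd.inner (K.continuous.comp continuous_snd)
  set C : Set (BFSS.SU N × Cfg d) := (Set.univ ×ˢ Metric.sphere (0 : Cfg d) 1) ∩ {p | ε ≤ G p}
    with hC
  have hCc : IsCompact C := by
    refine (isCompact_univ.prod (isCompact_sphere (0 : Cfg d) 1)).inter_right ?_
    exact isClosed_le continuous_const hGc
  set R : BFSS.SU N × Cfg d → ℝ := fun p => ‖M.act p.1 ξ - ξ‖ with hR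
  have hRc : Continuous R := by
    refine Continuous.norm (Continuous.sub ?_ continuous_const)
    exact hact.comp (continuous_fst.prodMk continuous_const)
  have hpos : ∀ p ∈ C, 0 < R p := by
    rintro ⟨U, w⟩ ⟨-, hp⟩
    by_contra hcon
    have h0 : ‖M.act U ξ - ξ‖ = 0 := le_antisymm (not_lt.1 hcon) (norm_nonneg _)
    have h1 : M.act U ξ = ξ := sub_eq_zero.1 (norm_eq_zero.1 h0)
    have h3 : G (U, w) = 0 := by
      show |inner ℝ (M.act U w) (K (M.act U w)) - inner ℝ w (K w)| = 0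
      rw [K_comm M h2 h22 hS h hK h1, act_inner M h22, sub_self, abs_zero]
    have h4 : ε ≤ G (U, w) := hp
    rw [h3] at h4
    exact absurd h4 (not_le.2 hε)
  have hδ : ∃ δ : ℝ, 0 < δ ∧ ∀ p ∈ C, δ < R p := by
    rcases C.eq_empty_or_nonempty with he | hne
    · exact ⟨1, one_pos, fun p hp => by rw [he] at hp; exact absurd hp (Set.notMem_empty p)⟩
    · obtain ⟨p₀, hp₀, hmin⟩ := hCc.exists_isMinOn hne hRc.continuousOn
      refine ⟨R p₀ / 2, half_pos (hpos p₀ hp₀), fun p hp => ?_⟩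
      have := hmin hp
      have h5 : R p₀ ≤ R p := this
      exact lt_of_lt_of_le (half_lt_self (hpos p₀ hp₀)) h5
  obtain ⟨δ, hδ0, hδ⟩ := hδ
  refine ⟨δ, hδ0, fun U w hUw => ?_⟩
  by_cases hw : w = 0
  · subst hw
    have h0 : M.act U (0 : Cfg d) = 0 := (actL M h22 U).map_zero
    rw [h0]
    simp
  have hnw : 0 < ‖w‖ := norm_pos_iff.2 hw
  obtain ⟨v, hv⟩ : ∃ v : Cfg d, v = ‖w‖⁻¹ • w := ⟨_, rfl⟩
  have hwv : w = ‖w‖ • v := by
    rw [hv, smul_smul, mul_inv_cancel₀ hnw.ne', one_smul]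
  have hv1 : ‖v‖ = 1 := by
    rw [hv, norm_smul, norm_inv, norm_norm, inv_mul_cancel₀ hnw.ne']
  have hGv : G (U, v) < ε := by
    by_contra hcon
    have hmem : (U, v) ∈ C := ⟨⟨Set.mem_univ _, by simpa using hv1⟩, not_lt.1 hcon⟩
    have := hδ _ hmem
    have h6 : δ < ‖M.act U ξ - ξ‖ := this
    exact absurd hUw (not_le.2 h6)
  have hGv' : |inner ℝ (M.act U v) (K (M.act U v)) - inner ℝ v (K v)| < ε := hGv
  have e1 : inner ℝ (M.act U w) (K (M.act U w)) = ‖w‖ ^ 2 * inner ℝ (M.act U v) (K (M.act U v)) := by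
    have h7 : M.act U w = ‖w‖ • M.act U v := by
      conv_lhs => rw [hwv]
      exact h22.2.2.2.1 U ‖w‖ v
    rw [h7, map_smul, inner_smul_left, inner_smul_right]
    simp only [conj_trivial]
    ring
  have e2 : inner ℝ w (K w) = ‖w‖ ^ 2 * inner ℝ v (K v) := by
    obtain ⟨r, hr⟩ : ∃ r : ℝ, r = ‖w‖ := ⟨_, rfl⟩
    rw [← hr] at hwv ⊢
    rw [hwv, map_smul, inner_smul_left, inner_smul_right]
    simp only [conj_trivial]
    ring
  rw [e1, e2, ← mul_sub, abs_mul, abs_of_nonneg (sq_nonneg ‖w‖), mul_comm]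
  exact mul_le_mul_of_nonneg_right hGv'.le (sq_nonneg _)

end NearConAux

open NearConAux in
/-- **G30 NearCon** -/
theorem nearCon {N d : ℕ} {F : Type*} [NormedAddCommGroup F] [InnerProductSpace ℂ F]
    (M : BFSS.Model N d F) (h2 : SqCommStmt) (h22 : ActStmt M) : NearConStmt M := by
  intro S hS ξ hξ K hK L hL
  obtain ⟨C, hC0, hTay⟩ := tay_stmt S
  have hε : 0 < 1 / (4 * L ^ 2) := by positivity
  obtain ⟨δ, hδ0, hδ⟩ := near_unif M h2 h22 hS hξ hK hε
  set q : ℝ := Real.sqrt (4 * C) with hq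
  have hq0 : 0 ≤ q := Real.sqrt_nonneg _
  have hq2 : q ^ 2 = 4 * C := Real.sq_sqrt (by positivity)
  refine ⟨max 1 (max (4 * L / δ) (128 * q * L ^ 3)), lt_of_lt_of_le one_pos (le_max_left _ _),
    fun m hm U x hx hy => ?_⟩
  have hm1 : 1 ≤ m := (le_max_left _ _).trans hm
  have hm2 : 4 * L / δ ≤ m := ((le_max_left _ _).trans (le_max_right _ _)).trans hm
  have hm3 : 128 * q * L ^ 3 ≤ m := ((le_max_right _ _).trans (le_max_right _ _)).trans hm
  have hm0 : 0 < m := lt_of_lt_of_le one_pos hm1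
  obtain ⟨s, hs⟩ : ∃ s : ℝ, s = Real.sqrt m * m := ⟨_, rfl⟩
  have hsm : m ≤ s := by
    have : 1 ≤ Real.sqrt m := Real.one_le_sqrt.2 hm1
    rw [hs]
    nlinarith
  have hs0 : 0 < s := lt_of_lt_of_le hm0 hsm
  -- the displacement
  obtain ⟨a, ha⟩ : ∃ a : Cfg d, a = M.act U ξ - ξ := ⟨_, rfl⟩
  have hUξ : M.act U ξ = ξ + a := by rw [ha]; abel
  have hω : om m ξ (M.act U x) = M.act U (om m ξ x) + s • a := by
    unfold om
    have h1 : M.act U (Real.sqrt m • (x - m • ξ)) =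
        Real.sqrt m • (M.act U x - m • M.act U ξ) := by
      have h3 : x - m • ξ = x + (-m) • ξ := by rw [neg_smul]; abel
      rw [h22.2.2.2.1, h3, h22.2.2.1, h22.2.2.2.1, neg_smul, ← sub_eq_add_neg]
    rw [h1, ha, hs, mul_smul, ← smul_add]
    congr 1
    rw [smul_sub]
    abel
  have hb : ‖s • a‖ ≤ 4 * L := by
    have h3 : s • a = om m ξ (M.act U x) - M.act U (om m ξ x) := by rw [hω]; abel
    rw [h3]
    refine (norm_sub_le _ _).trans ?_
    rw [h22.2.2.2.2.1]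
    linarith
  have hsa : s * ‖a‖ ≤ 4 * L := by
    rwa [norm_smul, Real.norm_of_nonneg hs0.le] at hb
  have hKa : ‖K a‖ ≤ q * ‖a‖ ^ 2 := by
    have h3 := hTay ξ a hξ
    rw [← hUξ, h22.2.2.2.2.2.2 S hS, hξ] at h3
    have h4 : ‖K a‖ ^ 2 ≤ (q * ‖a‖ ^ 2) ^ 2 := by
      rw [hK.sq, mul_pow, hq2]
      nlinarith
    exact (abs_le_of_sq_le_sq' h4 (by positivity)).2
  have hKb : ‖K (s • a)‖ ≤ 16 * q * L ^ 2 / m := by
    rw [map_smul, norm_smul, Real.norm_of_nonneg hs0.le]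
    rw [le_div_iff₀ hm0]
    have h5 : s * ‖K a‖ * m ≤ s * (q * ‖a‖ ^ 2) * s := by
      have := norm_nonneg (K a)
      gcongr
    have h6 : s * (q * ‖a‖ ^ 2) * s = q * (s * ‖a‖) ^ 2 := by ring
    have h7 : (s * ‖a‖) ^ 2 ≤ (4 * L) ^ 2 := by
      have : 0 ≤ s * ‖a‖ := by positivity
      gcongr
    calc s * ‖K a‖ * m ≤ q * (s * ‖a‖) ^ 2 := by rw [← h6]; exact h5
      _ ≤ q * (4 * L) ^ 2 := by gcongr
      _ = 16 * q * L ^ 2 := by ring
  have haδ : ‖M.act U ξ - ξ‖ ≤ δ := by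
    rw [← ha]
    have h8 : 4 * L ≤ m * δ := (div_le_iff₀ hδ0).1 hm2
    have h9 : s * ‖a‖ ≤ s * δ := hsa.trans (h8.trans (by gcongr))
    exact le_of_mul_le_mul_left h9 hs0
  have hnear := hδ U (om m ξ x) haδ
  have hnear2 : |inner ℝ (M.act U (om m ξ x)) (K (M.act U (om m ξ x))) -
      inner ℝ (om m ξ x) (K (om m ξ x))| ≤ 1 := by
    refine hnear.trans ?_
    have h10 : ‖om m ξ x‖ ^ 2 ≤ (2 * L) ^ 2 := by
      have := norm_nonneg (om m ξ x)
      gcongr
    calc 1 / (4 * L ^ 2) * ‖om m ξ x‖ ^ 2 ≤ 1 / (4 * L ^ 2) * (2 * L) ^ 2 := by gcongr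
      _ = 1 := by field_simp; ring
  have hexp : inner ℝ (om m ξ (M.act U x)) (K (om m ξ (M.act U x))) -
      inner ℝ (M.act U (om m ξ x)) (K (M.act U (om m ξ x))) =
      2 * inner ℝ (M.act U (om m ξ x)) (K (s • a)) + inner ℝ (s • a) (K (s • a)) := by
    rw [hω, map_add, inner_add_left, inner_add_right, inner_add_right,
      ← hK.symm (s • a) (M.act U (om m ξ x)), real_inner_comm (M.act U (om m ξ x)) (K (s • a))]
    ring
  have hsmall : |inner ℝ (om m ξ (M.act U x)) (K (om m ξ (M.act U x))) -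
      inner ℝ (M.act U (om m ξ x)) (K (M.act U (om m ξ x)))| ≤ 1 := by
    rw [hexp]
    have h11 : |inner ℝ (M.act U (om m ξ x)) (K (s • a))| ≤ 2 * L * (16 * q * L ^ 2 / m) := by
      refine (abs_real_inner_le_norm _ _).trans ?_
      rw [h22.2.2.2.2.1]
      have := norm_nonneg (K (s • a))
      gcongr
    have h12 : |inner ℝ (s • a) (K (s • a))| ≤ 4 * L * (16 * q * L ^ 2 / m) := by
      refine (abs_real_inner_le_norm _ _).trans ?_
      have := norm_nonneg (K (s • a))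
      gcongr
    have h13 : 8 * L * (16 * q * L ^ 2 / m) ≤ 1 := by
      have : 8 * L * (16 * q * L ^ 2 / m) = (128 * q * L ^ 3) / m := by ring
      rw [this, div_le_one hm0]
      exact hm3
    calc |2 * inner ℝ (M.act U (om m ξ x)) (K (s • a)) + inner ℝ (s • a) (K (s • a))|
        ≤ |2 * inner ℝ (M.act U (om m ξ x)) (K (s • a))| + |inner ℝ (s • a) (K (s • a))| :=
          abs_add_le _ _
      _ = 2 * |inner ℝ (M.act U (om m ξ x)) (K (s • a))| + |inner ℝ (s • a) (K (s • a))| := by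
          rw [abs_mul, abs_two]
      _ ≤ 2 * (2 * L * (16 * q * L ^ 2 / m)) + 4 * L * (16 * q * L ^ 2 / m) := by
          linarith
      _ = 8 * L * (16 * q * L ^ 2 / m) := by ring
      _ ≤ 1 := h13
  unfold qK
  have := abs_add_le (inner ℝ (om m ξ (M.act U x)) (K (om m ξ (M.act U x))) -
      inner ℝ (M.act U (om m ξ x)) (K (M.act U (om m ξ x))))
    (inner ℝ (M.act U (om m ξ x)) (K (M.act U (om m ξ x))) -
      inner ℝ (om m ξ x) (K (om m ξ x)))
  rw [sub_add_sub_cancel] at this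
  linarith

end Vale.Agent.P353.AN.G
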