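import Vale.Agent.P353.AN.G.Stmt
import Vale.Agent.P353.AN.G.AvgG
import Vale.Agent.P353.Z.U.A4
import Vale.Agent.P353.Z.U.Npos

/-! # P353, all `N`, block G, G36: one low state for every zero -/

open MeasureTheory Filter Topology
open scoped ContDiff

namespace Vale.Agent.P353.AN.G

open Vale.Agent.P353.Z Vale.Agent.P353.Z.U

universe w

namespace One918

variable {N d : ℕ} {F : Type w} [NormedAddCommGroup F] [InnerProductSpace ℂ F]

lemma act_inv_act {M : BFSS.Model N d F} (h : ActStmt M) (U : BFSS.SU N) (x : Cfg d) :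
    M.act U (M.act U⁻¹ x) = x := by
  rw [← h.1, mul_inv_cancel, h.2.1]

lemma act_sub {M : BFSS.Model N d F} (h : ActStmt M) (U : BFSS.SU N) (x y : Cfg d) :
    M.act U (x - y) = M.act U x - M.act U y := by
  have h1 : x - y = x + (-1 : ℝ) • y := by rw [neg_one_smul, sub_eq_add_neg]
  rw [h1, h.2.2.1, h.2.2.2.1, neg_one_smul, sub_eq_add_neg]

lemma act_dist {M : BFSS.Model N d F} (h : ActStmt M) (U : BFSS.SU N) (x y : Cfg d) :
    ‖M.act U x - M.act U y‖ = ‖x - y‖ := by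
  rw [← act_sub h, h.2.2.2.2.1]

/-- distance from the norm of the rescaled coordinate -/
lemma om_le {m L : ℝ} (hm : 0 < m) {ξ x : Cfg d} (h : ‖om m ξ x‖ ≤ 2 * L) :
    ‖x - m • ξ‖ ≤ 2 * L / Real.sqrt m := by
  have hs : 0 < Real.sqrt m := Real.sqrt_pos.2 hm
  rw [le_div_iff₀ hs]
  unfold om at h
  rwa [norm_smul, Real.norm_of_nonneg hs.le, mul_comm] at h

/-- averages commute with finite linear combinations -/
lemma avg_comb [FiniteDimensional ℂ F] {M : BFSS.Model N d F} (h22 : ActStmt M)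
    (a : Fin d → ℝ) (g : Fin d → Cfg d → F) (hg : ∀ C, Continuous (g C)) (x : Cfg d) :
    avg M (fun y => -∑ C, (a C : ℂ) • g C y) x = -∑ C, (a C : ℂ) • avg M (g C) x := by
  have hcF : CompleteSpace F := FiniteDimensional.complete ℂ F
  have hi : ∀ C, Integrable (fun U : BFSS.SU N => M.S U (g C (M.act U⁻¹ x))) (hm N) := fun C =>
    (AvgG.tr_cont_left M h22 (hg C) x).integrable_of_hasCompactSupport
      (HasCompactSupport.of_compactSpace _)
  unfold avg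
  have h1 : (fun U : BFSS.SU N => M.S U (-∑ C, (a C : ℂ) • g C (M.act U⁻¹ x))) =
      fun U => -∑ C, (a C : ℂ) • M.S U (g C (M.act U⁻¹ x)) := by
    funext U
    rw [map_neg, map_sum]
    congr 1
    exact Finset.sum_congr rfl fun C _ => by rw [map_smul]
  have h2 : ∫ U, (∑ C, (a C : ℂ) • M.S U (g C (M.act U⁻¹ x))) ∂(hm N) =
      ∑ C, ∫ U, ((a C : ℂ) • M.S U (g C (M.act U⁻¹ x))) ∂(hm N) :=
    integral_finsetSum _ fun C _ => (hi C).smul (a C : ℂ)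
  rw [h1, integral_neg, h2]
  congr 1
  exact Finset.sum_congr rfl fun C _ => integral_smul _ _

lemma om_cont (m : ℝ) (ξ : Cfg d) : Continuous (fun x : Cfg d => om m ξ x) := by
  unfold om
  exact (continuous_id.sub continuous_const).const_smul (Real.sqrt m)

lemma ph2_meas (m L : ℝ) (ξ : Cfg d) (K : Cfg d →L[ℝ] Cfg d) : Measurable (ph2 m L ξ K) := by
  have h1 : Continuous (fun x : Cfg d => om m ξ x) := om_cont m ξ
  have h2 : Continuous (fun x : Cfg d => qK m ξ K x) := by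
    have h3 : Continuous fun x : Cfg d => K (om m ξ x) := K.continuous.comp h1
    exact h1.inner h3
  have h4 : Continuous fun x => Real.exp (-(1 / 2) * qK m ξ K x) :=
    Real.continuous_exp.comp (continuous_const.mul h2)
  have h5 : MeasurableSet {x : Cfg d | ‖om m ξ x‖ ≤ 2 * L} :=
    measurableSet_le h1.norm.measurable measurable_const
  exact Measurable.ite h5 h4.measurable measurable_const

lemma ph2_le_one {m L : ℝ} {ξ : Cfg d} {K : Cfg d →L[ℝ] Cfg d} (hK : ∀ x, 0 ≤ inner ℝ x (K x))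
    (x : Cfg d) : ph2 m L ξ K x ≤ 1 := by
  unfold ph2
  split_ifs
  · refine Real.exp_le_one_iff.2 ?_
    have := hK (om m ξ x)
    unfold qK
    linarith
  · exact zero_le_one

/-- closeness of `act U ξ` and `ξ` if both `x` and `act U x` are in the support -/
lemma near_act {M : BFSS.Model N d F} (h22 : ActStmt M) {m L δ : ℝ} (hm3 : 1 ≤ m)
    (hL0 : 0 < L) (hδ : 0 < δ) (hm4 : 4 * L / δ ≤ m) {ξ x : Cfg d} {U : BFSS.SU N}
    (h1 : ‖om m ξ x‖ ≤ 2 * L) (h2 : ‖om m ξ (M.act U x)‖ ≤ 2 * L) :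
    ‖M.act U ξ - ξ‖ ≤ δ := by
  have hm0 : 0 < m := by linarith
  have hs1 : 1 ≤ Real.sqrt m := by rwa [Real.one_le_sqrt]
  have h3 := om_le hm0 h1
  have h4 := om_le hm0 h2
  have h5 : ‖M.act U x - m • M.act U ξ‖ ≤ 2 * L / Real.sqrt m := by
    rw [← h22.2.2.2.1, act_dist h22]
    exact h3
  have h6 : m * ‖M.act U ξ - ξ‖ ≤ 4 * L / Real.sqrt m := by
    have h7 : m • (M.act U ξ - ξ) =
        (M.act U x - m • ξ) - (M.act U x - m • M.act U ξ) := by
      rw [smul_sub]; abel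
    have h8 : m * ‖M.act U ξ - ξ‖ = ‖m • (M.act U ξ - ξ)‖ := by
      rw [norm_smul, Real.norm_of_nonneg hm0.le]
    rw [h8, h7]
    refine (norm_sub_le _ _).trans ?_
    have h9 : 4 * L / Real.sqrt m = 2 * L / Real.sqrt m + 2 * L / Real.sqrt m := by ring
    rw [h9]
    exact add_le_add h4 h5
  have h10 : 4 * L / Real.sqrt m ≤ 4 * L := div_le_self (by linarith) hs1
  have h11 : 4 * L ≤ m * δ := by
    rwa [div_le_iff₀ hδ] at hm4
  exact le_of_mul_le_mul_left (h6.trans (h10.trans h11)) hm0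

/-- lower bound for the norm of the average -/
lemma nsq_low {M : BFSS.Model N d F} (h27 : AvgBStmt M) (h18 : TvTstStmt d F) {m L : ℝ}
    (hm0 : 0 < m) (hL0 : 0 < L) {ξ : Cfg d} {K : Cfg d →L[ℝ] Cfg d} {Ω : F} (hΩ : ‖Ω‖ = 1)
    (hre : ∀ (U : BFSS.SU N) (x : Cfg d), ph m L ξ K x ≠ 0 → ph m L ξ K (M.act U x) ≠ 0 →
      1 / 2 ≤ (inner ℂ Ω (M.S U Ω)).re)
    (hr1 : Integrable (fun x => avs M (ph m L ξ K) x ^ 2))
    (hT1 : Setup.Tst (avg M (tv m L ξ K Ω))) :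
    1 / 4 * (∫ x, avs M (ph m L ξ K) x ^ 2) ≤ nsq (avg M (tv m L ξ K Ω)) := by
  obtain ⟨-, hphs, hphc, hph, -, -⟩ := h18 ξ K m L hm0 hL0
  have hlb : ∀ x, 1 / 2 * avs M (ph m L ξ K) x ≤ ‖avg M (tv m L ξ K Ω) x‖ :=
    h27.2 (ph m L ξ K) Ω hphs.continuous hphc (fun x => (hph x).1) hΩ hre
  have havs0 : ∀ x, 0 ≤ avs M (ph m L ξ K) x := fun x => integral_nonneg fun U => (hph _).1
  unfold nsq
  rw [← integral_const_mul]
  refine integral_mono (hr1.const_mul _) hT1.norm_sq_int fun x => ?_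
  have h1 := hlb x
  have h2 := havs0 x
  have h3 : (1 / 2 * avs M (ph m L ξ K) x) ^ 2 ≤ ‖avg M (tv m L ξ K Ω) x‖ ^ 2 :=
    pow_le_pow_left₀ (by positivity) h1 2
  show 1 / 4 * avs M (ph m L ξ K) x ^ 2 ≤ ‖avg M (tv m L ξ K Ω) x‖ ^ 2
  nlinarith

/-- upper bound for the energy of the average -/
lemma nsq_up {M : BFSS.Model N d F} {S : Setup d F} (h27 : AvgBStmt M)
    {m L c : ℝ} (hc0 : 0 ≤ c) {ξ : Cfg d} {K : Cfg d →L[ℝ] Cfg d}
    (hK : ∀ x, 0 ≤ inner ℝ x (K x)) {Ω : F} (β : Fin 16)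
    (hQ : ∀ x, ‖S.Qm m β (tv m L ξ K Ω) x‖ ≤ c * ph2 m L ξ K x)
    (hT : Setup.Tst (tv m L ξ K Ω))
    (hT2 : ∀ x, S.Qm m β (avg M (tv m L ξ K Ω)) x = avg M (S.Qm m β (tv m L ξ K Ω)) x)
    (hr2 : Integrable (fun x => avs M (ph2 m L ξ K) x ^ 2)) :
    nsq (S.Qm m β (avg M (tv m L ξ K Ω))) ≤ c ^ 2 * ∫ x, avs M (ph2 m L ξ K) x ^ 2 := by
  have hub : ∀ x, ‖S.Qm m β (avg M (tv m L ξ K Ω)) x‖ ≤ c * avs M (ph2 m L ξ K) x := by
    intro x
    rw [hT2]
    have h1 := h27.1 (S.Qm m β (tv m L ξ K Ω)) (fun x => c * ph2 m L ξ K x) c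
      (A4.contDiff_Qm S m β hT.1).continuous ((ph2_meas m L ξ K).const_mul c) hQ
      (fun x => mul_le_of_le_one_right hc0 (ph2_le_one hK x)) x
    refine h1.trans (le_of_eq ?_)
    unfold avs
    rw [integral_const_mul]
  unfold nsq
  rw [← integral_const_mul]
  refine integral_mono_of_nonneg (Eventually.of_forall fun x => by positivity)
    (hr2.const_mul _) (Eventually.of_forall fun x => ?_)
  show ‖S.Qm m β (avg M (tv m L ξ K Ω)) x‖ ^ 2 ≤ c ^ 2 * avs M (ph2 m L ξ K) x ^ 2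
  rw [← mul_pow]
  exact pow_le_pow_left₀ (norm_nonneg _) (hub x) 2

/-- invariance under rotations -/
lemma J_zero [FiniteDimensional ℂ F] {M : BFSS.Model N d F} {S : Setup d F} (hS : Rep M S)
    (h22 : ActStmt M) (h26 : AvgGStmt M) {m L : ℝ} {ξ : Cfg d} {K : Cfg d →L[ℝ] Cfg d} {Ω : F}
    (hT : Setup.Tst (tv m L ξ K Ω)) {k l : Fin 9} {a : Fin d → ℝ}
    (h3 : ∀ x, S.J k l (tv m L ξ K Ω) x + ∑ C, (a C : ℂ) • S.G C (tv m L ξ K Ω) x = 0)
    (x : Cfg d) : avg M (S.J k l (tv m L ξ K Ω)) x = 0 := by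
  have h4 : S.J k l (tv m L ξ K Ω) = fun y => -∑ C, (a C : ℂ) • S.G C (tv m L ξ K Ω) y := by
    funext y
    exact eq_neg_of_add_eq_zero_left (h3 y)
  rw [h4, avg_comb h22 a (fun C => S.G C (tv m L ξ K Ω))
    (fun C => (A4.contDiff_G S C hT.1).continuous) x]
  simp [h26 S hS _ hT]

/-- support of the average -/
lemma supp {M : BFSS.Model N d F} (h22 : ActStmt M) {m L : ℝ} (hm0 : 0 < m) {ξ : Cfg d}
    {K : Cfg d →L[ℝ] Cfg d} {Ω : F} (hsupp : ∀ x, ph m L ξ K x ≠ 0 → ‖om m ξ x‖ ≤ 2 * L)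
    {x : Cfg d} (hx : avg M (tv m L ξ K Ω) x ≠ 0) :
    ∃ U, ‖x - m • M.act U ξ‖ ≤ 2 * L / Real.sqrt m := by
  by_contra hcon
  push Not at hcon
  refine hx ?_
  unfold avg
  have h1 : (fun U : BFSS.SU N => M.S U (tv m L ξ K Ω (M.act U⁻¹ x))) = fun _ => 0 := by
    funext U
    have h2 : ph m L ξ K (M.act U⁻¹ x) = 0 := by
      by_contra h3
      have h4 := om_le hm0 (hsupp _ h3)
      have h5 : ‖x - m • M.act U ξ‖ ≤ 2 * L / Real.sqrt m := by
        have h6 : ‖M.act U (M.act U⁻¹ x) - M.act U (m • ξ)‖ ≤ 2 * L / Real.sqrt m := by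
          rw [act_dist h22]
          exact h4
        rwa [act_inv_act h22, h22.2.2.2.1] at h6
      exact absurd h5 (not_le.2 (hcon U))
    simp [tv, h2]
  rw [h1]
  simp

/-- the arithmetic of the energy estimate -/
lemma arith {ε A C₀ L X m n I c : ℝ} (hε : 0 < ε) (hL0 : 0 < L)
    (hX : X = 64 * A * C₀ ^ 2 / ε) (hLX : X ≤ L ^ 2) (hm0 : 0 < m) (hn0 : 0 < n)
    (hc : c ^ 2 = m * (C₀ / L) ^ 2) (hI : I ≤ A * (4 * n)) :
    16 * (c ^ 2 * I) ≤ ε * m * n := by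
  have h2 : c ^ 2 * I ≤ c ^ 2 * (A * (4 * n)) := mul_le_mul_of_nonneg_left hI (by positivity)
  have h4 : 16 * (c ^ 2 * (A * (4 * n))) = (64 * A * (C₀ / L) ^ 2) * (m * n) := by
    rw [hc]; ring
  have h5 : 64 * A * (C₀ / L) ^ 2 ≤ ε := by
    rw [div_pow, ← mul_div_assoc, div_le_iff₀ (by positivity)]
    have h6 : X * ε ≤ L ^ 2 * ε := mul_le_mul_of_nonneg_right hLX hε.le
    rw [hX, div_mul_cancel₀ _ hε.ne'] at h6
    linarith
  have h7 : (64 * A * (C₀ / L) ^ 2) * (m * n) ≤ ε * (m * n) :=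
    mul_le_mul_of_nonneg_right h5 (by positivity)
  calc 16 * (c ^ 2 * I) ≤ 16 * (c ^ 2 * (A * (4 * n))) := by linarith
    _ = (64 * A * (C₀ / L) ^ 2) * (m * n) := h4
    _ ≤ ε * (m * n) := h7
    _ = ε * m * n := by ring

end One918

section

variable {N d : ℕ} {F : Type w} [NormedAddCommGroup F] [InnerProductSpace ℂ F]

open One918

theorem one_stmt [FiniteDimensional ℂ F] (M : BFSS.Model N d F)
    (h11 : ∀ S : Setup d F, LowExStmt S) (h12 : ∀ S : Setup d F, KillStmt S)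
    (h15 : ∀ S : Setup d F, VfStmt S) (h16 : ∀ S : Setup d F, VfKStmt S)
    (h17 : ∀ S : Setup d F, JKillStmt S) (h18 : TvTstStmt d F)
    (h19 : ∀ S : Setup d F, TvQStmt S) (h20 : ∀ S : Setup d F, TvJStmt S)
    (h22 : ActStmt M) (h24 : AvgDStmt M) (h25 : AvgCStmt M) (h26 : AvgGStmt M)
    (h27 : AvgBStmt M) (h29 : RatStmt M) (h30 : NearConStmt M) (h31 : HalfStmt M)
    (h34 : StabStmt M) : OneStmt M := by
  intro hd S hS ξ hξ ε hε
  obtain ⟨K, hK⟩ := sqr S ξ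
  have hirr : S.Irr := by
    intro W hW
    refine M.θ_irreducible W fun α A v hv => ?_
    have := hW α A v hv
    rwa [hS.hth] at this
  obtain ⟨E, Ω, hlow⟩ := h11 S hirr M.nontrivial ξ hξ
  have hkill := h12 S ξ hξ K hK E Ω hlow
  obtain ⟨C₀, hC₀, hQ⟩ := h19 S ξ hξ K hK Ω hlow.norm hkill
  obtain ⟨δ, hδ, hhalf⟩ := h31 ξ Ω hlow.norm (h34 hd S hS ξ hξ E Ω hlow)
  set A : ℝ := Real.exp 2 * 68 ^ (9 * d) with hA
  have hA0 : 0 < A := by positivity
  set X : ℝ := 64 * A * C₀ ^ 2 / ε with hX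
  have hX0 : 0 ≤ X := by positivity
  set L : ℝ := 1 + X with hLdef
  have hL1 : 1 ≤ L := by linarith
  have hL0 : 0 < L := by linarith
  have hLX : X ≤ L ^ 2 := by nlinarith
  obtain ⟨m₁, hm₁, hnear⟩ := h30 S hS ξ hξ K hK L hL0
  refine ⟨2 * L, max (max m₁ (L ^ 2)) (max 1 (4 * L / δ)),
    lt_of_lt_of_le hm₁ ((le_max_left _ _).trans (le_max_left _ _)), fun m hm => ?_⟩
  have hm1 : m₁ ≤ m := ((le_max_left _ _).trans (le_max_left _ _)).trans hm
  have hm2 : L ^ 2 ≤ m := ((le_max_right _ _).trans (le_max_left _ _)).trans hm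
  have hm3 : 1 ≤ m := ((le_max_left _ _).trans (le_max_right _ _)).trans hm
  have hm4 : 4 * L / δ ≤ m := ((le_max_right _ _).trans (le_max_right _ _)).trans hm
  have hm0 : 0 < m := by linarith
  have hs1 : 1 ≤ Real.sqrt m := by rwa [Real.one_le_sqrt]
  have hs0 : 0 < Real.sqrt m := by linarith
  obtain ⟨hTst, -, -, -, -, hphsupp⟩ := h18 ξ K m L hm0 hL0
  have hT := hTst Ω
  obtain ⟨hT1, hT2, hT3⟩ := h24 S hS _ hT
  have hcore := h25 _ hT hT1
  obtain ⟨hr1, hr2, hr3, hr4⟩ := h29 ξ K hK.pos m L hm0 hL0 (hnear m hm1)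
  have hn := nsq_low h27 h18 hm0 hL0 hlow.norm
    (fun U x h1 h2 => hhalf U (near_act h22 hm3 hL0 hδ hm4 (hphsupp x h1) (hphsupp _ h2))) hr1 hT1
  have hnpos : 0 < nsq (avg M (tv m L ξ K Ω)) := lt_of_lt_of_le (by linarith) hn
  have hc0 : 0 ≤ Real.sqrt m * (C₀ / L) := by positivity
  have hc2 : (Real.sqrt m * (C₀ / L)) ^ 2 = m * (C₀ / L) ^ 2 := by
    rw [mul_pow, Real.sq_sqrt hm0.le]
  refine ⟨avg M (tv m L ξ K Ω), ⟨hT1, fun C x => gaussLaw M S hS _ hcore C x, fun k l hkl x => ?_⟩,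
    hnpos, ?_, fun x hx => supp h22 hm0 hphsupp hx⟩
  · obtain ⟨a, ha⟩ := h15 S ξ hξ k l hkl
    have h1 := h16 S ξ hξ K hK k l hkl a ha
    have h2 := h17 S ξ hξ E Ω hlow k l hkl a ha
    rw [hT3]
    exact J_zero hS h22 h26 hT (h20 S ξ K hK.symm Ω k l hkl.1 a ha h1 h2 m L hm0 hL0) x
  · have h1 : ∑ β : Fin 16, nsq (S.Qm m β (avg M (tv m L ξ K Ω))) ≤
        16 * ((Real.sqrt m * (C₀ / L)) ^ 2 * ∫ x, avs M (ph2 m L ξ K) x ^ 2) := by
      refine (Finset.sum_le_sum fun β _ => nsq_up h27 hc0 hK.pos β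
        (fun x => hQ L m hL1 hm2 β x) hT (fun x => hT2 m β x) hr2).trans (le_of_eq ?_)
      simp
    refine h1.trans (arith hε hL0 hX hLX hm0 hnpos hc2 (hr4.trans ?_))
    exact mul_le_mul_of_nonneg_left (by linarith) hA0.le

end

end Vale.Agent.P353.AN.G
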