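import Vale.Agent.P353.AN.G.Stmt
import Vale.Agent.P353.Z.U.Hes

/-! # P353, all `N`, block G: G06 -/

open MeasureTheory Filter Topology
open scoped ContDiff

namespace Vale.Agent.P353.AN.G

open Vale.Agent.P353.Z Vale.Agent.P353.Z.U
open Vale.Agent.P353.Z.Setup (c3)

variable {d : ℕ} {F : Type*} [NormedAddCommGroup F] [InnerProductSpace ℂ F] (S : Setup d F)

/-- the gauge direction `τ_C` at `ξ` -/
noncomputable def pkTau (ξ : Cfg d) (C : Fin d) : Cfg d :=
  WithLp.toLp 2 fun p => ∑ A, S.f C A p.2 * ξ (p.1, A)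

theorem pkTau_apply (ξ : Cfg d) (C : Fin d) (i : Fin 9) (B : Fin d) :
    pkTau S ξ C (i, B) = ∑ A, S.f C A B * ξ (i, A) := rfl

theorem pk_jac (A B C E : Fin d) :
    ∑ G, (S.f A B G * S.f C E G + S.f A G E * S.f C B G - S.f C G A * S.f G B E) = 0 := by
  have h := S.f_jac A B C E
  rw [← h]
  refine Finset.sum_congr rfl fun G _ => ?_
  rw [← S.f_cyc G C E, S.f_swap A G E, S.f_swap C B G, S.f_swap' C A G]
  ring

/-- gauge rotation of the field strength -/
theorem pk_LF (ξ : Cfg d) (C A : Fin d) (i j : Fin 9) :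
    S.LF ξ A i j (pkTau S ξ C) = ∑ G, S.f C G A * S.FF G i j ξ := by
  have e1 : ∑ B, ∑ D, S.f A B D * (ξ (i, B) * pkTau S ξ C (j, D)) =
      ∑ B, ∑ E, ∑ G, ξ (i, B) * ξ (j, E) * (S.f A B G * S.f C E G) := by
    refine Finset.sum_congr rfl fun B _ => ?_
    rw [Finset.sum_comm]
    refine Finset.sum_congr rfl fun D _ => ?_
    rw [pkTau_apply, Finset.mul_sum, Finset.mul_sum]
    exact Finset.sum_congr rfl fun E _ => by ring
  have e2 : ∑ B, ∑ D, S.f A B D * (pkTau S ξ C (i, B) * ξ (j, D)) =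
      ∑ B, ∑ E, ∑ G, ξ (i, B) * ξ (j, E) * (S.f A G E * S.f C B G) := by
    have h1 : ∀ B D, S.f A B D * (pkTau S ξ C (i, B) * ξ (j, D)) =
        ∑ E, ξ (i, E) * ξ (j, D) * (S.f A B D * S.f C E B) := by
      intro B D
      rw [pkTau_apply, Finset.sum_mul, Finset.mul_sum]
      exact Finset.sum_congr rfl fun E _ => by ring
    simp only [h1]
    rw [Finset.sum_comm]
    have h2 : ∀ D, ∑ B, ∑ E, ξ (i, E) * ξ (j, D) * (S.f A B D * S.f C E B) =
        ∑ E, ∑ B, ξ (i, E) * ξ (j, D) * (S.f A B D * S.f C E B) := fun D => Finset.sum_comm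
    simp only [h2]
    rw [Finset.sum_comm]
  have e3 : ∑ G, S.f C G A * S.FF G i j ξ =
      S.κ * ∑ B, ∑ E, ∑ G, ξ (i, B) * ξ (j, E) * (S.f C G A * S.f G B E) := by
    have h1 : ∀ G, S.f C G A * S.FF G i j ξ =
        S.κ * ∑ B, ∑ E, ξ (i, B) * ξ (j, E) * (S.f C G A * S.f G B E) := by
      intro G
      unfold Setup.FF
      rw [mul_left_comm, Finset.mul_sum]
      congr 1
      refine Finset.sum_congr rfl fun B _ => ?_
      rw [Finset.mul_sum]
      exact Finset.sum_congr rfl fun E _ => by ring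
    simp only [h1]
    rw [← Finset.mul_sum, Finset.sum_comm]
    congr 1
    exact Finset.sum_congr rfl fun B _ => Finset.sum_comm
  unfold Setup.LF
  simp only [mul_add, Finset.sum_add_distrib]
  rw [e1, e2, e3, ← mul_add, ← Finset.sum_add_distrib]
  congr 1
  refine Finset.sum_congr rfl fun B _ => ?_
  rw [← Finset.sum_add_distrib]
  refine Finset.sum_congr rfl fun E _ => ?_
  rw [← Finset.mul_sum, ← Finset.mul_sum, ← Finset.mul_sum, ← mul_add]
  congr 1
  have h := pk_jac S A B C E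
  rw [Finset.sum_sub_distrib, Finset.sum_add_distrib] at h
  linarith

/-- the gauge directions are null directions of the Hessian -/
theorem pk_hq {ξ : Cfg d} (h : S.Vm 1 ξ = 0) (C : Fin d) : S.hq ξ (pkTau S ξ C) = 0 := by
  obtain ⟨h1, h2, h3⟩ := hes_zero S h
  have z1 : ∀ k A, S.LG ξ k A (pkTau S ξ C) = 0 := by
    intro k A
    unfold Setup.LG
    rw [pk_LF, pkTau_apply, Finset.mul_sum, ← Finset.sum_add_distrib]
    refine Finset.sum_eq_zero fun G _ => ?_
    have h4 := h1 k G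
    unfold Setup.GG at h4
    have h5 : S.f C G A * S.FF G (c3 (k + 1)) (c3 (k + 2)) ξ + 2 * (S.f C G A * ξ (c3 k, G)) =
        S.f C G A * (S.FF G (c3 (k + 1)) (c3 (k + 2)) ξ + 2 * 1 * ξ (c3 k, G)) := by ring
    rw [h5, h4, mul_zero]
  have z2 : ∀ (i : Fin 9) (A : Fin d), ¬ i.val < 3 → pkTau S ξ C (i, A) = 0 := by
    intro i A hi
    rw [pkTau_apply]
    exact Finset.sum_eq_zero fun G _ => by rw [h2 i G hi, mul_zero]
  have z3 : ∀ (i j : Fin 9) (A : Fin d), ¬ (i.val < 3 ∧ j.val < 3) →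
      S.LF ξ A i j (pkTau S ξ C) = 0 := by
    intro i j A hij
    rw [pk_LF]
    exact Finset.sum_eq_zero fun G _ => by rw [h3 i j G hij, mul_zero]
  unfold Setup.hq
  have s1 : ∑ k, ∑ A, S.LG ξ k A (pkTau S ξ C) ^ 2 = 0 :=
    Finset.sum_eq_zero fun k _ => Finset.sum_eq_zero fun A _ => by rw [z1 k A]; ring
  have s2 : ∑ i : Fin 9, ∑ A, (if i.val < 3 then 0 else pkTau S ξ C (i, A) ^ 2 : ℝ) = 0 := by
    refine Finset.sum_eq_zero fun i _ => Finset.sum_eq_zero fun A _ => ?_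
    split_ifs with hi
    · rfl
    · rw [z2 i A hi]; ring
  have s3 : ∑ i : Fin 9, ∑ j : Fin 9, ∑ A,
      (if i.val < 3 ∧ j.val < 3 then 0 else S.LF ξ A i j (pkTau S ξ C) ^ 2 : ℝ) = 0 := by
    refine Finset.sum_eq_zero fun i _ => Finset.sum_eq_zero fun j _ =>
      Finset.sum_eq_zero fun A _ => ?_
    split_ifs with hi
    · rfl
    · rw [z3 i j A hi]; ring
  rw [s1, s2, s3]
  ring

/-- `Perp` is orthogonality to the gauge directions -/
theorem pk_perp (ξ x : Cfg d) : S.Perp ξ x ↔ ∀ C, inner ℝ (pkTau S ξ C) x = 0 := by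
  have h : ∀ C, inner ℝ (pkTau S ξ C) x = ∑ i, ∑ A, ∑ B, S.f C A B * ξ (i, A) * x (i, B) := by
    intro C
    rw [PiLp.inner_apply, Fintype.sum_prod_type]
    refine Finset.sum_congr rfl fun i _ => ?_
    rw [Finset.sum_comm]
    refine Finset.sum_congr rfl fun B _ => ?_
    have h0 : ∀ a b : ℝ, inner ℝ a b = a * b := fun a b => by simp [mul_comm]
    rw [h0, pkTau_apply, Finset.sum_mul]
  unfold Setup.Perp
  simp only [h]

/-- **G06** -/
theorem perpK : PerpKStmt S := by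
  intro ξ hξ K hK x
  rw [pk_perp]
  intro C
  have h1 : K (pkTau S ξ C) = 0 := by
    have h2 := hK.sq (pkTau S ξ C)
    rw [pk_hq S hξ C, mul_zero] at h2
    exact norm_eq_zero.1 (pow_eq_zero_iff two_ne_zero |>.1 h2)
  rw [← hK.symm, h1, inner_zero_left]

end Vale.Agent.P353.AN.G
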