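import Vale.Agent.P353.AN.G.Stmt
import Vale.Agent.P353.Z.U.MAd
import Vale.Agent.P353.Z.U.GrpExp

/-! # P353, all `N`, block G: covariance of the supercharges and of the rotation generators -/

open MeasureTheory Filter Topology
open scoped ContDiff

namespace Vale.Agent.P353.AN.G

open Vale.Agent.P353.Z Vale.Agent.P353.Z.U

universe w

namespace QAct

section Alg

variable {N d : ℕ} {F : Type w} [NormedAddCommGroup F] [InnerProductSpace ℂ F]

/-- the matrix of the adjoint action -/
noncomputable def O (M : BFSS.Model N d F) (U : BFSS.SU N) : Matrix (Fin d) (Fin d) ℝ :=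
  Matrix.of fun B A => BFSS.adCoeff M.T U B A

variable (M : BFSS.Model N d F) (S : Setup d F) (hS : Rep M S) (U : BFSS.SU N)

include hS in
theorem mem_grp : O M U ∈ S.grp := adS M (fun S a t => exp_mem S a t) S hS U

include hS in
theorem orth1 (A B : Fin d) : ∑ C, O M U C A * O M U C B = if A = B then 1 else 0 := by
  have h := congrFun (congrFun (mem_grp M S hS U).1 A) B
  rw [Matrix.mul_apply] at h
  simpa [Matrix.transpose_apply, Matrix.one_apply] using h

include hS in
theorem orth2 (A B : Fin d) : ∑ C, O M U A C * O M U B C = if A = B then 1 else 0 := by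
  have h0 : O M U * (O M U).transpose = 1 := mul_eq_one_comm.1 (mem_grp M S hS U).1
  have h := congrFun (congrFun h0 A) B
  rw [Matrix.mul_apply] at h
  simpa [Matrix.transpose_apply, Matrix.one_apply] using h

theorem coeff_inv (A B : Fin d) : BFSS.adCoeff M.T U⁻¹ B A = O M U A B := by
  unfold O BFSS.adCoeff
  rw [Matrix.of_apply]
  congr 1
  have h : (U⁻¹ : BFSS.SU N).val = U.val.conjTranspose := rfl
  rw [h, Matrix.conjTranspose_conjTranspose]
  calc (M.T B * (U.val.conjTranspose * M.T A * U.val)).trace =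
      (M.T B * U.val.conjTranspose * M.T A * U.val).trace := by simp only [Matrix.mul_assoc]
    _ = (U.val * (M.T B * U.val.conjTranspose * M.T A)).trace := Matrix.trace_mul_comm _ _
    _ = ((U.val * M.T B * U.val.conjTranspose) * M.T A).trace := by simp only [Matrix.mul_assoc]
    _ = _ := Matrix.trace_mul_comm _ _

theorem act_apply (x : Cfg d) (i : Fin 9) (B : Fin d) :
    M.act U x (i, B) = ∑ A, O M U B A * x (i, A) := rfl

theorem act_inv_apply (x : Cfg d) (i : Fin 9) (B : Fin d) :
    M.act U⁻¹ x (i, B) = ∑ A, O M U A B * x (i, A) := by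
  have : M.act U⁻¹ x (i, B) = ∑ A, BFSS.adCoeff M.T U⁻¹ B A * x (i, A) := rfl
  rw [this]
  exact Finset.sum_congr rfl fun A _ => by rw [coeff_inv]

include hS in
/-- coordinates of `x` in terms of those of `y = act U⁻¹ x` -/
theorem coord (x : Cfg d) (i : Fin 9) (A : Fin d) :
    x (i, A) = ∑ B, O M U A B * M.act U⁻¹ x (i, B) := by
  simp only [act_inv_apply, Finset.mul_sum]
  rw [Finset.sum_comm]
  have h : ∀ C, ∑ B, O M U A B * (O M U C B * x (i, C)) =
      (if A = C then 1 else 0) * x (i, C) := by
    intro C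
    rw [← orth2 M S hS U A C, Finset.sum_mul]
    exact Finset.sum_congr rfl fun B _ => by ring
  simp only [h]
  simp

/-- a family of operators that is rotated by `U` -/
def Rot (X : Fin d → F →L[ℂ] F) : Prop :=
  ∀ A v, M.S U (X A v) = ∑ B, (O M U B A : ℂ) • X B (M.S U v)

include hS in
theorem rot_vec (K : Matrix (Fin 16) (Fin 16) ℂ) (β : Fin 16) :
    Rot M U (fun A => S.vec K A β) := by
  intro A v
  simp only [CS.vec, _root_.sum_apply, _root_.smul_apply, map_sum,
    map_smul, hS.hth, M.S_rotates, Finset.smul_sum]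
  rw [Finset.sum_comm]
  refine Finset.sum_congr rfl fun B _ => Finset.sum_congr rfl fun γ _ => ?_
  rw [smul_comm]
  rfl

include hS in
/-- contraction of a rotated family with rotated coefficients -/
theorem rot_sum {X : Fin d → F →L[ℂ] F} (hX : Rot M U X) (a b : Fin d → ℝ)
    (hab : ∀ A, a A = ∑ B, O M U A B * b B) (v : F) :
    ∑ A, (a A : ℂ) • X A (M.S U v) = M.S U (∑ B, (b B : ℂ) • X B v) := by
  have hX' : ∀ A v, M.S U (X A v) = ∑ B, (O M U B A : ℂ) • X B (M.S U v) := hX
  rw [map_sum]
  simp only [map_smul, hX', hab, Complex.ofReal_sum, Complex.ofReal_mul, Finset.sum_smul,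
    Finset.smul_sum]
  rw [Finset.sum_comm]
  refine Finset.sum_congr rfl fun B _ => Finset.sum_congr rfl fun A _ => ?_
  rw [smul_smul, mul_comm]

theorem rot_sum' {X : Fin d → F →L[ℂ] F} (hX : Rot M U X) (u : Fin d → F) :
    ∑ A, X A (∑ B, (O M U A B : ℂ) • M.S U (u B)) = M.S U (∑ B, X B (u B)) := by
  have hX' : ∀ A v, M.S U (X A v) = ∑ B, (O M U B A : ℂ) • X B (M.S U v) := hX
  rw [map_sum]
  simp only [map_smul, hX', map_sum]
  rw [Finset.sum_comm]

include hS in
/-- the structure constants -/
theorem f_rot (A B' C' : Fin d) : ∑ B, ∑ C, S.f A B C * O M U B B' * O M U C C' =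
    ∑ A', O M U A A' * S.f A' B' C' := by
  have h := (mem_grp M S hS U).2.1
  symm
  have h1 : ∑ A', O M U A A' * S.f A' B' C' = ∑ A', ∑ D, ∑ B, ∑ C,
      O M U A A' * (O M U D A' * O M U B B' * O M U C C' * S.f D B C) := by
    refine Finset.sum_congr rfl fun A' _ => ?_
    rw [← h A' B' C']
    simp only [Finset.mul_sum]
  rw [h1, Finset.sum_comm]
  have h2 : ∀ D, ∑ A', ∑ B, ∑ C, O M U A A' * (O M U D A' * O M U B B' * O M U C C' * S.f D B C) =
      (if A = D then 1 else 0) * ∑ B, ∑ C, S.f D B C * O M U B B' * O M U C C' := by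
    intro D
    rw [← orth2 M S hS U A D, Finset.sum_mul]
    refine Finset.sum_congr rfl fun A' _ => ?_
    simp only [Finset.mul_sum]
    refine Finset.sum_congr rfl fun B _ => Finset.sum_congr rfl fun C _ => ?_
    ring
  simp only [h2]
  simp

include hS in
theorem FF_rot (x : Cfg d) (i j : Fin 9) (A : Fin d) :
    S.FF A i j x = ∑ A', O M U A A' * S.FF A' i j (M.act U⁻¹ x) := by
  unfold Setup.FF
  have h1 : ∀ B C, S.f A B C * x (i, B) * x (j, C) = ∑ B', ∑ C',
      (S.f A B C * O M U B B' * O M U C C') * (M.act U⁻¹ x (i, B') * M.act U⁻¹ x (j, C')) := by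
    intro B C
    rw [coord M S hS U x i B, coord M S hS U x j C]
    simp only [Finset.mul_sum, Finset.sum_mul]
    rw [Finset.sum_comm]
    refine Finset.sum_congr rfl fun B' _ => Finset.sum_congr rfl fun C' _ => ?_
    ring
  calc S.κ * ∑ B, ∑ C, S.f A B C * x (i, B) * x (j, C) =
      S.κ * ∑ B', ∑ C', (∑ B, ∑ C, S.f A B C * O M U B B' * O M U C C') *
        (M.act U⁻¹ x (i, B') * M.act U⁻¹ x (j, C')) := by
        congr 1
        simp only [h1, Finset.sum_mul]
        rw [Finset.sum_congr rfl fun B _ => Finset.sum_comm]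
        rw [Finset.sum_comm]
        refine Finset.sum_congr rfl fun B' _ => ?_
        rw [Finset.sum_congr rfl fun B _ => Finset.sum_comm]
        rw [Finset.sum_comm]
    _ = _ := by
        simp only [f_rot M S hS U, Finset.mul_sum, Finset.sum_mul]
        rw [Finset.sum_congr rfl fun B _ => Finset.sum_comm]
        rw [Finset.sum_comm]
        refine Finset.sum_congr rfl fun A' _ => Finset.sum_congr rfl fun B' _ =>
          Finset.sum_congr rfl fun C' _ => ?_
        ring

/-! ### derivatives -/

/-- the action as a linear map -/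
noncomputable def actL : Cfg d →L[ℝ] Cfg d :=
  LinearMap.toContinuousLinearMap
    { toFun := M.act U
      map_add' := fun x y => by
        ext p
        have h : ∀ z : Cfg d, M.act U z p = ∑ A, O M U p.2 A * z (p.1, A) := fun _ => rfl
        rw [PiLp.add_apply, h, h, h, ← Finset.sum_add_distrib]
        exact Finset.sum_congr rfl fun A _ => by rw [PiLp.add_apply]; ring
      map_smul' := fun c x => by
        ext p
        have h : ∀ z : Cfg d, M.act U z p = ∑ A, O M U p.2 A * z (p.1, A) := fun _ => rfl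
        rw [PiLp.smul_apply, h, h, smul_eq_mul, Finset.mul_sum]
        exact Finset.sum_congr rfl fun A _ => by
          rw [PiLp.smul_apply, smul_eq_mul, RingHom.id_apply]; ring }

theorem actL_apply (x : Cfg d) : actL M U x = M.act U x := rfl

theorem act_single (i : Fin 9) (A : Fin d) :
    M.act U⁻¹ (EuclideanSpace.single (i, A) 1) =
      ∑ B, O M U A B • EuclideanSpace.single (i, B) (1 : ℝ) := by
  ext p
  obtain ⟨j, B⟩ := p
  rw [act_inv_apply, WithLp.ofLp_sum, Finset.sum_apply]
  simp only [PiLp.smul_apply, EuclideanSpace.single_apply, smul_eq_mul, Prod.mk.injEq]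
  by_cases hj : j = i
  · subst hj
    simp
  · simp [hj]

theorem pd_rot {v : Cfg d → F} (hv : ContDiff ℝ ∞ v) (i : Fin 9) (A : Fin d) (x : Cfg d) :
    pd i A (fun y => M.S U (v (M.act U⁻¹ y))) x =
      ∑ B, (O M U A B : ℂ) • M.S U (pd i B v (M.act U⁻¹ x)) := by
  have hd : DifferentiableAt ℝ v (M.act U⁻¹ x) := (hv.differentiable (by simp)).differentiableAt
  have h1 : HasFDerivAt (fun y => M.S U (v (M.act U⁻¹ y)))
      (((M.S U).restrictScalars ℝ).comp ((fderiv ℝ v (M.act U⁻¹ x)).comp (actL M U⁻¹))) x := by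
    have h2 : HasFDerivAt (fun y => M.act U⁻¹ y) (actL M U⁻¹) x := (actL M U⁻¹).hasFDerivAt
    have h3 : HasFDerivAt v (fderiv ℝ v (M.act U⁻¹ x)) (M.act U⁻¹ x) := hd.hasFDerivAt
    exact ((M.S U).restrictScalars ℝ).hasFDerivAt.comp x (h3.comp x h2)
  unfold pd
  rw [h1.fderiv]
  change M.S U (fderiv ℝ v (M.act U⁻¹ x) (M.act U⁻¹ (EuclideanSpace.single (i, A) 1))) = _
  rw [act_single, map_sum, map_sum]
  refine Finset.sum_congr rfl fun B _ => ?_
  have h3 : fderiv ℝ v (M.act U⁻¹ x) (O M U A B • EuclideanSpace.single (i, B) (1 : ℝ)) =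
      (O M U A B : ℂ) • fderiv ℝ v (M.act U⁻¹ x) (EuclideanSpace.single (i, B) 1) := by
    rw [map_smul, Complex.coe_smul]
  rw [h3, map_smul]

include hS in
theorem dot_rot (a b : Fin d → ℝ) (hab : ∀ A, a A = ∑ B, O M U A B * b B) (p q : Fin d → F)
    (hpq : ∀ A, p A = ∑ B, (O M U A B : ℂ) • q B) :
    ∑ A, (a A : ℂ) • p A = ∑ B, (b B : ℂ) • q B := by
  have h1 : ∀ A, (a A : ℂ) • p A = ∑ B, ∑ B', ((O M U A B * O M U A B' : ℝ) * b B' : ℂ) • q B := by
    intro A
    rw [hab, hpq, Finset.smul_sum]
    refine Finset.sum_congr rfl fun B _ => ?_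
    rw [smul_smul, Complex.ofReal_sum, Finset.sum_mul, Finset.sum_smul]
    refine Finset.sum_congr rfl fun B' _ => ?_
    congr 1
    push_cast
    ring
  simp only [h1]
  rw [Finset.sum_comm]
  refine Finset.sum_congr rfl fun B _ => ?_
  rw [Finset.sum_comm]
  have h2 : ∀ B', ∑ A, (((O M U A B * O M U A B' : ℝ) : ℂ) * (b B' : ℂ)) • q B =
      (if B = B' then (b B' : ℂ) else 0) • q B := by
    intro B'
    rw [← Finset.sum_smul, ← Finset.sum_mul, ← Complex.ofReal_sum, orth1 M S hS U B B']
    split_ifs <;> simp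
  simp only [h2]
  rw [← Finset.sum_smul]
  simp

include hS in
theorem Skl_rot (k l : Fin 9) (u : F) : S.Skl k l (M.S U u) = M.S U (S.Skl k l u) := by
  unfold Setup.Skl CS.tot CS.bil
  rw [_root_.smul_apply, _root_.smul_apply, map_smul]
  congr 1
  simp only [_root_.sum_apply, map_sum, mul_apply_eq_comp]
  rw [Finset.sum_comm]
  conv_rhs => rw [Finset.sum_comm]
  refine Finset.sum_congr rfl fun α _ => ?_
  have hth : Rot M U (fun A => S.th α A) := by
    intro A v
    rw [hS.hth]
    exact M.S_rotates U α A v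
  have hvec := rot_vec M S hS U (S.g2 k l) α
  symm
  calc ∑ A, M.S U (S.th α A (S.vec (S.g2 k l) A α u)) =
      ∑ A, ∑ B, ∑ C, ((O M U B A * O M U C A : ℝ) : ℂ) •
        S.th α B (S.vec (S.g2 k l) C α (M.S U u)) := by
        refine Finset.sum_congr rfl fun A _ => ?_
        rw [hth A]
        refine Finset.sum_congr rfl fun B _ => ?_
        rw [hvec A, map_sum, Finset.smul_sum]
        refine Finset.sum_congr rfl fun C _ => ?_
        rw [map_smul, smul_smul]
        push_cast
        rfl
    _ = ∑ B, ∑ C, (if B = C then (1 : ℂ) else 0) • S.th α B (S.vec (S.g2 k l) C α (M.S U u)) := by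
        rw [Finset.sum_comm]
        refine Finset.sum_congr rfl fun B _ => ?_
        rw [Finset.sum_comm]
        refine Finset.sum_congr rfl fun C _ => ?_
        rw [← Finset.sum_smul, ← Complex.ofReal_sum, orth2 M S hS U B C]
        split_ifs <;> simp
    _ = _ := by
        refine Finset.sum_congr rfl fun B _ => ?_
        simp

end Alg

end QAct

open QAct in
theorem qAct {N d : ℕ} {F : Type w} [NormedAddCommGroup F] [InnerProductSpace ℂ F]
    (M : BFSS.Model N d F) : QActStmt M := by
  intro S hS U v hv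
  refine ⟨fun m β x => ?_, fun k l x => ?_⟩
  · unfold Setup.Qm Setup.Q
    simp only [map_add, map_smul]
    congr 1
    · congr 1
      · congr 1
        rw [map_sum]
        refine Finset.sum_congr rfl fun i _ => ?_
        simp only [pd_rot M U hv]
        exact rot_sum' M U (rot_vec M S hS U (S.g i) β) _
      · unfold Setup.W
        rw [_root_.smul_apply, _root_.smul_apply, map_smul]
        congr 1
        simp only [_root_.sum_apply, _root_.smul_apply]
        rw [Finset.sum_comm]
        conv_rhs => rw [Finset.sum_comm, map_sum]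
        refine Finset.sum_congr rfl fun i _ => ?_
        rw [Finset.sum_comm]
        conv_rhs => rw [Finset.sum_comm, map_sum]
        refine Finset.sum_congr rfl fun j _ => ?_
        exact rot_sum M S hS U (rot_vec M S hS U (S.g2 i j) β) _ _ (FF_rot M S hS U x i j) _
    · congr 1
      unfold Setup.MM
      simp only [_root_.sum_apply, _root_.smul_apply]
      rw [map_sum]
      refine Finset.sum_congr rfl fun i _ => ?_
      refine rot_sum M S hS U (rot_vec M S hS U (S.g i * S.Gam) β) _ _ (fun A => ?_) _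
      rw [coord M S hS U x i A, Finset.mul_sum]
      exact Finset.sum_congr rfl fun B _ => by ring
  · unfold Setup.J
    simp only [map_add, map_smul]
    congr 1
    · congr 1
      rw [Finset.sum_sub_distrib, Finset.sum_sub_distrib, map_sub]
      congr 1
      · rw [dot_rot M S hS U (fun A => x (k, A)) (fun B => M.act U⁻¹ x (k, B))
          (fun A => coord M S hS U x k A) _ (fun B => M.S U (pd l B v (M.act U⁻¹ x)))
          (fun A => pd_rot M U hv l A x), map_sum]
        simp only [map_smul]
      · rw [dot_rot M S hS U (fun A => x (l, A)) (fun B => M.act U⁻¹ x (l, B))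
          (fun A => coord M S hS U x l A) _ (fun B => M.S U (pd k B v (M.act U⁻¹ x)))
          (fun A => pd_rot M U hv k A x), map_sum]
        simp only [map_smul]
    · exact Skl_rot M S hS U k l _

end Vale.Agent.P353.AN.G
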