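import Vale.Agent.P353.AN.G.Stmt

/-! # P353, all `N`, block G: G29 (comparison of averages) -/

open MeasureTheory Filter Topology
open scoped ContDiff

namespace Vale.Agent.P353.AN.G

open Vale.Agent.P353.Z Vale.Agent.P353.Z.U

universe w

namespace RatP

variable {N d : ℕ} {F : Type w} [NormedAddCommGroup F] [InnerProductSpace ℂ F]
  {M : BFSS.Model N d F}

theorem act_cont (h : ActStmt M) : Continuous fun p : BFSS.SU N × Cfg d => M.act p.1 p.2 :=
  h.2.2.2.2.2.1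

theorem act_inv_cont (h : ActStmt M) :
    Continuous fun p : Cfg d × BFSS.SU N => M.act p.2⁻¹ p.1 := by
  have h1 : Continuous fun p : Cfg d × BFSS.SU N => p.2⁻¹ := continuous_inv.comp continuous_snd
  have h2 := Continuous.comp' (act_cont h) (h1.prodMk continuous_fst)
  exact h2

theorem act_inv_act (h : ActStmt M) (U : BFSS.SU N) (x : Cfg d) : M.act U⁻¹ (M.act U x) = x := by
  rw [← h.1, inv_mul_cancel, h.2.1]

theorem act_act_inv (h : ActStmt M) (U : BFSS.SU N) (x : Cfg d) : M.act U (M.act U⁻¹ x) = x := by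
  rw [← h.1, mul_inv_cancel, h.2.1]

/-- the action as linear isometries -/
noncomputable def actE (h : ActStmt M) (U : BFSS.SU N) : Cfg d ≃ₗᵢ[ℝ] Cfg d where
  toFun := M.act U
  map_add' := h.2.2.1 U
  map_smul' := h.2.2.2.1 U
  invFun := M.act U⁻¹
  left_inv := act_inv_act h U
  right_inv := act_act_inv h U
  norm_map' := h.2.2.2.2.1 U

theorem act_sub (h : ActStmt M) (U : BFSS.SU N) (x y : Cfg d) :
    M.act U (x - y) = M.act U x - M.act U y := (actE h U).map_sub x y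

theorem act_norm (h : ActStmt M) (U : BFSS.SU N) (x : Cfg d) : ‖M.act U x‖ = ‖x‖ :=
  h.2.2.2.2.1 U x

theorem act_dist (h : ActStmt M) (U : BFSS.SU N) (x y : Cfg d) :
    ‖M.act U x - M.act U y‖ = ‖x - y‖ := by rw [← act_sub h, act_norm h]

theorem act_inv_dist (h : ActStmt M) (U : BFSS.SU N) (p : Cfg d) :
    ‖M.act U⁻¹ p - p‖ = ‖M.act U p - p‖ := by
  have h1 := act_dist h U (M.act U⁻¹ p) p
  rw [act_act_inv h] at h1
  rw [← h1, norm_sub_rev]

/-- good functions: measurable, with values in `[0,B]`, supported in `‖x‖ ≤ R` -/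
structure Gd (φ : Cfg d → ℝ) (B R : ℝ) : Prop where
  ms : Measurable φ
  nn : ∀ x, 0 ≤ φ x
  le : ∀ x, φ x ≤ B
  sp : ∀ x, φ x ≠ 0 → ‖x‖ ≤ R

theorem int_of {f : Cfg d → ℝ} (hf : Measurable f) {C R : ℝ} (hC : ∀ x, ‖f x‖ ≤ C)
    (hR : ∀ x, f x ≠ 0 → ‖x‖ ≤ R) : Integrable f := by
  have h1 : IntegrableOn f (Metric.closedBall 0 R) :=
    Measure.integrableOn_of_bounded (M := C) measure_closedBall_lt_top.ne
      hf.aestronglyMeasurable (ae_of_all _ hC)
  rwa [integrableOn_iff_integrable_of_support_subset] at h1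
  intro x hx
  rw [mem_closedBall_zero_iff]
  exact hR x hx

section

variable {φ : Cfg d → ℝ} {B R : ℝ}

theorem Gd.norm (g : Gd φ B R) (x : Cfg d) : ‖φ x‖ ≤ B := by
  rw [Real.norm_of_nonneg (g.nn x)]
  exact g.le x

theorem Gd.mU (g : Gd φ B R) (h : ActStmt M) (x : Cfg d) :
    Measurable fun U : BFSS.SU N => φ (M.act U⁻¹ x) :=
  g.ms.comp ((act_inv_cont h).comp (continuous_const.prodMk continuous_id)).measurable

theorem Gd.iU (g : Gd φ B R) (h : ActStmt M) (x : Cfg d) :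
    Integrable (fun U : BFSS.SU N => φ (M.act U⁻¹ x)) (hm N) :=
  Integrable.of_bound (g.mU h x).aestronglyMeasurable B (ae_of_all _ fun _ => g.norm _)

theorem avs_nonneg (g : Gd φ B R) (x : Cfg d) : 0 ≤ avs M φ x :=
  integral_nonneg fun _ => g.nn _

theorem avs_norm (g : Gd φ B R) (x : Cfg d) : ‖avs M φ x‖ ≤ B := by
  have h1 : ‖avs M φ x‖ ≤ B * (hm N).real Set.univ :=
    norm_integral_le_of_norm_le_const (ae_of_all _ fun _ => g.norm _)
  rwa [probReal_univ, mul_one] at h1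

theorem avs_sp (g : Gd φ B R) (h : ActStmt M) (x : Cfg d) (hx : avs M φ x ≠ 0) : ‖x‖ ≤ R := by
  by_contra hR
  apply hx
  unfold avs
  have h1 : ∀ U : BFSS.SU N, φ (M.act U⁻¹ x) = 0 := by
    intro U
    by_contra h2
    have h3 := g.sp _ h2
    rw [act_norm h] at h3
    exact hR h3
  simp only [h1, integral_zero]

theorem avs_meas (g : Gd φ B R) (h : ActStmt M) : Measurable (avs M φ) := by
  have h1 : StronglyMeasurable fun p : Cfg d × BFSS.SU N => φ (M.act p.2⁻¹ p.1) :=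
    (g.ms.comp (act_inv_cont h).measurable).stronglyMeasurable
  exact (h1.integral_prod_right (ν := hm N)).measurable

theorem avs_inv (h : ActStmt M) (φ : Cfg d → ℝ) (V : BFSS.SU N) (x : Cfg d) :
    avs M φ (M.act V x) = avs M φ x := by
  have h1 := integral_mul_left_eq_self (μ := hm N) (fun U => φ (M.act U⁻¹ x)) V⁻¹
  unfold avs
  rw [← h1]
  refine integral_congr_ae (ae_of_all _ fun U => ?_)
  show φ (M.act U⁻¹ (M.act V x)) = φ (M.act (V⁻¹ * U)⁻¹ x)
  rw [mul_inv_rev, inv_inv, h.1]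

theorem avs_sq_int (g : Gd φ B R) (h : ActStmt M) : Integrable fun x => avs M φ x ^ 2 := by
  refine int_of ((avs_meas g h).pow_const 2) (C := B ^ 2) (R := R) (fun x => ?_) fun x hx => ?_
  · rw [norm_pow]
    exact pow_le_pow_left₀ (norm_nonneg _) (avs_norm g x) 2
  · exact avs_sp g h x fun h0 => hx (by rw [h0]; ring)

theorem avs_mul_int (g : Gd φ B R) (h : ActStmt M) : Integrable fun x => φ x * avs M φ x := by
  refine int_of (g.ms.mul (avs_meas g h)) (C := B * B) (R := R) (fun x => ?_) fun x hx => ?_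
  · rw [norm_mul]
    exact mul_le_mul (g.norm x) (avs_norm g x) (norm_nonneg _) ((norm_nonneg _).trans (g.norm x))
  · exact g.sp x fun h0 => hx (by rw [h0, zero_mul])

theorem avs_sq (g : Gd φ B R) (h : ActStmt M) :
    (∫ x, avs M φ x ^ 2) = ∫ x, φ x * avs M φ x := by
  have h1 : Integrable (Function.uncurry fun (x : Cfg d) (U : BFSS.SU N) =>
      φ (M.act U⁻¹ x) * avs M φ x) (volume.prod (hm N)) := by
    have hm1 : Measurable (Function.uncurry fun (x : Cfg d) (U : BFSS.SU N) =>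
        φ (M.act U⁻¹ x) * avs M φ x) :=
      (g.ms.comp (act_inv_cont h).measurable).mul ((avs_meas g h).comp measurable_fst)
    have h2 : IntegrableOn (Function.uncurry fun (x : Cfg d) (U : BFSS.SU N) =>
        φ (M.act U⁻¹ x) * avs M φ x) (Metric.closedBall 0 R ×ˢ Set.univ)
        (volume.prod (hm N)) := by
      refine Measure.integrableOn_of_bounded (M := B * B) ?_ hm1.aestronglyMeasurable
        (ae_of_all _ fun p => ?_)
      · rw [Measure.prod_prod, measure_univ, mul_one]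
        exact measure_closedBall_lt_top.ne
      · show ‖φ (M.act p.2⁻¹ p.1) * avs M φ p.1‖ ≤ B * B
        rw [norm_mul]
        exact mul_le_mul (g.norm _) (avs_norm g _) (norm_nonneg _)
          ((norm_nonneg _).trans (g.norm p.1))
    rwa [integrableOn_iff_integrable_of_support_subset] at h2
    rintro ⟨x, U⟩ hx
    refine ⟨?_, Set.mem_univ _⟩
    rw [mem_closedBall_zero_iff]
    have hx' : φ (M.act U⁻¹ x) * avs M φ x ≠ 0 := hx
    exact avs_sp g h x (right_ne_zero_of_mul hx')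
  calc (∫ x, avs M φ x ^ 2) = ∫ x, ∫ U, φ (M.act U⁻¹ x) * avs M φ x ∂(hm N) := by
        refine integral_congr_ae (ae_of_all _ fun x => ?_)
        show avs M φ x ^ 2 = ∫ U, φ (M.act U⁻¹ x) * avs M φ x ∂(hm N)
        rw [integral_mul_const, sq]
        rfl
    _ = ∫ U, (∫ x, φ (M.act U⁻¹ x) * avs M φ x) ∂(hm N) := integral_integral_swap h1
    _ = ∫ _U, (∫ x, φ x * avs M φ x) ∂(hm N) := by
        refine integral_congr_ae (ae_of_all _ fun U => ?_)
        show (∫ x, φ (M.act U⁻¹ x) * avs M φ x) = ∫ x, φ x * avs M φ x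
        have h2 := (actE h U⁻¹).measurePreserving.integral_comp
          (actE h U⁻¹).toHomeomorph.measurableEmbedding (fun x => φ x * avs M φ x)
        rw [← h2]
        refine integral_congr_ae (ae_of_all _ fun x => ?_)
        show φ (M.act U⁻¹ x) * avs M φ x = φ (M.act U⁻¹ x) * avs M φ (M.act U⁻¹ x)
        rw [avs_inv h]
    _ = ∫ x, φ x * avs M φ x := by
        rw [integral_const, probReal_univ, one_smul]

end

section

variable {ξ : Cfg d} {K : Cfg d →L[ℝ] Cfg d} {m L : ℝ}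

theorem om_le (hm0 : 0 < m) {x : Cfg d} {c : ℝ} : ‖om m ξ x‖ ≤ c ↔ ‖x - m • ξ‖ ≤ c / √m := by
  unfold om
  rw [norm_smul, Real.norm_of_nonneg (Real.sqrt_nonneg m), le_div_iff₀ (Real.sqrt_pos.2 hm0),
    mul_comm]

theorem om_cont : Continuous (om m ξ) := by
  unfold om
  fun_prop

theorem qK_cont : Continuous (qK m ξ K) := by
  unfold qK
  exact (om_cont (m := m) (ξ := ξ)).inner (K.continuous.comp om_cont)

theorem ph2_meas : Measurable (ph2 m L ξ K) := by
  unfold ph2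
  refine Measurable.ite ?_ ?_ measurable_const
  · exact measurableSet_le (om_cont (m := m) (ξ := ξ)).norm.measurable measurable_const
  · exact (Real.continuous_exp.comp (continuous_const.mul qK_cont)).measurable

theorem ph2_of (x : Cfg d) (hx : ‖om m ξ x‖ ≤ 2 * L) :
    ph2 m L ξ K x = Real.exp (-(1 / 2) * qK m ξ K x) := by
  unfold ph2
  rw [if_pos hx]

theorem ph2_ne (x : Cfg d) (hx : ph2 m L ξ K x ≠ 0) : ‖om m ξ x‖ ≤ 2 * L := by
  by_contra h
  apply hx
  unfold ph2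
  rw [if_neg h]

theorem ph2_nn (x : Cfg d) : 0 ≤ ph2 m L ξ K x := by
  unfold ph2
  split_ifs
  · positivity
  · exact le_rfl

theorem ph2_le (hK : ∀ x, 0 ≤ inner ℝ x (K x)) (x : Cfg d) : ph2 m L ξ K x ≤ 1 := by
  unfold ph2
  split_ifs
  · rw [Real.exp_le_one_iff]
    have := hK (om m ξ x)
    unfold qK
    linarith
  · exact zero_le_one

theorem sp_of (hm0 : 0 < m) {x : Cfg d} (hx : ‖om m ξ x‖ ≤ 2 * L) :
    ‖x‖ ≤ 2 * L / √m + ‖m • ξ‖ := by
  rw [om_le hm0] at hx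
  have h1 := norm_add_le (x - m • ξ) (m • ξ)
  rw [sub_add_cancel] at h1
  linarith

theorem gd2 (hK : ∀ x, 0 ≤ inner ℝ x (K x)) (hm0 : 0 < m) :
    Gd (ph2 m L ξ K) 1 (2 * L / √m + ‖m • ξ‖) :=
  ⟨ph2_meas, ph2_nn, ph2_le hK, fun x hx => sp_of hm0 (ph2_ne x hx)⟩

theorem gd1 (h18 : TvTstStmt d F) (hK : ∀ x, 0 ≤ inner ℝ x (K x)) (hm0 : 0 < m) (hL : 0 < L) :
    Gd (ph m L ξ K) 1 (2 * L / √m + ‖m • ξ‖) := by
  obtain ⟨-, h1, -, h2, -, h3⟩ := h18 ξ K m L hm0 hL
  exact ⟨h1.continuous.measurable, fun x => (h2 x).1, fun x => (h2 x).2.trans (ph2_le hK x),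
    fun x hx => sp_of hm0 (h3 x hx)⟩

theorem muSet_meas (h : ActStmt M) (p : Cfg d) (r : ℝ) :
    MeasurableSet {U : BFSS.SU N | ‖M.act U p - p‖ ≤ r} := by
  have h1 : Continuous fun U : BFSS.SU N => M.act U p := by
    have h2 := Continuous.comp' (act_cont h)
      ((continuous_id (X := BFSS.SU N)).prodMk (continuous_const (y := p)))
    exact h2
  exact (isClosed_le (h1.sub continuous_const).norm continuous_const).measurableSet

/-- near constancy -/
def NC (M : BFSS.Model N d F) (ξ : Cfg d) (K : Cfg d →L[ℝ] Cfg d) (m L : ℝ) : Prop :=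
  ∀ U x, ‖om m ξ x‖ ≤ 2 * L → ‖om m ξ (M.act U x)‖ ≤ 2 * L →
    |qK m ξ K (M.act U x) - qK m ξ K x| ≤ 2

theorem up (h : ActStmt M) (hK : ∀ x, 0 ≤ inner ℝ x (K x)) (hm0 : 0 < m)
    (hn : NC M ξ K m L) (x : Cfg d) :
    ph2 m L ξ K x * avs M (ph2 m L ξ K) x ≤
      Real.exp 1 * mu M (m • ξ) (2 * (2 * L / √m)) * ph2 m L ξ K x ^ 2 := by
  by_cases hx : ph2 m L ξ K x = 0
  · rw [hx]; simp
  have hx1 := ph2_ne x hx
  have hx2 := (om_le hm0).1 hx1
  have key : avs M (ph2 m L ξ K) x ≤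
      mu M (m • ξ) (2 * (2 * L / √m)) * (Real.exp 1 * ph2 m L ξ K x) := by
    have h1 := integral_indicator_const (μ := hm N) (Real.exp 1 * ph2 m L ξ K x)
      (muSet_meas h (m • ξ) (2 * (2 * L / √m)))
    rw [smul_eq_mul] at h1
    unfold mu
    rw [← h1]
    refine integral_mono ((gd2 hK hm0).iU h x)
      ((integrable_const _).indicator (muSet_meas h _ _)) fun U => ?_
    show ph2 m L ξ K (M.act U⁻¹ x) ≤ _
    have he : 0 ≤ Real.exp 1 * ph2 m L ξ K x := mul_nonneg (Real.exp_pos 1).le (ph2_nn x)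
    by_cases hU : ph2 m L ξ K (M.act U⁻¹ x) = 0
    · rw [hU]
      exact Set.indicator_nonneg (fun _ _ => he) U
    have hU1 := ph2_ne _ hU
    have hU2 := (om_le hm0).1 hU1
    have hmem : U ∈ {U : BFSS.SU N | ‖M.act U (m • ξ) - m • ξ‖ ≤ 2 * (2 * L / √m)} := by
      have h3 := act_dist h U (m • ξ) (M.act U⁻¹ x)
      rw [act_act_inv h, norm_sub_rev (m • ξ)] at h3
      have h4 := norm_sub_le_norm_sub_add_norm_sub (M.act U (m • ξ)) x (m • ξ)
      show ‖M.act U (m • ξ) - m • ξ‖ ≤ 2 * (2 * L / √m)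
      linarith
    rw [Set.indicator_of_mem hmem, ph2_of _ hU1, ph2_of _ hx1, ← Real.exp_add, Real.exp_le_exp]
    have h5 := (abs_le.1 (hn U⁻¹ x hx1 hU1)).1
    linarith
  calc ph2 m L ξ K x * avs M (ph2 m L ξ K) x ≤ ph2 m L ξ K x *
      (mu M (m • ξ) (2 * (2 * L / √m)) * (Real.exp 1 * ph2 m L ξ K x)) :=
        mul_le_mul_of_nonneg_left key (ph2_nn x)
    _ = _ := by ring

theorem low (h18 : TvTstStmt d F) (h : ActStmt M) (hK : ∀ x, 0 ≤ inner ℝ x (K x)) (hm0 : 0 < m)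
    (hL : 0 < L) (hn : NC M ξ K m L) (x : Cfg d) :
    Real.exp (-1) * mu M (m • ξ) (2 * L / √m / 4) *
      (if ‖om m ξ x‖ ≤ L / 2 then ph2 m L ξ K x ^ 2 else 0) ≤
      ph m L ξ K x * avs M (ph m L ξ K) x := by
  have g1 := gd1 (ξ := ξ) (K := K) h18 hK hm0 hL
  obtain ⟨-, -, -, -, h2, -⟩ := h18 ξ K m L hm0 hL
  split_ifs with hx
  swap
  · rw [mul_zero]
    exact mul_nonneg (g1.nn x) (avs_nonneg g1 x)
  have hx1 : ‖om m ξ x‖ ≤ 2 * L := by linarith
  have hx2 := (om_le hm0).1 hx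
  have key : mu M (m • ξ) (2 * L / √m / 4) * (Real.exp (-1) * ph2 m L ξ K x) ≤
      avs M (ph m L ξ K) x := by
    have h1 := integral_indicator_const (μ := hm N) (Real.exp (-1) * ph2 m L ξ K x)
      (muSet_meas h (m • ξ) (2 * L / √m / 4))
    rw [smul_eq_mul] at h1
    unfold mu
    rw [← h1]
    refine integral_mono ((integrable_const _).indicator (muSet_meas h _ _)) (g1.iU h x)
      fun U => ?_
    show _ ≤ ph m L ξ K (M.act U⁻¹ x)
    by_cases hmem : U ∈ {U : BFSS.SU N | ‖M.act U (m • ξ) - m • ξ‖ ≤ 2 * L / √m / 4}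
    swap
    · rw [Set.indicator_of_notMem hmem]
      exact g1.nn _
    have h3 : ‖M.act U⁻¹ (m • ξ) - m • ξ‖ ≤ 2 * L / √m / 4 := by
      rw [act_inv_dist h]
      exact hmem
    have h4 : ‖M.act U⁻¹ x - m • ξ‖ ≤ L / √m := by
      have h5 := norm_sub_le_norm_sub_add_norm_sub (M.act U⁻¹ x) (M.act U⁻¹ (m • ξ)) (m • ξ)
      rw [act_dist h] at h5
      have h6 : L / 2 / √m + 2 * L / √m / 4 = L / √m := by ring
      linarith
    have h7 : ‖om m ξ (M.act U⁻¹ x)‖ ≤ L := (om_le hm0).2 h4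
    have h8 : ‖om m ξ (M.act U⁻¹ x)‖ ≤ 2 * L := by linarith
    rw [Set.indicator_of_mem hmem, h2 _ h7, ph2_of _ h8, ph2_of _ hx1, ← Real.exp_add,
      Real.exp_le_exp]
    have h5 := (abs_le.1 (hn U⁻¹ x hx1 h8)).2
    linarith
  have h9 : ph m L ξ K x = ph2 m L ξ K x := h2 x (by linarith)
  rw [h9]
  calc Real.exp (-1) * mu M (m • ξ) (2 * L / √m / 4) * ph2 m L ξ K x ^ 2 = ph2 m L ξ K x *
      (mu M (m • ξ) (2 * L / √m / 4) * (Real.exp (-1) * ph2 m L ξ K x)) := by ring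
    _ ≤ _ := mul_le_mul_of_nonneg_left key (ph2_nn x)

/-- the restricted square -/
noncomputable def qs (m L : ℝ) (ξ : Cfg d) (K : Cfg d →L[ℝ] Cfg d) (x : Cfg d) : ℝ :=
  if ‖om m ξ x‖ ≤ L / 2 then ph2 m L ξ K x ^ 2 else 0

theorem qs_nn (x : Cfg d) : 0 ≤ qs m L ξ K x := by
  unfold qs
  split_ifs
  · positivity
  · exact le_rfl

theorem qs_int (hK : ∀ x, 0 ≤ inner ℝ x (K x)) (hm0 : 0 < m) (hL : 0 < L) :
    Integrable (qs m L ξ K) := by
  refine int_of (C := 1) (R := 2 * L / √m + ‖m • ξ‖) ?_ (fun x => ?_) fun x hx => ?_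
  · unfold qs
    refine Measurable.ite ?_ (ph2_meas.pow_const 2) measurable_const
    exact measurableSet_le (om_cont (m := m) (ξ := ξ)).norm.measurable measurable_const
  · rw [Real.norm_of_nonneg (qs_nn x)]
    unfold qs
    split_ifs
    · exact pow_le_one₀ (ph2_nn x) (ph2_le hK x)
    · exact zero_le_one
  · refine sp_of hm0 ?_
    by_contra h1
    apply hx
    unfold qs
    rw [if_neg]
    intro h2
    exact h1 (by linarith)

theorem ph2_sq_int (hK : ∀ x, 0 ≤ inner ℝ x (K x)) (hm0 : 0 < m) :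
    Integrable fun x => ph2 m L ξ K x ^ 2 := by
  refine int_of (C := 1) (R := 2 * L / √m + ‖m • ξ‖) (ph2_meas.pow_const 2) (fun x => ?_)
    fun x hx => ?_
  · rw [norm_pow, Real.norm_of_nonneg (ph2_nn x)]
    exact pow_le_one₀ (ph2_nn x) (ph2_le hK x)
  · exact sp_of hm0 (ph2_ne x fun h0 => hx (by rw [h0]; ring))

theorem qs_pos (hK : ∀ x, 0 ≤ inner ℝ x (K x)) (hm0 : 0 < m) (hL : 0 < L) :
    0 < ∫ x, qs m L ξ K x := by
  rw [integral_pos_iff_support_of_nonneg (fun x => qs_nn x) (qs_int hK hm0 hL)]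
  have h1 : 0 < L / 2 / √m := div_pos (by linarith) (Real.sqrt_pos.2 hm0)
  refine lt_of_lt_of_le (Metric.measure_ball_pos volume (m • ξ) h1) (measure_mono fun x hx => ?_)
  have h2 : ‖om m ξ x‖ ≤ L / 2 := by
    rw [om_le hm0, ← dist_eq_norm]
    exact (Metric.mem_ball.1 hx).le
  have h3 : ‖om m ξ x‖ ≤ 2 * L := by linarith
  show qs m L ξ K x ≠ 0
  unfold qs
  rw [if_pos h2, ph2_of x h3]
  positivity

end

end RatP

open RatP in
theorem rat {N d : ℕ} {F : Type w} [NormedAddCommGroup F] [InnerProductSpace ℂ F]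
    (M : BFSS.Model N d F) (h18 : TvTstStmt d F) (h21 : GRatStmt d) (h22 : ActStmt M)
    (h28 : DblStmt M) : RatStmt M := by
  intro ξ K hK m L hm0 hL hn
  have g1 := gd1 (ξ := ξ) (K := K) h18 hK hm0 hL
  have g2 := gd2 (L := L) (ξ := ξ) hK hm0
  have hr : 0 < 2 * L / √m := div_pos (by linarith) (Real.sqrt_pos.2 hm0)
  obtain ⟨-, hd⟩ := h28 (m • ξ) (2 * L / √m) hr
  have hmu : 0 < mu M (m • ξ) (2 * L / √m / 4) := (h28 (m • ξ) (2 * L / √m / 4) (by linarith)).1
  have hJ := qs_pos (ξ := ξ) hK hm0 hL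
  have hlow : Real.exp (-1) * mu M (m • ξ) (2 * L / √m / 4) * ∫ x, qs m L ξ K x ≤
      ∫ x, avs M (ph m L ξ K) x ^ 2 := by
    rw [avs_sq g1 h22, ← integral_const_mul]
    exact integral_mono ((qs_int hK hm0 hL).const_mul _) (avs_mul_int g1 h22)
      fun x => low h18 h22 hK hm0 hL hn x
  have hup : (∫ x, avs M (ph2 m L ξ K) x ^ 2) ≤
      Real.exp 1 * mu M (m • ξ) (2 * (2 * L / √m)) * ∫ x, ph2 m L ξ K x ^ 2 := by
    rw [avs_sq g2 h22, ← integral_const_mul]
    exact integral_mono (avs_mul_int g2 h22) ((ph2_sq_int hK hm0).const_mul _)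
      fun x => up h22 hK hm0 hn x
  have h21' : (∫ x, ph2 m L ξ K x ^ 2) ≤ 4 ^ (9 * d) * ∫ x, qs m L ξ K x :=
    h21 ξ K hK m L hm0 hL
  refine ⟨avs_sq_int g1 h22, avs_sq_int g2 h22, lt_of_lt_of_le ?_ hlow, ?_⟩
  · exact mul_pos (mul_pos (Real.exp_pos _) hmu) hJ
  · have e1 : Real.exp 1 = Real.exp 2 * Real.exp (-1) := by
      rw [← Real.exp_add]; norm_num
    have e2 : (68 : ℝ) ^ (9 * d) = 17 ^ (9 * d) * 4 ^ (9 * d) := by
      rw [← mul_pow]; norm_num
    calc (∫ x, avs M (ph2 m L ξ K) x ^ 2)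
        ≤ Real.exp 1 * mu M (m • ξ) (2 * (2 * L / √m)) * ∫ x, ph2 m L ξ K x ^ 2 := hup
      _ ≤ Real.exp 1 * (17 ^ (9 * d) * mu M (m • ξ) (2 * L / √m / 4)) *
          (4 ^ (9 * d) * ∫ x, qs m L ξ K x) := by
          refine mul_le_mul (mul_le_mul_of_nonneg_left hd (Real.exp_pos 1).le) h21'
            (integral_nonneg fun x => by positivity) ?_
          exact mul_nonneg (Real.exp_pos 1).le (mul_nonneg (by positivity) hmu.le)
      _ = Real.exp 2 * 68 ^ (9 * d) *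
          (Real.exp (-1) * mu M (m • ξ) (2 * L / √m / 4) * ∫ x, qs m L ξ K x) := by
          rw [e1, e2]; ring
      _ ≤ _ := mul_le_mul_of_nonneg_left hlow (by positivity)

end Vale.Agent.P353.AN.G
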