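import Vale.Agent.P353.AN.G.Stmt

/-! # P353, all `N`, block G: G05 (angular momentum triples for all partitions) -/

namespace Vale.Agent.P353.AN.G.RepAux

open Matrix Finset Polynomial

/-- ladder relations -/
structure Lad {m : Type*} [Fintype m] (z p : Matrix m m ℂ) : Prop where
  hz : z.conjTranspose = z
  c1 : p * p.conjTranspose - p.conjTranspose * p = (2 : ℂ) • z
  c2 : z * p - p * z = p

noncomputable def sz (n : ℕ) : Matrix (Fin n) (Fin n) ℂ :=
  Matrix.diagonal fun k => ((n : ℂ) - 1) / 2 - (k.val : ℂ)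

noncomputable def sp (n : ℕ) : Matrix (Fin n) (Fin n) ℂ := fun a b =>
  if a.val + 1 = b.val then
    ((Real.sqrt (((a.val : ℝ) + 1) * ((n : ℝ) - 1 - a.val)) : ℝ) : ℂ) else 0

lemma sp_sq (n : ℕ) (a : Fin n) :
    ((Real.sqrt (((a.val : ℝ) + 1) * ((n : ℝ) - 1 - a.val)) : ℝ) : ℂ) *
      ((Real.sqrt (((a.val : ℝ) + 1) * ((n : ℝ) - 1 - a.val)) : ℝ) : ℂ) =
      ((a.val : ℂ) + 1) * ((n : ℂ) - 1 - a.val) := by
  rw [← Complex.ofReal_mul, Real.mul_self_sqrt]
  · push_cast; ring
  · have h1 : (a.val : ℝ) + 1 ≤ n := by exact_mod_cast a.2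
    have h2 : (0 : ℝ) ≤ a.val := by positivity
    apply mul_nonneg <;> linarith

lemma sp_mul (n : ℕ) : sp n * (sp n).conjTranspose =
    Matrix.diagonal fun a => ((a.val : ℂ) + 1) * ((n : ℂ) - 1 - a.val) := by
  ext a b
  rw [Matrix.mul_apply, Matrix.diagonal_apply]
  simp only [Matrix.conjTranspose_apply, sp]
  by_cases hab : a = b
  · subst hab
    rw [if_pos rfl]
    by_cases h : a.val + 1 < n
    · rw [Finset.sum_eq_single (⟨a.val + 1, h⟩ : Fin n)]
      · rw [if_pos rfl, Complex.star_def, Complex.conj_ofReal, sp_sq]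
      · intro c _ hc
        have : ¬ (a.val + 1 = c.val) := fun h' => hc (Fin.ext h'.symm)
        rw [if_neg this, zero_mul]
      · intro h'; exact absurd (Finset.mem_univ _) h'
    · have hn : a.val + 1 = n := by have := a.2; omega
      rw [Finset.sum_eq_zero]
      · have : (n : ℂ) = (a.val : ℂ) + 1 := by exact_mod_cast hn.symm
        rw [this]; ring
      · intro c _
        have : ¬ (a.val + 1 = c.val) := by have := c.2; omega
        rw [if_neg this, zero_mul]
  · rw [if_neg hab]
    refine Finset.sum_eq_zero fun c _ => ?_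
    by_cases h1 : a.val + 1 = c.val
    · have h2 : ¬ (b.val + 1 = c.val) := fun h' => hab (Fin.ext (by omega))
      rw [if_neg h2, star_zero, mul_zero]
    · rw [if_neg h1, zero_mul]

lemma spH_mul (n : ℕ) : (sp n).conjTranspose * sp n =
    Matrix.diagonal fun a => (a.val : ℂ) * ((n : ℂ) - a.val) := by
  ext a b
  rw [Matrix.mul_apply, Matrix.diagonal_apply]
  simp only [Matrix.conjTranspose_apply, sp]
  by_cases hab : a = b
  · subst hab
    rw [if_pos rfl]
    by_cases h : 0 < a.val
    · have hlt : a.val - 1 < n := by have := a.2; omega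
      rw [Finset.sum_eq_single (⟨a.val - 1, hlt⟩ : Fin n)]
      · have h1 : (⟨a.val - 1, hlt⟩ : Fin n).val + 1 = a.val := by simp; omega
        rw [if_pos h1, Complex.star_def, Complex.conj_ofReal, sp_sq]
        have h2 : (((⟨a.val - 1, hlt⟩ : Fin n).val : ℕ) : ℂ) = (a.val : ℂ) - 1 := by
          have : (((⟨a.val - 1, hlt⟩ : Fin n).val + 1 : ℕ) : ℂ) = (a.val : ℂ) := by rw [h1]
          push_cast at this
          rw [← this]; ring
        rw [h2]; ring
      · intro c _ hc
        have : ¬ (c.val + 1 = a.val) := fun h' => hc (Fin.ext (by simp; omega))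
        rw [if_neg this, mul_zero]
      · intro h'; exact absurd (Finset.mem_univ _) h'
    · have hn : a.val = 0 := by omega
      rw [Finset.sum_eq_zero]
      · rw [hn]; simp
      · intro c _
        have : ¬ (c.val + 1 = a.val) := by omega
        rw [if_neg this, mul_zero]
  · rw [if_neg hab]
    refine Finset.sum_eq_zero fun c _ => ?_
    by_cases h1 : c.val + 1 = a.val
    · have h2 : ¬ (c.val + 1 = b.val) := fun h' => hab (Fin.ext (by omega))
      rw [if_neg h2, mul_zero]
    · rw [if_neg h1, star_zero, zero_mul]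

lemma lad_spin (n : ℕ) : Lad (sz n) (sp n) where
  hz := by
    rw [sz, Matrix.diagonal_conjTranspose]
    congr 1
    ext k
    simp
  c1 := by
    rw [sp_mul, spH_mul, sz, Matrix.diagonal_sub, ← Matrix.diagonal_smul]
    congr 1
    ext k
    simp only [Pi.smul_apply, smul_eq_mul]
    ring
  c2 := by
    ext a b
    rw [Matrix.sub_apply, sz, Matrix.diagonal_mul, Matrix.mul_diagonal]
    unfold sp
    split_ifs with h
    · have : (b.val : ℂ) = (a.val : ℂ) + 1 := by exact_mod_cast h.symm
      rw [this]; ring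
    · ring

lemma Lad.block {ι : Type*} [Fintype ι] [DecidableEq ι] (n : ι → ℕ) :
    Lad (Matrix.blockDiagonal' fun i => sz (n i)) (Matrix.blockDiagonal' fun i => sp (n i)) where
  hz := by
    rw [Matrix.blockDiagonal'_conjTranspose]
    congr 1
    ext1 i
    exact (lad_spin (n i)).hz
  c1 := by
    rw [Matrix.blockDiagonal'_conjTranspose, ← Matrix.blockDiagonal'_mul,
      ← Matrix.blockDiagonal'_mul, ← Matrix.blockDiagonal'_sub, ← Matrix.blockDiagonal'_smul]
    congr 1
    ext1 i
    exact (lad_spin (n i)).c1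
  c2 := by
    rw [← Matrix.blockDiagonal'_mul, ← Matrix.blockDiagonal'_mul, ← Matrix.blockDiagonal'_sub]
    congr 1
    ext1 i
    exact (lad_spin (n i)).c2

lemma Lad.reindex {m m' : Type*} [Fintype m] [Fintype m'] (e : m ≃ m')
    {z p : Matrix m m ℂ} (h : Lad z p) : Lad (Matrix.reindex e e z) (Matrix.reindex e e p) where
  hz := by
    rw [Matrix.conjTranspose_reindex, h.hz]
  c1 := by
    rw [Matrix.conjTranspose_reindex]
    simp only [Matrix.reindex_apply]
    rw [Matrix.submatrix_mul_equiv, Matrix.submatrix_mul_equiv]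
    exact congrArg (fun M : Matrix m m ℂ => M.submatrix e.symm e.symm) h.c1
  c2 := by
    simp only [Matrix.reindex_apply]
    rw [Matrix.submatrix_mul_equiv, Matrix.submatrix_mul_equiv]
    exact congrArg (fun M : Matrix m m ℂ => M.submatrix e.symm e.symm) h.c2

/-- the triple of a ladder pair -/
noncomputable def tri {m : Type*} [Fintype m] (z p : Matrix m m ℂ) : Fin 3 → Matrix m m ℂ :=
  ![(1 / 2 : ℂ) • (p + p.conjTranspose), (-(Complex.I / 2)) • (p - p.conjTranspose), z]

open Vale.Agent.P353.Z.U in
lemma Lad.jt {N : ℕ} {z p : Matrix (Fin N) (Fin N) ℂ} (h : Lad z p) : Cnt.JT (tri z p) := by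
  have hc3 : z * p.conjTranspose - p.conjTranspose * z = -p.conjTranspose := by
    have := congrArg Matrix.conjTranspose h.c2
    rw [Matrix.conjTranspose_sub, Matrix.conjTranspose_mul, Matrix.conjTranspose_mul, h.hz] at this
    rw [← neg_sub, this]
  have e1 : z * p = p * z + p := by rw [← sub_eq_iff_eq_add', h.c2]
  have e2 : z * p.conjTranspose = p.conjTranspose * z - p.conjTranspose := by
    rw [sub_eq_add_neg, ← sub_eq_iff_eq_add', hc3]
  have e3 : p * p.conjTranspose = p.conjTranspose * p + (2 : ℂ) • z := by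
    rw [← sub_eq_iff_eq_add', h.c1]
  constructor
  · intro k
    fin_cases k
    · show ((1 / 2 : ℂ) • (p + p.conjTranspose)).conjTranspose = (1 / 2 : ℂ) • (p + p.conjTranspose)
      rw [Matrix.conjTranspose_smul, Matrix.conjTranspose_add, Matrix.conjTranspose_conjTranspose,
        add_comm]
      simp
    · show ((-(Complex.I / 2)) • (p - p.conjTranspose)).conjTranspose =
        (-(Complex.I / 2)) • (p - p.conjTranspose)
      rw [Matrix.conjTranspose_smul, Matrix.conjTranspose_sub, Matrix.conjTranspose_conjTranspose]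
      have : star (-(Complex.I / 2)) = Complex.I / 2 := by
        simp only [Complex.star_def, map_neg, map_div₀, Complex.conj_I, map_ofNat]
        ring
      rw [this]
      module
    · exact h.hz
  · intro k
    fin_cases k
    · show ((-(Complex.I / 2)) • (p - p.conjTranspose)) * z -
        z * ((-(Complex.I / 2)) • (p - p.conjTranspose)) =
        Complex.I • ((1 / 2 : ℂ) • (p + p.conjTranspose))
      rw [Matrix.smul_mul, Matrix.mul_smul, Matrix.sub_mul, Matrix.mul_sub, e1, e2]
      module
    · show z * ((1 / 2 : ℂ) • (p + p.conjTranspose)) - ((1 / 2 : ℂ) • (p + p.conjTranspose)) * z =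
        Complex.I • ((-(Complex.I / 2)) • (p - p.conjTranspose))
      rw [Matrix.smul_mul, Matrix.mul_smul, Matrix.add_mul, Matrix.mul_add, e1, e2, smul_smul]
      have : Complex.I * (-(Complex.I / 2)) = 1 / 2 := by
        have := Complex.I_mul_I
        linear_combination (-1 / 2 : ℂ) * this
      rw [this]
      module
    · show ((1 / 2 : ℂ) • (p + p.conjTranspose)) * ((-(Complex.I / 2)) • (p - p.conjTranspose)) -
        ((-(Complex.I / 2)) • (p - p.conjTranspose)) * ((1 / 2 : ℂ) • (p + p.conjTranspose)) =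
        Complex.I • z
      simp only [Matrix.smul_mul, Matrix.mul_smul, Matrix.add_mul, Matrix.mul_add, Matrix.sub_mul,
        Matrix.mul_sub, e3]
      module

/-- number of weights `s/2` in the spin of dimension `n` -/
def gs (s n : ℕ) : ℕ := ((Finset.range n).filter fun k => s + 1 + 2 * k = n).card

open Classical in
lemma gs_eq (s n : ℕ) : gs s n = gs (s + 2) n + if n = s + 1 then 1 else 0 := by
  have h0 : ∀ s n : ℕ, gs s n = if ∃ k, s + 1 + 2 * k = n then 1 else 0 := by
    intro s n
    unfold gs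
    split_ifs with h
    · obtain ⟨k, hk⟩ := h
      rw [Finset.card_eq_one]
      refine ⟨k, ?_⟩
      ext j
      simp only [Finset.mem_filter, Finset.mem_range, Finset.mem_singleton]
      omega
    · rw [Finset.card_eq_zero, Finset.filter_eq_empty_iff]
      intro k _ hk
      exact h ⟨k, hk⟩
  rw [h0, h0]
  by_cases h1 : n = s + 1
  · rw [if_pos h1, if_pos ⟨0, by omega⟩, if_neg]
    rintro ⟨k, hk⟩
    omega
  · rw [if_neg h1, add_zero]
    by_cases h2 : ∃ k, s + 1 + 2 * k = n
    · rw [if_pos h2, if_pos]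
      obtain ⟨k, hk⟩ := h2
      exact ⟨k - 1, by omega⟩
    · rw [if_neg h2, if_neg]
      rintro ⟨k, hk⟩
      exact h2 ⟨k + 1, by omega⟩

lemma parts_eq {P P' : Multiset ℕ} (h0 : 0 ∉ P) (h0' : 0 ∉ P')
    (h : ∀ s, (P.map (gs s)).sum = (P'.map (gs s)).sum) : P = P' := by
  have key : ∀ (Q : Multiset ℕ) (s : ℕ),
      (Q.map (gs s)).sum = (Q.map (gs (s + 2))).sum + Q.count (s + 1) := by
    intro Q s
    induction Q using Multiset.induction_on with
    | empty => simp
    | cons a Q ih =>
      rw [Multiset.map_cons, Multiset.sum_cons, Multiset.map_cons, Multiset.sum_cons, ih,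
        Multiset.count_cons, gs_eq s a]
      have : (if s + 1 = a then 1 else 0 : ℕ) = if a = s + 1 then 1 else 0 := by
        by_cases h : a = s + 1
        · rw [if_pos h, if_pos h.symm]
        · rw [if_neg h, if_neg (fun h' => h h'.symm)]
      rw [this]
      ring
  ext a
  rcases Nat.eq_zero_or_pos a with rfl | ha
  · rw [Multiset.count_eq_zero_of_notMem h0, Multiset.count_eq_zero_of_notMem h0']
  · obtain ⟨s, rfl⟩ : ∃ s, a = s + 1 := ⟨a - 1, by omega⟩
    have h1 := key P s
    have h2 := key P' s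
    rw [h s, h (s + 2)] at h1
    omega

/-- weights of a list of spins -/
noncomputable def wt (L : List ℕ) (q : Σ i : Fin L.length, Fin (L.get i)) : ℂ :=
  ((L.get q.1 : ℂ) - 1) / 2 - (q.2.val : ℂ)

open Classical in
lemma count_wt (L : List ℕ) (s : ℕ) :
    (Finset.univ.val.map (wt L)).count ((s : ℂ) / 2) = (L.map (gs s)).sum := by
  rw [Multiset.count_map]
  have h1 : (Multiset.filter (fun a => (s : ℂ) / 2 = wt L a) Finset.univ.val).card =
      ∑ q : (Σ i : Fin L.length, Fin (L.get i)), if (s : ℂ) / 2 = wt L q then 1 else 0 := by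
    rw [← Finset.card_filter]
    rfl
  rw [h1, Fintype.sum_sigma]
  have h2 : ∀ i : Fin L.length, (∑ k : Fin (L.get i), if (s : ℂ) / 2 = wt L ⟨i, k⟩ then 1 else 0)
      = gs s (L.get i) := by
    intro i
    rw [gs, Finset.card_filter, ← Fin.sum_univ_eq_sum_range (fun k => if s + 1 + 2 * k = L.get i then 1 else 0)]
    refine Finset.sum_congr rfl fun k _ => ?_
    have : ((s : ℂ) / 2 = wt L ⟨i, k⟩) ↔ s + 1 + 2 * k.val = L.get i := by
      unfold wt
      constructor
      · intro h
        have h' : ((s + 1 + 2 * k.val : ℕ) : ℂ) = ((L.get i : ℕ) : ℂ) := by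
          push_cast
          linear_combination 2 * h
        exact_mod_cast h'
      · intro h
        have h' : ((s + 1 + 2 * k.val : ℕ) : ℂ) = ((L.get i : ℕ) : ℂ) := by rw [h]
        push_cast at h'
        linear_combination (1 / 2 : ℂ) * h'
    by_cases hh : s + 1 + 2 * k.val = L.get i
    · rw [if_pos hh, if_pos (this.2 hh)]
    · rw [if_neg hh, if_neg (fun h => hh (this.1 h))]
  rw [Finset.sum_congr rfl fun i _ => h2 i]
  exact Fin.sum_univ_fun_getElem L (gs s)


lemma charpoly_conj' {N : ℕ} (A U W : Matrix (Fin N) (Fin N) ℂ) (h1 : U * W = 1) (h2 : W * U = 1) :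
    (U * A * W).charpoly = A.charpoly := by
  have h3 : U⁻¹ = W := Matrix.inv_eq_right_inv h1
  have h4 := Matrix.charpoly_units_conj (⟨U, W, h1, h2⟩ : (Matrix (Fin N) (Fin N) ℂ)ˣ) A
  rw [← h3]
  exact h4

lemma sum_toList' (P : Multiset ℕ) (f : ℕ → ℕ) : (P.map f).sum = (P.toList.map f).sum := by
  conv_lhs => rw [← Multiset.coe_toList P]
  rw [Multiset.map_coe, Multiset.sum_coe]

/-- index equivalence -/
noncomputable def ie {N : ℕ} (π : Nat.Partition N) :
    (Σ i : Fin π.parts.toList.length, Fin (π.parts.toList.get i)) ≃ Fin N :=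
  Fintype.equivFinOfCardEq (by
    rw [Fintype.card_sigma]
    simp only [Fintype.card_fin]
    have h1 : ∑ i, π.parts.toList.get i = π.parts.toList.sum :=
      Fin.sum_univ_getElem π.parts.toList
    rw [h1, Multiset.sum_toList, π.parts_sum])

noncomputable def zz {N : ℕ} (π : Nat.Partition N) : Matrix (Fin N) (Fin N) ℂ :=
  Matrix.reindex (ie π) (ie π) (Matrix.blockDiagonal' fun i => sz (π.parts.toList.get i))

noncomputable def pp {N : ℕ} (π : Nat.Partition N) : Matrix (Fin N) (Fin N) ℂ :=
  Matrix.reindex (ie π) (ie π) (Matrix.blockDiagonal' fun i => sp (π.parts.toList.get i))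

lemma zz_charpoly {N : ℕ} (π : Nat.Partition N) :
    (zz π).charpoly.roots = Finset.univ.val.map (wt π.parts.toList) := by
  rw [zz, Matrix.charpoly_reindex]
  have h1 : (Matrix.blockDiagonal' fun i => sz (π.parts.toList.get i)) =
      Matrix.diagonal (wt π.parts.toList) := by
    unfold sz
    rw [Matrix.blockDiagonal'_diagonal]
    rfl
  rw [h1, Matrix.charpoly_diagonal, ← Polynomial.roots_multiset_prod_X_sub_C
    (Finset.univ.val.map (wt π.parts.toList)), Multiset.map_map]
  rfl

end Vale.Agent.P353.AN.G.RepAux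

namespace Vale.Agent.P353.AN.G

open Vale.Agent.P353.Z.U

/-- **G05** -/
theorem rep (N : ℕ) : RepStmt N := by
  refine ⟨fun π => RepAux.tri (RepAux.zz π) (RepAux.pp π), fun π => ?_, fun π π' V h => ?_⟩
  · exact (RepAux.Lad.reindex (RepAux.ie π) (RepAux.Lad.block _)).jt
  · have h2 : RepAux.zz π' = V.val * RepAux.zz π * V.val.conjTranspose := h 2
    have hV := (Matrix.mem_specialUnitaryGroup_iff.1 V.2).1
    have hu1 : V.val * V.val.conjTranspose = 1 := Matrix.mem_unitaryGroup_iff.1 hV
    have hu2 : V.val.conjTranspose * V.val = 1 := Matrix.mem_unitaryGroup_iff'.1 hV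
    have h3 : (RepAux.zz π').charpoly = (RepAux.zz π).charpoly := by
      rw [h2]
      exact RepAux.charpoly_conj' _ _ _ hu1 hu2
    have h4 := congrArg Polynomial.roots h3
    rw [RepAux.zz_charpoly, RepAux.zz_charpoly] at h4
    have h5 : π.parts = π'.parts := by
      refine RepAux.parts_eq (fun h0 => lt_irrefl _ (π.parts_pos h0))
        (fun h0 => lt_irrefl _ (π'.parts_pos h0)) fun s => ?_
      classical
      have e1 := RepAux.count_wt π.parts.toList s
      have e2 := RepAux.count_wt π'.parts.toList s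
      rw [h4] at e2
      have e3 := e1.symm.trans e2
      rw [RepAux.sum_toList', RepAux.sum_toList', e3]
    exact Nat.Partition.ext h5

end Vale.Agent.P353.AN.G
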