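import Vale.Agent.P353.AN.G.Stmt

/-! # P353, all `N`, block G: `SmIntStmt` (smoothness of averages) -/

open MeasureTheory Filter Topology
open scoped ContDiff

namespace Vale.Agent.P353.AN.G

universe w

namespace SmIntAux

section

variable {X E : Type} [TopologicalSpace X] [CompactSpace X] [SecondCountableTopology X]
  [MeasurableSpace X] [BorelSpace X] [NormedAddCommGroup E] [NormedSpace ℝ E]
  [FiniteDimensional ℝ E]

/-- differentiation under the integral over a compact space -/
theorem hasFDerivAt_int {F : Type w} [NormedAddCommGroup F] [NormedSpace ℝ F]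
    (μ : Measure X) [IsFiniteMeasure μ] (G : X → E → F) (G' : X → E → E →L[ℝ] F)
    (hG : Continuous (Function.uncurry G)) (hG' : Continuous (Function.uncurry G'))
    (hd : ∀ a x, HasFDerivAt (G a) (G' a x) x) (x₀ : E) :
    HasFDerivAt (fun x => ∫ a, G a x ∂μ) (∫ a, G' a x₀ ∂μ) x₀ := by
  have hK : IsCompact ((Set.univ : Set X) ×ˢ Metric.closedBall x₀ 1) :=
    isCompact_univ.prod (isCompact_closedBall x₀ 1)
  obtain ⟨C, hC⟩ := hK.exists_bound_of_continuousOn (f := Function.uncurry G') hG'.continuousOn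
  have hm : ∀ x, AEStronglyMeasurable (fun a => G a x) μ := fun x =>
    (hG.comp (continuous_id.prodMk continuous_const)).aestronglyMeasurable
  have hm' : ∀ x, AEStronglyMeasurable (fun a => G' a x) μ := fun x =>
    (hG'.comp (continuous_id.prodMk continuous_const)).aestronglyMeasurable
  have hint : Integrable (fun a => G a x₀) μ := by
    obtain ⟨C₁, hC₁⟩ := (isCompact_univ (X := X)).exists_bound_of_continuousOn
      (f := fun a => G a x₀) (hG.comp (continuous_id.prodMk continuous_const)).continuousOn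
    exact Integrable.of_bound (hm x₀) C₁ (Eventually.of_forall fun a => hC₁ a (Set.mem_univ a))
  refine hasFDerivAt_integral_of_dominated_of_fderiv_le (F := fun x a => G a x)
    (F' := fun x a => G' a x) (s := Metric.closedBall x₀ 1) (bound := fun _ => C)
    (Metric.closedBall_mem_nhds x₀ one_pos) (Eventually.of_forall hm) hint (hm' x₀) ?_
    (integrable_const C) (Eventually.of_forall fun a x _ => hd a x)
  exact Eventually.of_forall fun a x hx => hC (a, x) ⟨Set.mem_univ a, hx⟩

variable (μ : Measure X) [IsFiniteMeasure μ] (ρ : X → E →L[ℝ] E) (hρ : Continuous ρ)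

include hρ in
theorem hasFDerivAt_avg {F₁ F₂ : Type w} [NormedAddCommGroup F₁] [NormedSpace ℝ F₁]
    [NormedAddCommGroup F₂] [NormedSpace ℝ F₂]
    (s : X → F₁ →L[ℝ] F₂) (hs : Continuous s) (v : E → F₁) (hv : ContDiff ℝ ∞ v) (x₀ : E) :
    HasFDerivAt (fun x => ∫ a, s a (v (ρ a x)) ∂μ)
      (∫ a, (s a).comp ((fderiv ℝ v (ρ a x₀)).comp (ρ a)) ∂μ) x₀ := by
  have hv' : Continuous (fderiv ℝ v) := hv.continuous_fderiv (by simp)
  have hρ2 : Continuous fun p : X × E => ρ p.1 p.2 :=
    (hρ.comp continuous_fst).clm_apply continuous_snd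
  refine hasFDerivAt_int μ (fun a x => s a (v (ρ a x)))
    (fun a x => (s a).comp ((fderiv ℝ v (ρ a x)).comp (ρ a))) ?_ ?_ ?_ x₀
  · exact (hs.comp continuous_fst).clm_apply (hv.continuous.comp hρ2)
  · exact (hs.comp continuous_fst).clm_comp ((hv'.comp hρ2).clm_comp (hρ.comp continuous_fst))
  · intro a x
    have h1 : HasFDerivAt v (fderiv ℝ v (ρ a x)) (ρ a x) :=
      (hv.differentiable (by simp) _).hasFDerivAt
    exact (s a).hasFDerivAt.comp x (h1.comp x (ρ a).hasFDerivAt)

include hρ in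
theorem contDiff_avg (n : ℕ) : ∀ (F₁ F₂ : Type w) [NormedAddCommGroup F₁] [NormedSpace ℝ F₁]
    [NormedAddCommGroup F₂] [NormedSpace ℝ F₂]
    (s : X → F₁ →L[ℝ] F₂), Continuous s → ∀ v : E → F₁, ContDiff ℝ ∞ v →
    ContDiff ℝ n (fun x => ∫ a, s a (v (ρ a x)) ∂μ) := by
  induction n with
  | zero =>
    intro F₁ F₂ _ _ _ _ s hs v hv
    have hd : Differentiable ℝ (fun x => ∫ a, s a (v (ρ a x)) ∂μ) := fun x =>
      (hasFDerivAt_avg μ ρ hρ s hs v hv x).differentiableAt
    exact contDiff_zero.2 hd.continuous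
  | succ n ih =>
    intro F₁ F₂ _ _ _ _ s hs v hv
    have hd : Differentiable ℝ (fun x => ∫ a, s a (v (ρ a x)) ∂μ) := fun x =>
      (hasFDerivAt_avg μ ρ hρ s hs v hv x).differentiableAt
    have hf : fderiv ℝ (fun x => ∫ a, s a (v (ρ a x)) ∂μ) = fun x =>
        ∫ a, ((ContinuousLinearMap.compL ℝ E F₁ F₂ (s a)).comp
          ((ContinuousLinearMap.compL ℝ E E F₁).flip (ρ a))) (fderiv ℝ v (ρ a x)) ∂μ := by
      funext x
      rw [(hasFDerivAt_avg μ ρ hρ s hs v hv x).fderiv]
      rfl
    have hc : Continuous fun a => (ContinuousLinearMap.compL ℝ E F₁ F₂ (s a)).comp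
          ((ContinuousLinearMap.compL ℝ E E F₁).flip (ρ a)) :=
      ((ContinuousLinearMap.compL ℝ E F₁ F₂).continuous.comp hs).clm_comp
        (((ContinuousLinearMap.compL ℝ E E F₁).flip).continuous.comp hρ)
    have hv' : ContDiff ℝ ∞ (fderiv ℝ v) := hv.fderiv_right (m := ∞) (by simp)
    rw [Nat.cast_succ, contDiff_succ_iff_fderiv]
    refine ⟨hd, fun h => absurd h (by simp), ?_⟩
    rw [hf]
    exact ih (E →L[ℝ] F₁) (E →L[ℝ] F₂) _ hc _ hv'

end

end SmIntAux

/-- **G01** `SmIntStmt`. -/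
theorem smInt (X E : Type) [TopologicalSpace X] [CompactSpace X] [SecondCountableTopology X]
    [MeasurableSpace X] [BorelSpace X] [NormedAddCommGroup E] [NormedSpace ℝ E]
    [FiniteDimensional ℝ E] : SmIntStmt.{w} X E := by
  intro μ _ ρ hρ F₁ F₂ _ _ _ _ _ _ s hs v hv
  refine ⟨contDiff_infty.2 fun n => SmIntAux.contDiff_avg μ ρ hρ n F₁ F₂ s hs v hv, ?_⟩
  intro x w
  have : CompleteSpace F₂ := FiniteDimensional.complete ℝ F₂
  rw [(SmIntAux.hasFDerivAt_avg μ ρ hρ s hs v hv x).fderiv,
    ContinuousLinearMap.integral_apply]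
  · rfl
  · have hv' : Continuous (fderiv ℝ v) := hv.continuous_fderiv (by simp)
    have hc : Continuous fun a => (s a).comp ((fderiv ℝ v (ρ a x)).comp (ρ a)) :=
      hs.clm_comp ((hv'.comp (hρ.clm_apply continuous_const)).clm_comp hρ)
    obtain ⟨C₁, hC₁⟩ := (isCompact_univ (X := X)).exists_bound_of_continuousOn hc.continuousOn
    exact Integrable.of_bound hc.aestronglyMeasurable C₁
      (Eventually.of_forall fun a => hC₁ a (Set.mem_univ a))

end Vale.Agent.P353.AN.G
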