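import Vale.Agent.P353.AN.G.Stmt

open MeasureTheory Filter Topology
open scoped ContDiff

namespace Vale.Agent.P353.AN.G

/-- **G02** -/
theorem sqComm : SqCommStmt := by
  intro E _ _ _ K X hs hp hc x
  classical
  have hsym : (K : E →ₗ[ℝ] E).IsSymmetric := fun a b => hs a b
  have hn : Module.finrank ℝ E = Module.finrank ℝ E := rfl
  set b := hsym.eigenvectorBasis hn with hb
  set lam := hsym.eigenvalues hn with hlam
  have hev : ∀ i, K (b i) = lam i • b i := fun i => by
    have := hsym.apply_eigenvectorBasis hn i
    exact this
  have hl0 : ∀ i, 0 ≤ lam i := by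
    intro i
    have h1 := hp (b i)
    rw [hev i, inner_smul_right] at h1
    have h2 : inner ℝ (b i) (b i) = (1 : ℝ) := by
      rw [real_inner_self_eq_norm_sq, b.orthonormal.1 i]
      norm_num
    rwa [h2, mul_one] at h1
  have key : ∀ i, X (K (b i)) = K (X (b i)) := by
    intro i
    have h1 := hc (b i)
    rw [hev i, map_smul, hev i, map_smul, map_smul] at h1
    -- K K X b = lam^2 X b
    set y := X (b i) with hy
    rw [hev i, map_smul, ← hy]
    have h2 : K (K y) = lam i • lam i • y := h1.symm
    set z := K y - lam i • y with hz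
    have h3 : K z = -(lam i • z) := by
      rw [hz, map_sub, map_smul, h2, smul_sub]
      abel
    have h4 := hp z
    rw [h3, inner_neg_right, inner_smul_right] at h4
    rcases (hl0 i).lt_or_eq with h5 | h5
    · have h6 : inner ℝ z z = (0 : ℝ) := by
        have : 0 ≤ inner ℝ z z := real_inner_self_nonneg
        nlinarith
      have h7 : z = 0 := inner_self_eq_zero.1 h6
      rw [hz, sub_eq_zero] at h7
      exact h7.symm
    · rw [← h5, zero_smul]
      rw [← h5, zero_smul] at h2
      have h6 : inner ℝ (K y) (K y) = (0 : ℝ) := by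
        rw [hs, h2, inner_zero_right]
      exact (inner_self_eq_zero.1 h6).symm
  have hx := b.sum_repr x
  rw [← hx]
  simp only [map_sum, map_smul, key]

end Vale.Agent.P353.AN.G
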