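import Vale.Agent.P353.AN.G.Act
import Vale.Agent.P353.AN.G.Cen

/-! # P353, all `N`, block G: G34, the stabiliser of a zero of `V_1` fixes the vacuum -/

open MeasureTheory Filter Topology
open scoped ContDiff

namespace Vale.Agent.P353.AN.G

open Vale.Agent.P353.Z Vale.Agent.P353.Z.U

section Log

open scoped Matrix.Norms.L2Operator

/-- `mad_log`; the logarithm commutes with everything that commutes with `U` -/
theorem stab_log {N : ℕ} (U : Matrix (Fin N) (Fin N) ℂ)
    (hU : U ∈ unitary (Matrix (Fin N) (Fin N) ℂ)) :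
    ∃ K : Matrix (Fin N) (Fin N) ℂ, K.IsHermitian ∧ NormedSpace.exp (Complex.I • K) = U ∧
      ∀ X, U * X = X * U → K * X = X * K := by
  have hnorm : IsStarNormal U := by
    refine ⟨?_⟩
    rw [Commute, SemiconjBy, (Unitary.mem_iff.1 hU).1, (Unitary.mem_iff.1 hU).2]
  have hc : ContinuousOn Complex.arg (spectrum ℂ U) :=
    (Matrix.finite_spectrum U).continuousOn _
  refine ⟨cfc (fun z : ℂ => (Complex.arg z : ℂ)) U, ?_, ?_, ?_⟩
  · exact IsSelfAdjoint.cfc_arg U
  · rw [← CFC.exp_eq_normedSpace_exp (𝕜 := ℂ), ← cfc_comp_smul ..,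
      ← cfc_comp' ..]
    conv_rhs => rw [← cfc_id' ℂ U]
    refine cfc_congr fun y hy ↦ ?_
    have hy₁ : ‖y‖ = 1 := spectrum.norm_eq_one_of_unitary hU hy
    have hy0 : y ≠ 0 := by
      rintro rfl
      simp at hy₁
    have : Complex.I * y.arg = Complex.log y :=
      Complex.ext (by simp [Complex.log_re, hy₁]) (by simp [Complex.log_im])
    simpa [← Complex.exp_eq_exp_ℂ, this] using Complex.exp_log hy0
  · intro X hX
    have h2 : star U * X = X * star U := by
      have e1 := (Unitary.mem_iff.1 hU).1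
      have e2 := (Unitary.mem_iff.1 hU).2
      calc star U * X = star U * X * (U * star U) := by rw [e2, mul_one]
        _ = star U * (X * U) * star U := by noncomm_ring
        _ = star U * (U * X) * star U := by rw [hX]
        _ = star U * U * X * star U := by noncomm_ring
        _ = X * star U := by rw [e1, one_mul]
    have h1 : Commute U X := hX
    exact (h1.cfc h2 _).eq

end Log

/-- determinant of the exponential of a skew-Hermitian matrix -/
theorem stab_det {N : ℕ} (H : Matrix (Fin N) (Fin N) ℂ) (hH : H.IsHermitian) :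
    (NormedSpace.exp (Complex.I • H)).det = Complex.exp (Complex.I * H.trace) := by
  obtain ⟨V, hV⟩ : ∃ V : Matrix (Fin N) (Fin N) ℂ,
    V = (hH.eigenvectorUnitary : Matrix (Fin N) (Fin N) ℂ) := ⟨_, rfl⟩
  have hVm := hH.eigenvectorUnitary.2
  rw [← hV] at hVm
  have e1 : star V * V = 1 := (Unitary.mem_iff.1 hVm).1
  have e2 : V * star V = 1 := (Unitary.mem_iff.1 hVm).2
  have hinv : V⁻¹ = star V := Matrix.inv_eq_right_inv e2
  have hunit : IsUnit V := ⟨⟨V, star V, e2, e1⟩, rfl⟩
  have hs : H = V * Matrix.diagonal (fun i => ((hH.eigenvalues i : ℝ) : ℂ)) * star V := by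
    have := hH.spectral_theorem
    rw [Unitary.conjStarAlgAut_apply] at this
    rw [hV]
    exact this
  have h1 : Complex.I • H =
      V * (Complex.I • Matrix.diagonal (fun i => ((hH.eigenvalues i : ℝ) : ℂ))) * V⁻¹ := by
    rw [hinv, Matrix.mul_smul, Matrix.smul_mul, ← hs]
  rw [h1, Matrix.exp_conj _ _ hunit, Matrix.det_mul, Matrix.det_mul]
  have h2 : V.det * (V⁻¹).det = 1 := by
    rw [← Matrix.det_mul, hinv, e2, Matrix.det_one]
  have h3 : Complex.I • Matrix.diagonal (fun i => ((hH.eigenvalues i : ℝ) : ℂ)) =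
      Matrix.diagonal (fun i => Complex.I * ((hH.eigenvalues i : ℝ) : ℂ)) := by
    rw [← Matrix.diagonal_smul]
    rfl
  rw [h3, Matrix.exp_diagonal, Matrix.det_diagonal]
  have h4 : ∀ i, NormedSpace.exp (fun i => Complex.I * ((hH.eigenvalues i : ℝ) : ℂ)) i =
      Complex.exp (Complex.I * ((hH.eigenvalues i : ℝ) : ℂ)) := by
    intro i
    rw [Pi.coe_exp, ← Complex.exp_eq_exp_ℂ]
  rw [Finset.prod_congr rfl fun i _ => h4 i, ← Complex.exp_sum, ← Finset.mul_sum,
    hH.trace_eq_sum_eigenvalues]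
  calc V.det * Complex.exp _ * (V⁻¹).det = V.det * (V⁻¹).det * Complex.exp _ := by ring
    _ = _ := by rw [h2, one_mul]; rfl

theorem stab_scalar {N : ℕ} (c : ℂ) :
    NormedSpace.exp (c • (1 : Matrix (Fin N) (Fin N) ℂ)) = Complex.exp c • 1 := by
  rw [Matrix.smul_one_eq_diagonal, Matrix.exp_diagonal, Matrix.smul_one_eq_diagonal]
  congr 1
  funext j
  rw [Pi.coe_exp, ← Complex.exp_eq_exp_ℂ]

universe w

variable {N d : ℕ} {F : Type w} [NormedAddCommGroup F] [InnerProductSpace ℂ F]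

/-- an element of the stabiliser commutes with the matrices of `ξ` -/
theorem stab_comm (M : BFSS.Model N d F) (hN : 0 < N) (ξ : Cfg d) (U : BFSS.SU N)
    (hU : M.act U ξ = ξ) (i : Fin 9) : U.val * (∑ A, ((ξ (i, A) : ℝ) : ℂ) • M.T A) =
      (∑ A, ((ξ (i, A) : ℝ) : ℂ) • M.T A) * U.val := by
  have h1 : U.val * (∑ A, ((ξ (i, A) : ℝ) : ℂ) • M.T A) * U.val.conjTranspose =
      ∑ A, ((ξ (i, A) : ℝ) : ℂ) • M.T A := by
    rw [Matrix.mul_sum, Matrix.sum_mul]
    have h2 : ∀ A, U.val * (((ξ (i, A) : ℝ) : ℂ) • M.T A) * U.val.conjTranspose =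
        ∑ C, ((BFSS.adCoeff M.T U C A * ξ (i, A) : ℝ) : ℂ) • M.T C := by
      intro A
      rw [Matrix.mul_smul, Matrix.smul_mul, act_conj M hN, Finset.smul_sum]
      refine Finset.sum_congr rfl fun C _ => ?_
      rw [smul_smul, Complex.ofReal_mul, mul_comm]
    rw [Finset.sum_congr rfl fun A _ => h2 A, Finset.sum_comm]
    refine Finset.sum_congr rfl fun C _ => ?_
    rw [← Finset.sum_smul, ← Complex.ofReal_sum]
    congr 2
    have h3 := congrArg (fun x : Cfg d => x (i, C)) hU
    exact h3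
  have h4 := congrArg (· * U.val) h1
  simp only [Matrix.mul_assoc, act_unit, mul_one] at h4
  exact h4

/-- **G34 Stab** -/
theorem stab [FiniteDimensional ℂ F] (M : BFSS.Model N d F)
    (h14 : ∀ S : Setup d F, HKillStmt S) (h32 : ExpHStmt M) (h33 : CenStmt M) : StabStmt M := by
  intro hd S hS ξ hξ E Ω hΩ U hU
  have hN : 0 < N := by
    rcases Nat.eq_zero_or_pos N with h | h
    · have h1 := M.dim_eq
      rw [h] at h1
      simp at h1
      omega
    · exact h
  have hN' : (N : ℂ) ≠ 0 := by exact_mod_cast hN.ne'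
  have hUu : U.val ∈ unitary (Matrix (Fin N) (Fin N) ℂ) :=
    (Matrix.mem_specialUnitaryGroup_iff.1 U.2).1
  obtain ⟨K, hK, hKU, hKc⟩ := stab_log U.val hUu
  -- the trace is real
  have htr : K.trace = ((K.trace.re : ℝ) : ℂ) := by
    symm
    rw [← Complex.conj_eq_iff_re]
    have h1 := Matrix.trace_conjTranspose K
    rw [hK.eq] at h1
    exact h1.symm
  obtain ⟨τ, hτ⟩ : ∃ τ : ℝ, τ = K.trace.re / N := ⟨_, rfl⟩
  have hτ' : K.trace / N = ((τ : ℝ) : ℂ) := by
    rw [hτ, htr]
    push_cast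
    simp
  obtain ⟨H, hHd⟩ : ∃ H : Matrix (Fin N) (Fin N) ℂ,
    H = K - ((τ : ℝ) : ℂ) • (1 : Matrix (Fin N) (Fin N) ℂ) := ⟨_, rfl⟩
  have hHh : H.conjTranspose = H := by
    rw [hHd, Matrix.conjTranspose_sub, hK.eq, Matrix.conjTranspose_smul, Matrix.conjTranspose_one]
    simp
  have hHt : H.trace = 0 := by
    rw [hHd, Matrix.trace_sub, Matrix.trace_smul, Matrix.trace_one, ← hτ']
    simp only [Fintype.card_fin, smul_eq_mul]
    field_simp
    ring
  obtain ⟨h, hh⟩ := cen_coef M hN H hHh hHt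
  have hHc : ∀ X, U.val * X = X * U.val → H * X = X * H := by
    intro X hX
    rw [hHd, sub_mul, mul_sub, hKc X hX, Matrix.smul_mul, Matrix.mul_smul, one_mul, mul_one]
  -- the coefficients kill `ξ`
  have hkill : ∀ i B, ∑ C, ∑ A, h C * S.f C A B * ξ (i, A) = 0 := by
    intro i B
    have h1 := hHc _ (stab_comm M hN ξ U hU i)
    have h2 : H * (∑ A, ((ξ (i, A) : ℝ) : ℂ) • M.T A) - (∑ A, ((ξ (i, A) : ℝ) : ℂ) • M.T A) * H =
        ∑ C, ∑ A, ((h C * ξ (i, A) : ℝ) : ℂ) • (M.T C * M.T A - M.T A * M.T C) := by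
      rw [hh, Matrix.sum_mul, Matrix.mul_sum, ← Finset.sum_sub_distrib]
      refine Finset.sum_congr rfl fun C _ => ?_
      rw [Matrix.mul_sum, Matrix.sum_mul, ← Finset.sum_sub_distrib]
      refine Finset.sum_congr rfl fun A _ => ?_
      rw [Matrix.smul_mul, Matrix.mul_smul, Matrix.mul_smul, Matrix.smul_mul, smul_smul, smul_smul,
        smul_sub, Complex.ofReal_mul]
    rw [h1, sub_self] at h2
    have h3 := congrArg (fun X => (M.T B * X).trace) h2
    simp only [mul_zero, Matrix.trace_zero, Matrix.mul_sum, Matrix.trace_sum, Matrix.mul_smul,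
      Matrix.trace_smul, M.T_comm, M.T_orthonormal] at h3
    have h4 : ∀ C A, ∑ D, (Complex.I * (M.f C A D : ℂ)) • (if B = D then (1 : ℂ) else 0) =
        Complex.I * (M.f C A B : ℂ) := by
      intro C A
      rw [Finset.sum_eq_single B]
      · rw [if_pos rfl, smul_eq_mul, mul_one]
      · intro D _ hD
        rw [if_neg (Ne.symm hD), smul_zero]
      · intro hB
        exact absurd (Finset.mem_univ B) hB
    simp only [h4] at h3
    have h5 : Complex.I * ((∑ C, ∑ A, h C * S.f C A B * ξ (i, A) : ℝ) : ℂ) = 0 := by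
      rw [h3]
      push_cast
      rw [Finset.mul_sum]
      refine Finset.sum_congr rfl fun C _ => ?_
      rw [Finset.mul_sum]
      refine Finset.sum_congr rfl fun A _ => ?_
      rw [hS.hf, smul_eq_mul]
      ring
    rcases mul_eq_zero.1 h5 with h6 | h6
    · exact absurd h6 Complex.I_ne_zero
    · exact_mod_cast h6
  have hk := h14 S ξ hξ E Ω hΩ h hkill
  -- the group element `V = exp(iH)`
  have hVm : NormedSpace.exp (Complex.I • H) ∈ Matrix.specialUnitaryGroup (Fin N) ℂ := by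
    rw [Matrix.mem_specialUnitaryGroup_iff, Matrix.mem_unitaryGroup_iff]
    constructor
    · rw [Matrix.star_eq_conjTranspose, ← Matrix.exp_conjTranspose, Matrix.conjTranspose_smul, hHh]
      have e1 : star Complex.I • H = -(Complex.I • H) := by simp
      rw [e1, ← Matrix.exp_add_of_commute _ _
        (Commute.neg_right (Commute.refl (Complex.I • H))), add_neg_cancel, NormedSpace.exp_zero]
    · rw [stab_det H hHh, hHt, mul_zero, Complex.exp_zero]
  obtain ⟨V, hV⟩ : ∃ V : BFSS.SU N, V.val = NormedSpace.exp (Complex.I • H) := ⟨⟨_, hVm⟩, rfl⟩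
  obtain ⟨z, hz⟩ : ∃ z : ℂ, z = Complex.exp (Complex.I * ((τ : ℝ) : ℂ)) := ⟨_, rfl⟩
  have hUV : U.val = z • V.val := by
    have e1 : Complex.I • K = (Complex.I * ((τ : ℝ) : ℂ)) • (1 : Matrix (Fin N) (Fin N) ℂ) +
        Complex.I • H := by
      rw [hHd, smul_sub, smul_smul, add_sub_cancel]
    have e2 : Commute ((Complex.I * ((τ : ℝ) : ℂ)) • (1 : Matrix (Fin N) (Fin N) ℂ))
        (Complex.I • H) := (Commute.one_left _).smul_left _
    rw [← hKU, e1, Matrix.exp_add_of_commute _ _ e2, stab_scalar, ← hz, hV, Matrix.smul_mul,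
      one_mul]
  have hzn : z * star z = 1 := by
    rw [hz, RCLike.star_def, ← Complex.exp_conj, ← Complex.exp_add]
    simp
  have hzN : z ^ N = 1 := by
    have h1 : (z • V.val).det = 1 := by
      rw [← hUV]
      exact (Matrix.mem_specialUnitaryGroup_iff.1 U.2).2
    rw [Matrix.det_smul, (Matrix.mem_specialUnitaryGroup_iff.1 V.2).2, mul_one,
      Fintype.card_fin] at h1
    exact h1
  have hWm : z • (1 : Matrix (Fin N) (Fin N) ℂ) ∈ Matrix.specialUnitaryGroup (Fin N) ℂ := by
    rw [Matrix.mem_specialUnitaryGroup_iff, Matrix.mem_unitaryGroup_iff]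
    constructor
    · rw [star_smul, star_one, Matrix.smul_mul, one_mul, smul_smul, hzn, one_smul]
    · rw [Matrix.det_smul, Matrix.det_one, mul_one, Fintype.card_fin, hzN]
  obtain ⟨W, hW⟩ : ∃ W : BFSS.SU N, W.val = z • (1 : Matrix (Fin N) (Fin N) ℂ) :=
    ⟨⟨_, hWm⟩, rfl⟩
  have hfac : U = W * V := by
    apply Subtype.ext
    show U.val = W.val * V.val
    rw [hW, hUV, Matrix.smul_mul, one_mul]
  have hVfix : M.S V Ω = Ω := h32 hd S hS h Ω hk V (by rw [← hh, hV])
  rw [hfac, M.S_mul, hVfix]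
  exact h33 hd W z hW Ω

end Vale.Agent.P353.AN.G
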