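import Vale.Agent.P353.AN.G.Stmt
import Vale.Agent.P353.Z.U.En

/-! # P353, all `N`, block G, G08: `L_β(a) = 0` if `K a = 0` -/

open MeasureTheory Filter Topology
open scoped ContDiff Matrix

namespace Vale.Agent.P353.AN.G

open Vale.Agent.P353.Z Vale.Agent.P353.Z.U

namespace Tan

/-- a real matrix with `tr (M Mᵀ) = 0` vanishes; family version -/
lemma zero_of_trace {ι n : Type*} [Fintype ι] [Fintype n] (M : ι → Matrix n n ℂ)
    (him : ∀ A α β, (M A α β).im = 0) (h : ∑ A, (M A * (M A)ᵀ).trace = 0) (A : ι) : M A = 0 := by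
  have h1 : ∀ A, (M A * (M A)ᵀ).trace = ((∑ α, ∑ β, (M A α β).re ^ 2 : ℝ) : ℂ) := by
    intro A
    simp only [Matrix.trace, Matrix.diag, Matrix.mul_apply, Matrix.transpose_apply]
    push_cast
    refine Finset.sum_congr rfl fun α _ => Finset.sum_congr rfl fun β _ => ?_
    have : M A α β = ((M A α β).re : ℂ) := by
      apply Complex.ext
      · simp
      · simp [him A α β]
    rw [this]
    simp [sq]
  simp only [h1] at h
  rw [← Complex.ofReal_sum] at h
  have h2 := Complex.ofReal_eq_zero.1 h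
  rw [Finset.sum_eq_zero_iff_of_nonneg fun A _ => Finset.sum_nonneg fun α _ =>
    Finset.sum_nonneg fun β _ => sq_nonneg _] at h2
  have h3 := h2 A (Finset.mem_univ _)
  rw [Finset.sum_eq_zero_iff_of_nonneg fun α _ => Finset.sum_nonneg fun β _ => sq_nonneg _] at h3
  ext α β
  have h4 := h3 α (Finset.mem_univ _)
  rw [Finset.sum_eq_zero_iff_of_nonneg fun β _ => sq_nonneg _] at h4
  have h5 := h4 β (Finset.mem_univ _)
  have h6 : (M A α β).re = 0 := by
    simpa using h5
  apply Complex.ext
  · simpa using h6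
  · simpa using him A α β

end Tan

theorem tan {d : ℕ} {F : Type*} [NormedAddCommGroup F] [InnerProductSpace ℂ F] (S : Setup d F) :
    TanStmt S := by
  intro ξ _ K hK a ha β
  have hq : S.hq ξ a = 0 := by
    have := hK.sq a
    rw [ha] at this
    simp at this
    linarith
  have h1 := En.N1c_sq S ξ a
  rw [hq] at h1
  have h2 : ∑ A, (En.NX (En.N1c S ξ) a A * (En.NX (En.N1c S ξ) a A)ᵀ).trace = 0 := by
    simpa using h1
  have h3 := Tan.zero_of_trace (fun A => En.NX (En.N1c S ξ) a A)
    (fun A α β => En.NX_im (En.N1c S ξ) (En.N1c_im S ξ) a A α β) h2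
  unfold Lb
  rw [← En.TT_N1c, En.TT_eq]
  refine Finset.sum_eq_zero fun A _ => ?_
  have h4 := h3 A
  rw [h4, S.vec_zero]

end Vale.Agent.P353.AN.G
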