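import Vale.Agent.P353.AN.G.Stmt

/-! # P353, all `N`, block G20: invariance of the trial function -/

open MeasureTheory Filter Topology
open scoped ContDiff

namespace Vale.Agent.P353.AN.G

open Vale.Agent.P353.Z Vale.Agent.P353.Z.U

namespace TvJ935

variable {d : ℕ} {F : Type*} [NormedAddCommGroup F] [InnerProductSpace ℂ F]

lemma vf_apply (S : Setup d F) (k l : Fin 9) (a : Fin d → ℝ) (x : Cfg d) (p : Fin 9 × Fin d) :
    vf S k l a x p = (if p.1 = l then x (k, p.2) else 0) - (if p.1 = k then x (l, p.2) else 0) +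
      ∑ C, ∑ A, a C * S.f C A p.2 * x (p.1, A) := rfl

lemma vf_add (S : Setup d F) (k l : Fin 9) (a : Fin d → ℝ) (x y : Cfg d) :
    vf S k l a (x + y) = vf S k l a x + vf S k l a y := by
  ext p
  rw [PiLp.add_apply, vf_apply, vf_apply, vf_apply]
  simp only [PiLp.add_apply, mul_add, Finset.sum_add_distrib]
  split_ifs <;> ring

lemma vf_smul (S : Setup d F) (k l : Fin 9) (a : Fin d → ℝ) (c : ℝ) (x : Cfg d) :
    vf S k l a (c • x) = c • vf S k l a x := by
  ext p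
  rw [PiLp.smul_apply, vf_apply, vf_apply]
  simp only [PiLp.smul_apply, smul_eq_mul, mul_add, mul_sub, Finset.mul_sum]
  have h : ∀ C A, a C * S.f C A p.2 * (c * x (p.1, A)) = c * (a C * S.f C A p.2 * x (p.1, A)) :=
    fun C A => by ring
  simp only [h]
  split_ifs <;> ring

lemma inner_sum (x y : Cfg d) : inner ℝ x y = ∑ i, ∑ A, x (i, A) * y (i, A) := by
  rw [PiLp.inner_apply, Fintype.sum_prod_type]
  refine Finset.sum_congr rfl fun i _ => Finset.sum_congr rfl fun A _ => ?_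
  simp [mul_comm]

lemma inner_vf (S : Setup d F) (k l : Fin 9) (a : Fin d → ℝ) (x y : Cfg d) :
    inner ℝ (vf S k l a x) y = (∑ A, x (k, A) * y (l, A)) - (∑ A, x (l, A) * y (k, A)) +
      ∑ i, ∑ C, ∑ A, ∑ B, a C * S.f C A B * (x (i, A) * y (i, B)) := by
  rw [inner_sum]
  have h1 : ∀ i B, vf S k l a x (i, B) * y (i, B) = (if i = l then x (k, B) * y (i, B) else 0) -
      (if i = k then x (l, B) * y (i, B) else 0) +
      ∑ C, ∑ A, a C * S.f C A B * (x (i, A) * y (i, B)) := by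
    intro i B
    rw [vf_apply, add_mul, sub_mul, Finset.sum_mul]
    congr 1
    · congr 1
      · split_ifs <;> simp
      · split_ifs <;> simp
    · refine Finset.sum_congr rfl fun C _ => ?_
      rw [Finset.sum_mul]
      refine Finset.sum_congr rfl fun A _ => ?_
      ring
  simp only [h1, Finset.sum_add_distrib, Finset.sum_sub_distrib]
  congr 1
  · congr 1
    · rw [Finset.sum_comm]
      refine Finset.sum_congr rfl fun B _ => ?_
      simp
    · rw [Finset.sum_comm]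
      refine Finset.sum_congr rfl fun B _ => ?_
      simp
  · refine Finset.sum_congr rfl fun i _ => ?_
    rw [Finset.sum_comm]
    refine Finset.sum_congr rfl fun C _ => ?_
    rw [Finset.sum_comm]

lemma inner_vf_anti (S : Setup d F) (k l : Fin 9) (a : Fin d → ℝ) (x y : Cfg d) :
    inner ℝ (vf S k l a x) y + inner ℝ x (vf S k l a y) = 0 := by
  rw [real_inner_comm (vf S k l a y) x, inner_vf, inner_vf]
  have h1 : ∀ i C, ∑ A, ∑ B, a C * S.f C A B * (y (i, A) * x (i, B)) =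
      -∑ A, ∑ B, a C * S.f C A B * (x (i, A) * y (i, B)) := by
    intro i C
    rw [Finset.sum_comm, ← Finset.sum_neg_distrib]
    refine Finset.sum_congr rfl fun A _ => ?_
    rw [← Finset.sum_neg_distrib]
    refine Finset.sum_congr rfl fun B _ => ?_
    rw [S.f_swap' C A B]
    ring
  simp only [h1, Finset.sum_neg_distrib]
  have h2 : ∑ A, y (k, A) * x (l, A) = ∑ A, x (l, A) * y (k, A) :=
    Finset.sum_congr rfl fun A _ => mul_comm _ _
  have h3 : ∑ A, y (l, A) * x (k, A) = ∑ A, x (k, A) * y (l, A) :=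
    Finset.sum_congr rfl fun A _ => mul_comm _ _
  rw [h2, h3]
  ring

lemma clm_eq_sum (T : Cfg d →L[ℝ] ℝ) (y : Cfg d) :
    T y = ∑ i, ∑ A, y (i, A) * T (EuclideanSpace.single (i, A) 1) := by
  have h1 : y = ∑ p : Fin 9 × Fin d, y p • (EuclideanSpace.single p (1 : ℝ) : Cfg d) := by
    ext q
    rw [WithLp.ofLp_sum, Finset.sum_apply]
    rw [Finset.sum_eq_single q]
    · simp
    · intro b _ hb
      simp [Ne.symm hb]
    · simp
  conv_lhs => rw [h1]
  rw [map_sum, Fintype.sum_prod_type]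
  simp

lemma clm_vf (S : Setup d F) (k l : Fin 9) (a : Fin d → ℝ) (x : Cfg d) (T : Cfg d →L[ℝ] ℝ) :
    T (vf S k l a x) = (∑ A, (x (k, A) * T (EuclideanSpace.single (l, A) 1) -
      x (l, A) * T (EuclideanSpace.single (k, A) 1))) +
      ∑ C, a C * ∑ i, ∑ A, ∑ B, S.f C A B * x (i, A) * T (EuclideanSpace.single (i, B) 1) := by
  set y : Cfg d := WithLp.toLp 2 fun p => T (EuclideanSpace.single p 1) with hy
  have h1 : T (vf S k l a x) = inner ℝ (vf S k l a x) y := by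
    rw [clm_eq_sum, inner_sum]
  rw [h1, inner_vf, Finset.sum_sub_distrib]
  congr 1
  rw [Finset.sum_comm]
  refine Finset.sum_congr rfl fun C _ => ?_
  rw [Finset.mul_sum]
  refine Finset.sum_congr rfl fun i _ => ?_
  rw [Finset.mul_sum]
  refine Finset.sum_congr rfl fun A _ => ?_
  rw [Finset.mul_sum]
  refine Finset.sum_congr rfl fun B _ => ?_
  show a C * S.f C A B * (x (i, A) * T (EuclideanSpace.single (i, B) 1)) = _
  ring

/-- first order part -/
lemma J_add_G (S : Setup d F) (k l : Fin 9) (a : Fin d → ℝ) (φ : Cfg d → ℝ) (Ω : F) (x : Cfg d)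
    (hφ : DifferentiableAt ℝ φ x) :
    S.J k l (fun y => ((φ y : ℝ) : ℂ) • Ω) x +
      ∑ C, (a C : ℂ) • S.G C (fun y => ((φ y : ℝ) : ℂ) • Ω) x =
    (-Complex.I) • ((fderiv ℝ φ x (vf S k l a x) : ℝ) : ℂ) • Ω +
      ((φ x : ℝ) : ℂ) • (S.Skl k l Ω + ∑ C, (a C : ℂ) • S.cS C Ω) := by
  have hpd : ∀ i A, pd i A (fun y => ((φ y : ℝ) : ℂ) • Ω) x =
      ((fderiv ℝ φ x (EuclideanSpace.single (i, A) 1) : ℝ) : ℂ) • Ω := by
    intro i A
    rw [pd_rsmul hφ (differentiableAt_const Ω)]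
    have : pd i A (fun _ : Cfg d => Ω) x = 0 := by
      unfold pd
      simp
    rw [this, smul_zero, add_zero]
  unfold Setup.J Setup.G
  simp only [hpd]
  rw [clm_vf]
  simp only [map_smul, smul_add, Finset.sum_add_distrib]
  have h1 : ∀ C, (a C : ℂ) • ((φ x : ℝ) : ℂ) • S.cS C Ω = ((φ x : ℝ) : ℂ) • (a C : ℂ) • S.cS C Ω :=
    fun C => smul_comm _ _ _
  simp only [h1, ← Finset.smul_sum]
  have h2 : ∑ A, ((x (k, A) : ℂ) • ((fderiv ℝ φ x (EuclideanSpace.single (l, A) 1) : ℝ) : ℂ) • Ω -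
      (x (l, A) : ℂ) • ((fderiv ℝ φ x (EuclideanSpace.single (k, A) 1) : ℝ) : ℂ) • Ω) =
      ((∑ A, (x (k, A) * fderiv ℝ φ x (EuclideanSpace.single (l, A) 1) -
      x (l, A) * fderiv ℝ φ x (EuclideanSpace.single (k, A) 1)) : ℝ) : ℂ) • Ω := by
    rw [Complex.ofReal_sum, Finset.sum_smul]
    refine Finset.sum_congr rfl fun A _ => ?_
    rw [smul_smul, smul_smul, ← sub_smul]
    push_cast
    rfl
  have h3 : ∀ C, ∑ i, ∑ A, ∑ B, ((S.f C A B : ℂ) * (x (i, A) : ℂ)) •
      ((fderiv ℝ φ x (EuclideanSpace.single (i, B) 1) : ℝ) : ℂ) • Ω =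
      ((∑ i, ∑ A, ∑ B, S.f C A B * x (i, A) * fderiv ℝ φ x (EuclideanSpace.single (i, B) 1) : ℝ)
        : ℂ) • Ω := by
    intro C
    rw [Complex.ofReal_sum, Finset.sum_smul]
    refine Finset.sum_congr rfl fun i _ => ?_
    rw [Complex.ofReal_sum, Finset.sum_smul]
    refine Finset.sum_congr rfl fun A _ => ?_
    rw [Complex.ofReal_sum, Finset.sum_smul]
    refine Finset.sum_congr rfl fun B _ => ?_
    rw [smul_smul]
    push_cast
    rfl
  rw [h2]
  simp only [h3]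
  have h4 : ∑ C, (a C : ℂ) • (-Complex.I) • ((∑ i, ∑ A, ∑ B, S.f C A B * x (i, A) *
      fderiv ℝ φ x (EuclideanSpace.single (i, B) 1) : ℝ) : ℂ) • Ω =
      (-Complex.I) • ((∑ C, a C * ∑ i, ∑ A, ∑ B, S.f C A B * x (i, A) *
      fderiv ℝ φ x (EuclideanSpace.single (i, B) 1) : ℝ) : ℂ) • Ω := by
    rw [Complex.ofReal_sum, Finset.sum_smul, Finset.smul_sum]
    refine Finset.sum_congr rfl fun C _ => ?_
    rw [smul_comm, smul_smul (a C : ℂ), Complex.ofReal_mul]
  rw [h4]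
  rw [Complex.ofReal_add, add_smul, smul_add]
  abel

lemma hasFDerivAt_om (m : ℝ) (ξ x : Cfg d) :
    HasFDerivAt (om m ξ) (Real.sqrt m • ContinuousLinearMap.id ℝ (Cfg d)) x := by
  unfold om
  exact ((hasFDerivAt_id x).sub_const (m • ξ)).const_smul (Real.sqrt m)

lemma contDiff_cut : ContDiff ℝ ∞ cut := by
  unfold cut
  exact Real.smoothTransition.contDiff.comp (by fun_prop)

/-- the derivative of the cut off Gaussian along `vf` vanishes -/
lemma fderiv_ph (S : Setup d F) (ξ : Cfg d) (K : Cfg d →L[ℝ] Cfg d)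
    (hK : ∀ x y, inner ℝ (K x) y = inner ℝ x (K y)) (k l : Fin 9) (a : Fin d → ℝ)
    (hξ : vf S k l a ξ = 0) (hc : ∀ x, K (vf S k l a x) = vf S k l a (K x)) (m L : ℝ) (hm : 0 < m)
    (x : Cfg d) : DifferentiableAt ℝ (ph m L ξ K) x ∧
      fderiv ℝ (ph m L ξ K) x (vf S k l a x) = 0 := by
  have hs : 0 < Real.sqrt m := Real.sqrt_pos.2 hm
  -- `√m • vf x = vf ω`
  have hv : Real.sqrt m • vf S k l a x = vf S k l a (om m ξ x) := by
    unfold om
    rw [vf_smul, sub_eq_add_neg, vf_add, ← neg_smul, vf_smul, hξ, smul_zero, add_zero]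
  have h1 : HasFDerivAt (fun y => ‖om m ξ y‖ ^ 2)
      (2 • (innerSL ℝ (om m ξ x)).comp (Real.sqrt m • ContinuousLinearMap.id ℝ (Cfg d))) x :=
    (hasFDerivAt_om m ξ x).norm_sq
  have h2 : HasFDerivAt (fun y => qK m ξ K y)
      ((fderivInnerCLM ℝ (om m ξ x, K (om m ξ x))).comp
        ((Real.sqrt m • ContinuousLinearMap.id ℝ (Cfg d)).prod
          (K.comp (Real.sqrt m • ContinuousLinearMap.id ℝ (Cfg d))))) x :=
    (hasFDerivAt_om m ξ x).inner ℝ (K.hasFDerivAt.comp x (hasFDerivAt_om m ξ x))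
  have h3 : HasFDerivAt (fun y => cut (‖om m ξ y‖ ^ 2 / L ^ 2))
      ((deriv cut (‖om m ξ x‖ ^ 2 / L ^ 2)) • ((L ^ 2)⁻¹ •
        (2 • (innerSL ℝ (om m ξ x)).comp (Real.sqrt m • ContinuousLinearMap.id ℝ (Cfg d))))) x := by
    have hd : HasDerivAt cut (deriv cut (‖om m ξ x‖ ^ 2 / L ^ 2)) (‖om m ξ x‖ ^ 2 / L ^ 2) :=
      ((contDiff_cut.differentiable (by simp)) _).hasDerivAt
    have h1' : HasFDerivAt (fun y => ‖om m ξ y‖ ^ 2 / L ^ 2) ((L ^ 2)⁻¹ •
        (2 • (innerSL ℝ (om m ξ x)).comp (Real.sqrt m • ContinuousLinearMap.id ℝ (Cfg d)))) x := by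
      have := h1.const_smul ((L ^ 2)⁻¹)
      refine this.congr_of_eventuallyEq (Eventually.of_forall fun y => ?_)
      show ‖om m ξ y‖ ^ 2 / L ^ 2 = (L ^ 2)⁻¹ • ‖om m ξ y‖ ^ 2
      rw [smul_eq_mul, div_eq_inv_mul]
    exact HasDerivAt.comp_hasFDerivAt (h₂ := cut) (f := fun y => ‖om m ξ y‖ ^ 2 / L ^ 2) x hd h1'
  have h4 : HasFDerivAt (fun y => Real.exp (-(1 / 2) * qK m ξ K y))
      (Real.exp (-(1 / 2) * qK m ξ K x) • ((-(1 / 2) : ℝ) •
      ((fderivInnerCLM ℝ (om m ξ x, K (om m ξ x))).comp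
        ((Real.sqrt m • ContinuousLinearMap.id ℝ (Cfg d)).prod
          (K.comp (Real.sqrt m • ContinuousLinearMap.id ℝ (Cfg d))))))) x :=
    (h2.const_mul (-(1 / 2) : ℝ)).exp
  have h5 := h3.mul h4
  have h6 : HasFDerivAt (ph m L ξ K) _ x := h5
  refine ⟨h6.differentiableAt, ?_⟩
  rw [h6.fderiv]
  have e1 : (2 • (innerSL ℝ (om m ξ x)).comp (Real.sqrt m • ContinuousLinearMap.id ℝ (Cfg d)))
      (vf S k l a x) = 0 := by
    have : inner ℝ (om m ξ x) (vf S k l a (om m ξ x)) = 0 := by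
      have h := inner_vf_anti S k l a (om m ξ x) (om m ξ x)
      have h' := real_inner_comm (om m ξ x) (vf S k l a (om m ξ x))
      linarith
    rw [← hv, inner_smul_right] at this
    simpa using this
  have e2 : ((fderivInnerCLM ℝ (om m ξ x, K (om m ξ x))).comp
        ((Real.sqrt m • ContinuousLinearMap.id ℝ (Cfg d)).prod
          (K.comp (Real.sqrt m • ContinuousLinearMap.id ℝ (Cfg d))))) (vf S k l a x) = 0 := by
    rw [ContinuousLinearMap.comp_apply, ContinuousLinearMap.prod_apply, fderivInnerCLM_apply]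
    simp only [ContinuousLinearMap.smul_apply, ContinuousLinearMap.comp_apply,
      ContinuousLinearMap.id_apply, hv]
    have g1 := inner_vf_anti S k l a (om m ξ x) (K (om m ξ x))
    rw [← hc] at g1
    linarith
  simp only [ContinuousLinearMap.add_apply, ContinuousLinearMap.smul_apply, e1, e2, smul_zero,
    add_zero]

end TvJ935

open TvJ935 in
theorem tvJ {d : ℕ} {F : Type*} [NormedAddCommGroup F] [InnerProductSpace ℂ F]
    (S : Setup d F) : TvJStmt S := by
  intro ξ K hK Ω k l _ a hξ hc hΩ m L hm _ x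
  obtain ⟨h1, h2⟩ := fderiv_ph S ξ K hK k l a hξ hc m L hm x
  have h := J_add_G S k l a (ph m L ξ K) Ω x h1
  unfold tv
  rw [h, h2, hΩ]
  simp

end Vale.Agent.P353.AN.G
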