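import Vale.Agent.P353.AN.G.Stmt
import Vale.Agent.P353.Z.U.Inv
import Vale.Agent.P353.Z.U.LimA

/-! # P353, all `N`, block G: G19 TvQ, local energy bound of the trial function -/

open MeasureTheory Filter Topology
open scoped ContDiff

namespace Vale.Agent.P353.AN.G

open Vale.Agent.P353.Z Vale.Agent.P353.Z.U

namespace TvQ

theorem cut_contDiff : ContDiff ℝ ∞ cut := by
  unfold cut
  exact Real.smoothTransition.contDiff.comp ((contDiff_const.sub contDiff_id).div_const _)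

theorem cut_nonneg (t : ℝ) : 0 ≤ cut t := Real.smoothTransition.nonneg _

theorem cut_le_one (t : ℝ) : cut t ≤ 1 := Real.smoothTransition.le_one _

theorem cut_zero {t : ℝ} (h : 4 ≤ t) : cut t = 0 :=
  Real.smoothTransition.zero_of_nonpos (by linarith)

theorem deriv_cut_zero {t : ℝ} (h : 4 < t) : deriv cut t = 0 := by
  have h1 : cut =ᶠ[𝓝 t] fun _ => (0 : ℝ) :=
    (eventually_gt_nhds h).mono fun s hs => cut_zero hs.le
  rw [h1.deriv_eq]
  simp

theorem exists_deriv_cut : ∃ C : ℝ, 0 ≤ C ∧ ∀ t : ℝ, 0 ≤ t → t ≤ 4 → |deriv cut t| ≤ C := by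
  have hc : Continuous (deriv cut) := cut_contDiff.continuous_deriv (by simp)
  obtain ⟨C, hC⟩ := (isCompact_Icc (a := (0 : ℝ)) (b := 4)).exists_bound_of_continuousOn
    hc.continuousOn
  refine ⟨C, (norm_nonneg _).trans (hC 0 (by constructor <;> norm_num)), fun t h0 h4 => ?_⟩
  exact hC t ⟨h0, h4⟩

theorem hasDerivAt_cut (t : ℝ) : HasDerivAt cut (deriv cut t) t :=
  (cut_contDiff.differentiable (by simp) t).hasDerivAt

variable {d : ℕ}

theorem hasFDerivAt_om (m : ℝ) (ξ x : Cfg d) :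
    HasFDerivAt (om m ξ) (Real.sqrt m • ContinuousLinearMap.id ℝ (Cfg d)) x :=
  ((hasFDerivAt_id x).sub_const (m • ξ)).fun_const_smul (Real.sqrt m)

theorem hasFDerivAt_ph {K : Cfg d →L[ℝ] Cfg d}
    (hK : ∀ x y, inner ℝ (K x) y = inner ℝ x (K y)) (m L : ℝ) (ξ x : Cfg d) :
    HasFDerivAt (ph m L ξ K) (innerSL ℝ ((deriv cut (‖om m ξ x‖ ^ 2 / L ^ 2) *
      (2 * Real.sqrt m / L ^ 2) * Real.exp (-(1 / 2) * qK m ξ K x)) • om m ξ x -
      (Real.sqrt m * ph m L ξ K x) • K (om m ξ x))) x := by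
  have h0 := hasFDerivAt_om m ξ x
  have h1 : HasFDerivAt (fun y => ‖om m ξ y‖ ^ 2 / L ^ 2) _ x := h0.norm_sq.mul_const (L ^ 2)⁻¹
  have h2 := (hasDerivAt_cut (‖om m ξ x‖ ^ 2 / L ^ 2)).comp_hasFDerivAt x h1
  have h3 : HasFDerivAt (fun y => K (om m ξ y)) _ x := K.hasFDerivAt.comp x h0
  have h4 : HasFDerivAt (fun y => inner ℝ (om m ξ y) (K (om m ξ y))) _ x := h0.inner ℝ h3
  have h5 := (h4.const_mul (-(1 / 2))).exp
  have h6 := h2.mul h5
  refine h6.congr_fderiv ?_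
  ext v
  have e1 : inner ℝ (om m ξ x) (K v) = inner ℝ (K (om m ξ x)) v := (hK _ _).symm
  have e2 : inner ℝ v (K (om m ξ x)) = inner ℝ (K (om m ξ x)) v := real_inner_comm _ _
  simp only [Function.comp_apply, _root_.add_apply, _root_.smul_apply,
    ContinuousLinearMap.comp_apply, fderivInnerCLM_apply, ContinuousLinearMap.prod_apply,
    ContinuousLinearMap.id_apply, innerSL_apply_apply, smul_eq_mul, inner_sub_left,
    inner_smul_left, inner_smul_right, map_smul, e1, e2, conj_trivial, ph, qK]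
  ring

variable {F : Type*} [NormedAddCommGroup F] [InnerProductSpace ℂ F] (S : Setup d F)

theorem B_lin (β : Fin 16) (a b : ℝ) (x y : Cfg d) :
    S.B β (a • x - b • y) = (a : ℂ) • S.B β x - (b : ℂ) • S.B β y := by
  simp only [Setup.B, Finset.smul_sum, ← Finset.sum_sub_distrib]
  refine Finset.sum_congr rfl fun i _ => Finset.sum_congr rfl fun A _ => ?_
  rw [smul_smul, smul_smul, ← sub_smul]
  congr 1
  rw [PiLp.sub_apply, PiLp.smul_apply, PiLp.smul_apply, smul_eq_mul, smul_eq_mul]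
  push_cast
  ring

theorem norm_B_le (β : Fin 16) (x : Cfg d) :
    ‖S.B β x‖ ≤ (∑ i, ∑ A, ‖S.vec (S.g i) A β‖) * ‖x‖ := by
  rw [Setup.B, Finset.sum_mul]
  refine (norm_sum_le _ _).trans (Finset.sum_le_sum fun i _ => ?_)
  rw [Finset.sum_mul]
  refine (norm_sum_le _ _).trans (Finset.sum_le_sum fun A _ => ?_)
  rw [norm_smul, Complex.norm_real, mul_comm]
  exact mul_le_mul_of_nonneg_left (PiLp.norm_apply_le x (i, A)) (norm_nonneg _)

theorem norm_W_le (β : Fin 16) (x : Cfg d) :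
    ‖S.W β x‖ ≤ (S.κ * ∑ A, ∑ B, ∑ C, ∑ i, ∑ j, |S.f A B C| * ‖S.vec (S.g2 i j) A β‖) *
      ‖x‖ ^ 2 := by
  have hk := S.κ_pos
  have h1 : ‖lmT S β x x‖ ≤
      (∑ A, ∑ B, ∑ C, ∑ i, ∑ j, |S.f A B C| * ‖S.vec (S.g2 i j) A β‖) * ‖x‖ ^ 2 := by
    rw [lmT]
    simp only [Finset.sum_mul]
    refine (norm_sum_le _ _).trans (Finset.sum_le_sum fun A _ => ?_)
    refine (norm_sum_le _ _).trans (Finset.sum_le_sum fun B _ => ?_)
    refine (norm_sum_le _ _).trans (Finset.sum_le_sum fun C _ => ?_)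
    refine (norm_sum_le _ _).trans (Finset.sum_le_sum fun i _ => ?_)
    refine (norm_sum_le _ _).trans (Finset.sum_le_sum fun j _ => ?_)
    rw [norm_smul, norm_mul, norm_mul, Complex.norm_real, Complex.norm_real, Complex.norm_real,
      Real.norm_eq_abs]
    have h2 := PiLp.norm_apply_le x (i, B)
    have h3 := PiLp.norm_apply_le x (j, C)
    have h4 : ‖x (i, B)‖ * ‖x (j, C)‖ ≤ ‖x‖ ^ 2 := by
      rw [pow_two]
      exact mul_le_mul h2 h3 (norm_nonneg _) (norm_nonneg _)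
    calc |S.f A B C| * ‖x (i, B)‖ * ‖x (j, C)‖ * ‖S.vec (S.g2 i j) A β‖
        = |S.f A B C| * ‖S.vec (S.g2 i j) A β‖ * (‖x (i, B)‖ * ‖x (j, C)‖) := by ring
      _ ≤ |S.f A B C| * ‖S.vec (S.g2 i j) A β‖ * ‖x‖ ^ 2 :=
        mul_le_mul_of_nonneg_left h4 (mul_nonneg (abs_nonneg _) (norm_nonneg _))
  rw [lm_W, norm_smul, mul_assoc]
  have h5 : ‖(1 / 2 : ℂ) * (S.κ : ℂ)‖ ≤ S.κ := by
    rw [norm_mul, Complex.norm_real, Real.norm_of_nonneg hk.le]
    norm_num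
    linarith
  exact mul_le_mul h5 h1 (norm_nonneg _) hk.le

/-- the scaled operator -/
theorem W_MM (β : Fin 16) {m : ℝ} (hm : 0 < m) (ξ x : Cfg d) (hcr : S.W β ξ + S.MM β ξ = 0) :
    S.W β x + (m : ℂ) • S.MM β x =
      (Real.sqrt m : ℂ) • Lb S ξ β (om m ξ x) + ((m⁻¹ : ℝ) : ℂ) • S.W β (om m ξ x) := by
  have ht : 0 < Real.sqrt m := Real.sqrt_pos.2 hm
  have ht2 : Real.sqrt m ^ 2 = m := Real.sq_sqrt hm.le
  have hx : x = m • ξ + (Real.sqrt m)⁻¹ • om m ξ x := by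
    rw [om, smul_smul, inv_mul_cancel₀ ht.ne', one_smul]
    abel
  have hW : S.W β ξ = -S.MM β ξ := eq_neg_of_add_eq_zero_left hcr
  have e1 := lm_W_affine S β m (Real.sqrt m)⁻¹ ξ (om m ξ x)
  have e2 := lm_MM_affine S β m (Real.sqrt m)⁻¹ ξ (om m ξ x)
  rw [← hx] at e1 e2
  have e3 : m * (Real.sqrt m)⁻¹ = Real.sqrt m := by
    rw [← div_eq_mul_inv, div_eq_iff ht.ne', ← pow_two, ht2]
  have e4 : (Real.sqrt m)⁻¹ ^ 2 = m⁻¹ := by rw [inv_pow, ht2]
  rw [e1, e2, hW, e3, e4, Lb, smul_add, smul_smul, smul_smul, ← Complex.ofReal_mul,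
    ← Complex.ofReal_mul, e3, ← pow_two]
  module

/-- the supercharge of the trial function -/
theorem Qm_tv {K : Cfg d →L[ℝ] Cfg d} (hK : ∀ x y, inner ℝ (K x) y = inner ℝ x (K y))
    {m L : ℝ} (hm : 0 < m) {ξ : Cfg d} (Ω : F) {β : Fin 16} (hcr : S.W β ξ + S.MM β ξ = 0)
    (hkill : ∀ x : Cfg d, Lb S ξ β x Ω + Complex.I • S.B β (K x) Ω = 0) (x : Cfg d) :
    S.Qm m β (tv m L ξ K Ω) x =
      (-Complex.I * ((deriv cut (‖om m ξ x‖ ^ 2 / L ^ 2) *
      (2 * Real.sqrt m / L ^ 2) * Real.exp (-(1 / 2) * qK m ξ K x) : ℝ) : ℂ)) •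
        S.B β (om m ξ x) Ω +
      ((ph m L ξ K x * m⁻¹ : ℝ) : ℂ) • S.W β (om m ξ x) Ω := by
  have hd := hasFDerivAt_ph hK m L ξ x
  set a : ℝ := deriv cut (‖om m ξ x‖ ^ 2 / L ^ 2) *
      (2 * Real.sqrt m / L ^ 2) * Real.exp (-(1 / 2) * qK m ξ K x) with ha
  have hpd : ∀ i A, pd i A (tv m L ξ K Ω) x =
      (((a • om m ξ x - (Real.sqrt m * ph m L ξ K x) • K (om m ξ x)) (i, A) : ℝ) : ℂ) • Ω := by
    intro i A
    have h1 := pd_rsmul (i := i) (A := A) (u := fun _ : Cfg d => Ω) hd.differentiableAt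
      (differentiableAt_const Ω)
    have h2 : pd i A (fun _ : Cfg d => Ω) x = 0 := by
      unfold pd; simp
    rw [h2, smul_zero, add_zero, hd.fderiv, innerSL_apply_apply] at h1
    refine h1.trans ?_
    congr 2
    rw [EuclideanSpace.inner_single_right]
    simp
  have hQ : (∑ i, ∑ A, S.vec (S.g i) A β (pd i A (tv m L ξ K Ω) x)) =
      (a : ℂ) • S.B β (om m ξ x) Ω -
        ((Real.sqrt m * ph m L ξ K x : ℝ) : ℂ) • S.B β (K (om m ξ x)) Ω := by
    have h1 := congrArg (fun T : F →L[ℂ] F => T Ω)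
      (B_lin S β a (Real.sqrt m * ph m L ξ K x) (om m ξ x) (K (om m ξ x)))
    simp only [_root_.sub_apply, _root_.smul_apply] at h1
    rw [← h1, Setup.B]
    simp only [_root_.sum_apply, _root_.smul_apply, hpd, map_smul]
  have hWM := congrArg (fun T : F →L[ℂ] F => T Ω) (W_MM S β hm ξ x hcr)
  simp only [_root_.add_apply, _root_.smul_apply] at hWM
  have hk : Lb S ξ β (om m ξ x) Ω = -(Complex.I • S.B β (K (om m ξ x)) Ω) :=
    eq_neg_of_add_eq_zero_left (hkill _)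
  have htv : tv m L ξ K Ω x = ((ph m L ξ K x : ℝ) : ℂ) • Ω := rfl
  rw [Setup.Qm, Setup.Q, hQ, htv, map_smul, map_smul]
  have e1 : (-Complex.I) • ((a : ℂ) • S.B β (om m ξ x) Ω -
        ((Real.sqrt m * ph m L ξ K x : ℝ) : ℂ) • S.B β (K (om m ξ x)) Ω) +
        ((ph m L ξ K x : ℝ) : ℂ) • S.W β x Ω + (m : ℂ) • ((ph m L ξ K x : ℝ) : ℂ) • S.MM β x Ω =
      (-Complex.I) • ((a : ℂ) • S.B β (om m ξ x) Ω -
        ((Real.sqrt m * ph m L ξ K x : ℝ) : ℂ) • S.B β (K (om m ξ x)) Ω) +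
        ((ph m L ξ K x : ℝ) : ℂ) • (S.W β x Ω + (m : ℂ) • S.MM β x Ω) := by
    module
  rw [e1, hWM, hk]
  push_cast
  module

end TvQ

variable {d : ℕ} {F : Type*} [NormedAddCommGroup F] [InnerProductSpace ℂ F]

open TvQ in
theorem tvQ (S : Setup d F) : TvQStmt S := by
  intro ξ hξ K hK Ω hΩ hkill
  obtain ⟨C0, hC00, hC0⟩ := exists_deriv_cut
  set CB : ℝ := ∑ β : Fin 16, ∑ i, ∑ A, ‖S.vec (S.g i) A β‖ with hCB
  set CW : ℝ := ∑ β : Fin 16, S.κ * ∑ A, ∑ B, ∑ C, ∑ i, ∑ j,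
    |S.f A B C| * ‖S.vec (S.g2 i j) A β‖ with hCW
  have hk := S.κ_pos
  have hCB0 : 0 ≤ CB := by positivity
  have hCW0 : 0 ≤ CW := by positivity
  have hB : ∀ (β : Fin 16) (x : Cfg d), ‖S.B β x Ω‖ ≤ CB * ‖x‖ := by
    intro β x
    refine (ContinuousLinearMap.le_opNorm _ _).trans ?_
    rw [hΩ, mul_one]
    refine (norm_B_le S β x).trans (mul_le_mul_of_nonneg_right ?_ (norm_nonneg _))
    exact Finset.single_le_sum (f := fun β : Fin 16 => ∑ i, ∑ A, ‖S.vec (S.g i) A β‖)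
      (fun _ _ => by positivity) (Finset.mem_univ β)
  have hW : ∀ (β : Fin 16) (x : Cfg d), ‖S.W β x Ω‖ ≤ CW * ‖x‖ ^ 2 := by
    intro β x
    refine (ContinuousLinearMap.le_opNorm _ _).trans ?_
    rw [hΩ, mul_one]
    refine (norm_W_le S β x).trans (mul_le_mul_of_nonneg_right ?_ (by positivity))
    exact Finset.single_le_sum (f := fun β : Fin 16 => S.κ * ∑ A, ∑ B, ∑ C, ∑ i, ∑ j,
      |S.f A B C| * ‖S.vec (S.g2 i j) A β‖)
      (fun _ _ => by positivity) (Finset.mem_univ β)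
  refine ⟨4 * C0 * CB + 4 * CW, by positivity, ?_⟩
  intro L m hL hLm β x
  have hL0 : 0 < L := by linarith
  have hm : 0 < m := lt_of_lt_of_le (by positivity) hLm
  have hsm : 0 < Real.sqrt m := Real.sqrt_pos.2 hm
  have hsm2 : Real.sqrt m ^ 2 = m := Real.sq_sqrt hm.le
  have hLs : L ≤ Real.sqrt m := Real.le_sqrt_of_sq_le hLm
  rw [Qm_tv S hK.symm hm Ω (crit S ξ hξ β) (hkill β) x]
  set o := om m ξ x with ho
  set g : ℝ := Real.exp (-(1 / 2) * qK m ξ K x) with hg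
  have hg0 : 0 < g := Real.exp_pos _
  by_cases hcase : ‖o‖ ≤ 2 * L
  · have hph2 : ph2 m L ξ K x = g := by rw [ph2, if_pos hcase]
    have ht4 : ‖o‖ ^ 2 / L ^ 2 ≤ 4 := by
      rw [div_le_iff₀ (by positivity)]
      nlinarith [norm_nonneg o]
    have hd := hC0 (‖o‖ ^ 2 / L ^ 2) (by positivity) ht4
    rw [hph2]
    refine (norm_add_le _ _).trans ?_
    rw [norm_smul, norm_smul, norm_mul, norm_neg, Complex.norm_I, one_mul, Complex.norm_real,
      Complex.norm_real, Real.norm_eq_abs, Real.norm_eq_abs, abs_mul, abs_mul,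
      abs_of_pos hg0, abs_of_pos (show 0 < 2 * Real.sqrt m / L ^ 2 by positivity)]
    have hph : |ph m L ξ K x * m⁻¹| ≤ g * m⁻¹ := by
      rw [abs_mul, abs_of_pos (inv_pos.2 hm)]
      refine mul_le_mul_of_nonneg_right ?_ (inv_pos.2 hm).le
      rw [ph, abs_mul, abs_of_nonneg (cut_nonneg _), abs_of_pos hg0]
      exact mul_le_of_le_one_left hg0.le (cut_le_one _)
    have hB1 : ‖S.B β o Ω‖ ≤ CB * (2 * L) :=
      (hB β o).trans (mul_le_mul_of_nonneg_left hcase hCB0)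
    have hW1 : ‖S.W β o Ω‖ ≤ CW * (4 * L ^ 2) := by
      refine (hW β o).trans (mul_le_mul_of_nonneg_left ?_ hCW0)
      nlinarith [norm_nonneg o]
    have t1 : |deriv cut (‖o‖ ^ 2 / L ^ 2)| * (2 * Real.sqrt m / L ^ 2) * g * ‖S.B β o Ω‖ ≤
        C0 * (2 * Real.sqrt m / L ^ 2) * g * (CB * (2 * L)) := by
      refine mul_le_mul ?_ hB1 (norm_nonneg _) (by positivity)
      refine mul_le_mul_of_nonneg_right ?_ hg0.le
      exact mul_le_mul_of_nonneg_right hd (by positivity)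
    have t2 : |ph m L ξ K x * m⁻¹| * ‖S.W β o Ω‖ ≤ g * m⁻¹ * (CW * (4 * L ^ 2)) :=
      mul_le_mul hph hW1 (norm_nonneg _) (by positivity)
    have t3 : C0 * (2 * Real.sqrt m / L ^ 2) * g * (CB * (2 * L)) =
        Real.sqrt m * (4 * C0 * CB / L) * g := by
      field_simp
      ring
    have t4 : m⁻¹ * L ^ 2 ≤ Real.sqrt m / L := by
      rw [inv_mul_eq_div, div_le_div_iff₀ hm hL0]
      calc L ^ 2 * L ≤ m * Real.sqrt m := mul_le_mul hLm hLs hL0.le hm.le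
        _ = Real.sqrt m * m := mul_comm _ _
    have t5 : g * m⁻¹ * (CW * (4 * L ^ 2)) ≤ Real.sqrt m * (4 * CW / L) * g := by
      calc g * m⁻¹ * (CW * (4 * L ^ 2)) = (m⁻¹ * L ^ 2) * (4 * CW * g) := by ring
        _ ≤ (Real.sqrt m / L) * (4 * CW * g) :=
          mul_le_mul_of_nonneg_right t4 (by positivity)
        _ = Real.sqrt m * (4 * CW / L) * g := by ring
    calc _ ≤ Real.sqrt m * (4 * C0 * CB / L) * g + Real.sqrt m * (4 * CW / L) * g :=
          add_le_add (t1.trans t3.le) (t2.trans t5)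
      _ = Real.sqrt m * ((4 * C0 * CB + 4 * CW) / L) * g := by ring
  · have hph2 : ph2 m L ξ K x = 0 := by rw [ph2, if_neg hcase]
    have ht4 : 4 < ‖o‖ ^ 2 / L ^ 2 := by
      rw [lt_div_iff₀ (by positivity)]
      push Not at hcase
      nlinarith [norm_nonneg o]
    have hph : ph m L ξ K x = 0 := by rw [ph, cut_zero ht4.le, zero_mul]
    rw [hph2, hph, deriv_cut_zero ht4]
    simp

end Vale.Agent.P353.AN.G
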