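import Vale.Agent.P353.AN.G.Stmt

/-! # P353, all `N`, block G, G18: the trial function is a test function -/

open MeasureTheory Filter Topology
open scoped ContDiff

namespace Vale.Agent.P353.AN.G

open Vale.Agent.P353.Z Vale.Agent.P353.Z.U

namespace TvTst

lemma cut_smooth : ContDiff ℝ ∞ cut := by
  unfold cut
  exact Real.smoothTransition.contDiff.comp ((contDiff_const.sub contDiff_id).div_const 3)

lemma cut_nonneg (t : ℝ) : 0 ≤ cut t := Real.smoothTransition.nonneg _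

lemma cut_le_one (t : ℝ) : cut t ≤ 1 := Real.smoothTransition.le_one _

lemma cut_one {t : ℝ} (h : t ≤ 1) : cut t = 1 :=
  Real.smoothTransition.one_of_one_le (by linarith)

lemma cut_zero {t : ℝ} (h : 4 ≤ t) : cut t = 0 :=
  Real.smoothTransition.zero_of_nonpos (by linarith)

variable {d : ℕ}

lemma om_smooth (m : ℝ) (ξ : Cfg d) : ContDiff ℝ ∞ (om m ξ) := by
  unfold om
  exact (contDiff_id.sub contDiff_const).const_smul _

lemma qK_smooth (m : ℝ) (ξ : Cfg d) (K : Cfg d →L[ℝ] Cfg d) : ContDiff ℝ ∞ (qK m ξ K) := by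
  unfold qK
  exact (om_smooth m ξ).inner ℝ (K.contDiff.comp (om_smooth m ξ))

lemma ph_smooth (m L : ℝ) (ξ : Cfg d) (K : Cfg d →L[ℝ] Cfg d) : ContDiff ℝ ∞ (ph m L ξ K) := by
  unfold ph
  refine ContDiff.mul ?_ ?_
  · exact cut_smooth.comp (((om_smooth m ξ).norm_sq ℝ).div_const (L ^ 2))
  · exact Real.contDiff_exp.comp ((contDiff_const (c := -(1 / 2 : ℝ))).mul (qK_smooth m ξ K))

lemma ph_supp {m L : ℝ} (hL : 0 < L) {ξ : Cfg d} {K : Cfg d →L[ℝ] Cfg d} {x : Cfg d}
    (h : ph m L ξ K x ≠ 0) : ‖om m ξ x‖ ≤ 2 * L := by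
  by_contra hc
  push Not at hc
  refine h ?_
  unfold ph
  rw [cut_zero, zero_mul]
  rw [le_div_iff₀ (by positivity)]
  nlinarith [norm_nonneg (om m ξ x)]

lemma ph_hcs {m L : ℝ} (hm : 0 < m) (hL : 0 < L) (ξ : Cfg d) (K : Cfg d →L[ℝ] Cfg d) :
    HasCompactSupport (ph m L ξ K) := by
  refine HasCompactSupport.intro (isCompact_closedBall (m • ξ) (2 * L / Real.sqrt m)) ?_
  intro x hx
  by_contra h
  refine hx ?_
  have h1 := ph_supp hL h
  have hs : 0 < Real.sqrt m := Real.sqrt_pos.2 hm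
  rw [mem_closedBall_iff_norm, le_div_iff₀ hs]
  have h2 : ‖om m ξ x‖ = Real.sqrt m * ‖x - m • ξ‖ := by
    unfold om
    rw [norm_smul, Real.norm_of_nonneg hs.le]
  rw [h2] at h1
  linarith [mul_comm (Real.sqrt m) ‖x - m • ξ‖]

end TvTst

theorem tvTst (d : ℕ) (F : Type*) [NormedAddCommGroup F] [InnerProductSpace ℂ F] :
    TvTstStmt d F := by
  intro ξ K m L hm hL
  have hsm := TvTst.ph_smooth m L ξ K
  have hcs := TvTst.ph_hcs hm hL ξ K
  refine ⟨fun Ω => ⟨?_, ?_⟩, hsm, hcs, fun x => ⟨?_, ?_⟩, fun x hx => ?_, fun x hx => TvTst.ph_supp hL hx⟩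
  · exact (Complex.ofRealCLM.contDiff.comp hsm).smul contDiff_const
  · refine hcs.mono ?_
    intro x hx
    simp only [Function.mem_support, tv] at hx ⊢
    intro h0
    exact hx (by rw [h0]; simp)
  · exact mul_nonneg (TvTst.cut_nonneg _) (Real.exp_pos _).le
  · by_cases h0 : ph m L ξ K x = 0
    · rw [h0]
      unfold ph2
      split_ifs
      · exact (Real.exp_pos _).le
      · exact le_rfl
    · have h1 := TvTst.ph_supp hL h0
      unfold ph2 ph
      rw [if_pos h1]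
      have := TvTst.cut_le_one (‖om m ξ x‖ ^ 2 / L ^ 2)
      nlinarith [Real.exp_pos (-(1 / 2) * qK m ξ K x)]
  · unfold ph2 ph
    rw [if_pos (by linarith), TvTst.cut_one, one_mul]
    rw [div_le_one (by positivity)]
    nlinarith [norm_nonneg (om m ξ x)]

end Vale.Agent.P353.AN.G
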