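import Vale.Agent.P353.AN.G.Stmt
import Vale.Agent.P353.Z.U.Qua
import Vale.Agent.P353.Z.U.Inv

/-! # P353, all `N`, block G: G13 `VacD`: symmetry bilinears kill the vacuum -/

open MeasureTheory Filter Topology
open scoped ContDiff Matrix Kronecker

namespace Vale.Agent.P353.AN.G

open Vale.Agent.P353.Z Vale.Agent.P353.Z.U

namespace VacDPf

section Spec

variable {P : Type*} [Fintype P] [DecidableEq P]

/-- eigenbasis of `iR` for a real antisymmetric invertible matrix `R` -/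
theorem spec (R : Matrix P P ℝ) (hR : R.transpose = -R)
    (hinv : ∀ z : P → ℝ, R.mulVec z = 0 → z = 0) : ∃ (e : P → P → ℂ) (lam : P → ℝ),
    (∀ j p, Complex.I * ∑ q, (R p q : ℂ) * e j q = (lam j : ℂ) * e j p) ∧
    (∀ j, lam j ≠ 0) ∧ (∀ z : P → ℂ, ∃ c : P → ℂ, z = ∑ j, c j • e j) := by
  obtain ⟨A, hAd⟩ : ∃ A : Matrix P P ℂ, A = Matrix.of fun p q => Complex.I * (R p q : ℂ) :=
    ⟨_, rfl⟩
  have hAe : ∀ p q, A p q = Complex.I * (R p q : ℂ) := fun p q => by rw [hAd]; rfl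
  have hRs : ∀ p q, R q p = -R p q := fun p q => by
    have := congrFun (congrFun hR p) q
    simpa using this
  have hA : A.IsHermitian := by
    ext p q
    rw [Matrix.conjTranspose_apply, hAe, hAe, hRs p q]
    simp
  let E := hA.eigenvectorBasis
  let e : P → P → ℂ := fun j p => E j p
  let lam : P → ℝ := hA.eigenvalues
  have hE : ∀ j p, ∑ q, A p q * e j q = (lam j : ℂ) * e j p := by
    intro j p
    have h := congrFun (hA.mulVec_eigenvectorBasis j) p
    simpa [Matrix.mulVec, dotProduct] using h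
  have hexp : ∀ z : P → ℂ, z = ∑ j, (∑ p, z p * (starRingEnd ℂ) (e j p)) • e j := by
    intro z
    have h := E.sum_repr' (WithLp.toLp 2 z)
    have h1 := congrArg (fun w : EuclideanSpace ℂ P => (WithLp.ofLp w : P → ℂ)) h
    simp only [WithLp.ofLp_sum, WithLp.ofLp_smul] at h1
    refine h1.symm.trans (Finset.sum_congr rfl fun j _ => ?_)
    rw [PiLp.inner_apply]
    rfl
  have hn : ∀ j, ∑ p, e j p * (starRingEnd ℂ) (e j p) = 1 := by
    intro j
    have h := E.orthonormal.1 j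
    have h1 : inner ℂ (E j) (E j) = (1 : ℂ) := by
      rw [inner_self_eq_norm_sq_to_K, h]; simp
    rw [PiLp.inner_apply] at h1
    exact h1
  have hIR : ∀ j p, Complex.I * ∑ q, (R p q : ℂ) * e j q = (lam j : ℂ) * e j p := by
    intro j p
    rw [← hE j p, Finset.mul_sum]
    refine Finset.sum_congr rfl fun q _ => ?_
    rw [hAe]
    ring
  refine ⟨e, lam, hIR, ?_, fun z => ⟨_, hexp z⟩⟩
  intro j hj
  have h1 : ∀ p, ∑ q, (R p q : ℂ) * e j q = 0 := fun p => by
    have h := hIR j p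
    rw [hj, Complex.ofReal_zero, zero_mul] at h
    rcases mul_eq_zero.1 h with h | h
    · exact absurd h Complex.I_ne_zero
    · exact h
  have hre : (fun q => (e j q).re) = 0 := by
    apply hinv
    funext p
    have := congrArg Complex.re (h1 p)
    simpa [Matrix.mulVec, dotProduct] using this
  have him : (fun q => (e j q).im) = 0 := by
    apply hinv
    funext p
    have := congrArg Complex.im (h1 p)
    simpa [Matrix.mulVec, dotProduct] using this
  have h0 : ∀ p, e j p = 0 := fun p => Complex.ext (congrFun hre p) (congrFun him p)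
  have h2 := hn j
  simp [h0] at h2

end Spec

variable {d : ℕ} {F : Type*} [NormedAddCommGroup F] [InnerProductSpace ℂ F]

lemma QuaT_single (S : Setup d F) (q : Fin 16 × Fin d) (v : F) :
    QuaT S (Pi.single q 1) v = S.th q.1 q.2 v := by
  unfold QuaT
  rw [Finset.sum_eq_single q]
  · rw [Pi.single_eq_same, one_smul]
  · intro p _ hp
    rw [Pi.single_eq_of_ne hp, zero_smul]
  · intro h
    exact absurd (Finset.mem_univ q) h

lemma th_QuaT (S : Setup d F) (q : Fin 16 × Fin d) (z : Fin 16 × Fin d → ℂ) (v : F) :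
    S.th q.1 q.2 (QuaT S z v) = z q • v - QuaT S z (S.th q.1 q.2 v) := by
  have h := QuaT_anti S (Pi.single q 1) z v
  rw [QuaT_single, QuaT_single] at h
  have h1 : ∑ p, (Pi.single q 1 : Fin 16 × Fin d → ℂ) p * z p = z q := by
    rw [Finset.sum_eq_single q]
    · rw [Pi.single_eq_same, one_mul]
    · intro p _ hp
      rw [Pi.single_eq_of_ne hp, zero_mul]
    · intro h
      exact absurd (Finset.mem_univ q) h
  rw [h1] at h
  rw [← h]
  abel

lemma QuaT_add (S : Setup d F) (a b : Fin 16 × Fin d → ℂ) (v : F) :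
    QuaT S (a + b) v = QuaT S a v + QuaT S b v := by
  unfold QuaT
  rw [← Finset.sum_add_distrib]
  exact Finset.sum_congr rfl fun p _ => by rw [Pi.add_apply, add_smul]

lemma QuaT_smul (S : Setup d F) (c : ℂ) (a : Fin 16 × Fin d → ℂ) (v : F) :
    QuaT S (c • a) v = c • QuaT S a v := by
  unfold QuaT
  rw [Finset.smul_sum]
  exact Finset.sum_congr rfl fun p _ => by rw [Pi.smul_apply, smul_eq_mul, mul_smul]

lemma QuaT_sum (S : Setup d F) {ι : Type*} (s : Finset ι) (a : ι → Fin 16 × Fin d → ℂ) (v : F) :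
    QuaT S (∑ i ∈ s, a i) v = ∑ i ∈ s, QuaT S (a i) v := by
  unfold QuaT
  rw [Finset.sum_comm]
  refine Finset.sum_congr rfl fun p _ => ?_
  rw [Finset.sum_apply, Finset.sum_smul]

lemma QuaT_vadd (S : Setup d F) (a : Fin 16 × Fin d → ℂ) (v w : F) :
    QuaT S a (v + w) = QuaT S a v + QuaT S a w := by
  unfold QuaT
  rw [← Finset.sum_add_distrib]
  exact Finset.sum_congr rfl fun p _ => by rw [map_add, smul_add]

lemma QuaT_vsmul (S : Setup d F) (a : Fin 16 × Fin d → ℂ) (c : ℂ) (v : F) :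
    QuaT S a (c • v) = c • QuaT S a v := by
  unfold QuaT
  rw [Finset.smul_sum]
  exact Finset.sum_congr rfl fun p _ => by rw [map_smul, smul_comm]

lemma QuaT_vsum (S : Setup d F) {ι : Type*} (s : Finset ι) (a : Fin 16 × Fin d → ℂ)
    (v : ι → F) : QuaT S a (∑ i ∈ s, v i) = ∑ i ∈ s, QuaT S a (v i) := by
  unfold QuaT
  rw [Finset.sum_comm]
  refine Finset.sum_congr rfl fun p _ => ?_
  rw [map_sum, Finset.smul_sum]

/-- the quadratic fermionic operator `i∑R_{pq}θ_pθ_q` -/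
noncomputable def HR (S : Setup d F) (R : Matrix (Fin 16 × Fin d) (Fin 16 × Fin d) ℝ) (v : F) : F :=
  Complex.I • ∑ p : Fin 16 × Fin d, ∑ q : Fin 16 × Fin d,
    (R p q : ℂ) • S.th p.1 p.2 (S.th q.1 q.2 v)

/-- `[i∑R_{pq}θ_pθ_q, θ(z)] = θ(2iRz)` -/
lemma comm (S : Setup d F) (R : Matrix (Fin 16 × Fin d) (Fin 16 × Fin d) ℝ) (hR : Rᵀ = -R)
    (z : Fin 16 × Fin d → ℂ) (v : F) :
    HR S R (QuaT S z v) = QuaT S z (HR S R v) +
      (2 : ℂ) • QuaT S (fun p => Complex.I * ∑ q, (R p q : ℂ) * z q) v := by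
  have hRs : ∀ p q, R q p = -R p q := fun p q => by
    have := congrFun (congrFun hR p) q
    simpa using this
  have h1 : ∀ p q : Fin 16 × Fin d, S.th p.1 p.2 (S.th q.1 q.2 (QuaT S z v)) =
      z q • S.th p.1 p.2 v - z p • S.th q.1 q.2 v + QuaT S z (S.th p.1 p.2 (S.th q.1 q.2 v)) := by
    intro p q
    rw [th_QuaT, map_sub, map_smul, th_QuaT]
    abel
  have h2 : ∑ p : Fin 16 × Fin d, ∑ q : Fin 16 × Fin d,
      (R p q : ℂ) • S.th p.1 p.2 (S.th q.1 q.2 (QuaT S z v)) =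
      (∑ p : Fin 16 × Fin d, ∑ q : Fin 16 × Fin d, ((R p q : ℂ) * z q) • S.th p.1 p.2 v) -
      (∑ p : Fin 16 × Fin d, ∑ q : Fin 16 × Fin d, ((R p q : ℂ) * z p) • S.th q.1 q.2 v) +
      ∑ p : Fin 16 × Fin d, ∑ q : Fin 16 × Fin d,
        (R p q : ℂ) • QuaT S z (S.th p.1 p.2 (S.th q.1 q.2 v)) := by
    simp only [h1, smul_add, smul_sub, smul_smul, Finset.sum_add_distrib, Finset.sum_sub_distrib]
  have h3 : (∑ p : Fin 16 × Fin d, ∑ q : Fin 16 × Fin d, ((R p q : ℂ) * z p) • S.th q.1 q.2 v) =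
      -∑ p : Fin 16 × Fin d, ∑ q : Fin 16 × Fin d, ((R p q : ℂ) * z q) • S.th p.1 p.2 v := by
    rw [Finset.sum_comm, ← Finset.sum_neg_distrib]
    refine Finset.sum_congr rfl fun q _ => ?_
    rw [← Finset.sum_neg_distrib]
    refine Finset.sum_congr rfl fun p _ => ?_
    rw [hRs q p, Complex.ofReal_neg, neg_mul, neg_smul]
  have h4 : ∑ p : Fin 16 × Fin d, ∑ q : Fin 16 × Fin d, ((R p q : ℂ) * z q) • S.th p.1 p.2 v =
      QuaT S (fun p => ∑ q, (R p q : ℂ) * z q) v := by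
    unfold QuaT
    refine Finset.sum_congr rfl fun p _ => ?_
    rw [Finset.sum_smul]
  have h5 : QuaT S (fun p => Complex.I * ∑ q, (R p q : ℂ) * z q) v =
      Complex.I • QuaT S (fun p => ∑ q, (R p q : ℂ) * z q) v := by
    rw [← QuaT_smul]
    rfl
  unfold HR
  rw [h2, h3, h4, h5, QuaT_vsmul, QuaT_vsum]
  simp only [QuaT_vsum, QuaT_vsmul]
  rw [sub_neg_eq_add, smul_add, smul_add]
  module

/-- the bilinear form `⟨Ω, θ(a)θ(b)Ω⟩` -/
noncomputable def BB (S : Setup d F) (Ω : F) (a b : Fin 16 × Fin d → ℂ) : ℂ :=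
  inner ℂ Ω (QuaT S a (QuaT S b Ω))

lemma BB_anti (S : Setup d F) {Ω : F} (hΩ : ‖Ω‖ = 1) (a b : Fin 16 × Fin d → ℂ) :
    BB S Ω a b + BB S Ω b a = ∑ p, a p * b p := by
  unfold BB
  rw [← inner_add_right, QuaT_anti, inner_smul_right, inner_self_eq_norm_sq_to_K, hΩ]
  simp

lemma BB_adj (S : Setup d F) (Ω : F) (a b : Fin 16 × Fin d → ℂ) :
    BB S Ω a b = inner ℂ (QuaT S (fun p => (starRingEnd ℂ) (a p)) Ω) (QuaT S b Ω) := by
  unfold BB
  rw [QuaT_adj]
  simp only [Complex.conj_conj]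

section Main

variable (S : Setup d F) {ξ : Cfg d} {E : ℝ} {Ω : F}
  {R : Matrix (Fin 16 × Fin d) (Fin 16 × Fin d) ℝ}

/-- eigenvectors of `iR` with negative eigenvalue annihilate the vacuum -/
lemma kill (hΩ : IsLow S ξ E Ω) (hR : Rᵀ = -R) (hH : ∀ v, Hf S ξ v = HR S R v)
    {z : Fin 16 × Fin d → ℂ} {μ : ℝ}
    (hz : ∀ p, Complex.I * ∑ q, (R p q : ℂ) * z q = (μ : ℂ) * z p) (hμ : μ < 0) :
    QuaT S z Ω = 0 := by
  have h1 : Hf S ξ (QuaT S z Ω) = ((E + 2 * μ : ℝ) : ℂ) • QuaT S z Ω := by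
    rw [hH, comm S R hR, ← hH, hΩ.eig, QuaT_vsmul]
    have h2 : (fun p => Complex.I * ∑ q, (R p q : ℂ) * z q) = (μ : ℂ) • z := by
      funext p
      rw [hz p]
      rfl
    rw [h2, QuaT_smul, smul_smul, ← add_smul]
    push_cast
    rfl
  have h2 := hΩ.low (QuaT S z Ω)
  rw [h1, inner_smul_right, inner_self_eq_norm_sq_to_K] at h2
  have h3 : (((E + 2 * μ : ℝ) : ℂ) * ((‖QuaT S z Ω‖ : ℂ)) ^ 2).re =
      (E + 2 * μ) * ‖QuaT S z Ω‖ ^ 2 := by
    rw [← Complex.ofReal_pow, ← Complex.ofReal_mul, Complex.ofReal_re]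
  have h4 : E * ‖QuaT S z Ω‖ ^ 2 ≤ (E + 2 * μ) * ‖QuaT S z Ω‖ ^ 2 := by
    rw [← h3]
    exact h2
  have h5 : ‖QuaT S z Ω‖ ^ 2 ≤ 0 := by
    nlinarith [sq_nonneg ‖QuaT S z Ω‖]
  have h6 : ‖QuaT S z Ω‖ = 0 := by
    nlinarith [norm_nonneg (QuaT S z Ω)]
  exact norm_eq_zero.1 h6

/-- conjugates of eigenvectors with positive eigenvalue annihilate the vacuum -/
lemma kill' (hΩ : IsLow S ξ E Ω) (hR : Rᵀ = -R) (hH : ∀ v, Hf S ξ v = HR S R v)
    {z : Fin 16 × Fin d → ℂ} {μ : ℝ}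
    (hz : ∀ p, Complex.I * ∑ q, (R p q : ℂ) * z q = (μ : ℂ) * z p) (hμ : 0 < μ) :
    QuaT S (fun p => (starRingEnd ℂ) (z p)) Ω = 0 := by
  refine kill S hΩ hR hH (μ := -μ) (fun p => ?_) (by linarith)
  have h := congrArg (starRingEnd ℂ) (hz p)
  rw [map_mul, map_mul, map_sum, Complex.conj_I, Complex.conj_ofReal] at h
  simp only [map_mul, Complex.conj_ofReal] at h
  push_cast
  linear_combination -h

/-- `B(Ka,Kb) = B(b,a)` for a real orthogonal involution `K` anticommuting with `R` -/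
lemma flip (hΩ : IsLow S ξ E Ω) (hR : Rᵀ = -R)
    (hinv : ∀ z : Fin 16 × Fin d → ℝ, R.mulVec z = 0 → z = 0)
    (hH : ∀ v, Hf S ξ v = HR S R v)
    (K : (Fin 16 × Fin d → ℂ) →ₗ[ℂ] (Fin 16 × Fin d → ℂ))
    (hK : ∀ z p, ∑ q, (R p q : ℂ) * K z q = -K (fun p => ∑ q, (R p q : ℂ) * z q) p)
    (hK2 : ∀ a b, ∑ p, K a p * K b p = ∑ p, a p * b p)
    (a b : Fin 16 × Fin d → ℂ) : BB S Ω (K a) (K b) = BB S Ω b a := by
  obtain ⟨e, lam, he, hlam, hexp⟩ := spec R hR hinv
  have hKe : ∀ j p, Complex.I * ∑ q, (R p q : ℂ) * K (e j) q = ((-lam j : ℝ) : ℂ) * K (e j) p := by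
    intro j p
    have h2 : (fun p => ∑ q, (R p q : ℂ) * e j q) = (-Complex.I * lam j) • e j := by
      funext r
      have h := he j r
      rw [Pi.smul_apply, smul_eq_mul]
      linear_combination (-Complex.I) * h + (∑ q, (R r q : ℂ) * e j q) * Complex.I_mul_I
    rw [hK, h2, map_smul, Pi.smul_apply, smul_eq_mul]
    push_cast
    linear_combination ((lam j : ℂ) * K (e j) p) * Complex.I_mul_I
  have key : ∀ (j) (a : Fin 16 × Fin d → ℂ), BB S Ω (K a) (K (e j)) = BB S Ω (e j) a := by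
    intro j a
    rcases lt_or_gt_of_ne (hlam j) with hj | hj
    · have h1 : QuaT S (e j) Ω = 0 := kill S hΩ hR hH (he j) hj
      have h2 : QuaT S (fun p => (starRingEnd ℂ) (K (e j) p)) Ω = 0 :=
        kill' S hΩ hR hH (hKe j) (by linarith)
      have h3 : BB S Ω (K (e j)) (K a) = 0 := by
        rw [BB_adj, h2, inner_zero_left]
      have h4 : BB S Ω a (e j) = 0 := by
        unfold BB
        rw [h1]
        unfold QuaT
        simp
      have h5 := BB_anti S hΩ.norm (K (e j)) (K a)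
      have h6 := BB_anti S hΩ.norm (e j) a
      rw [hK2, ← h6, h3, h4, zero_add, add_zero] at h5
      exact h5
    · have h1 : QuaT S (K (e j)) Ω = 0 := kill S hΩ hR hH (hKe j) (by linarith)
      have h2 : QuaT S (fun p => (starRingEnd ℂ) (e j p)) Ω = 0 :=
        kill' S hΩ hR hH (he j) hj
      have h3 : BB S Ω (e j) a = 0 := by
        rw [BB_adj, h2, inner_zero_left]
      have h4 : BB S Ω (K a) (K (e j)) = 0 := by
        unfold BB
        rw [h1]
        unfold QuaT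
        simp
      rw [h3, h4]
  obtain ⟨c, hc⟩ := hexp b
  have h1 : BB S Ω (K a) (K b) = ∑ j, c j * BB S Ω (K a) (K (e j)) := by
    unfold BB
    rw [hc, map_sum, QuaT_sum, QuaT_vsum, inner_sum]
    refine Finset.sum_congr rfl fun j _ => ?_
    rw [map_smul, QuaT_smul, QuaT_vsmul, inner_smul_right]
  have h2 : BB S Ω b a = ∑ j, c j * BB S Ω (e j) a := by
    unfold BB
    rw [hc, QuaT_sum, inner_sum]
    refine Finset.sum_congr rfl fun j _ => ?_
    rw [QuaT_smul, inner_smul_right]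
  rw [h1, h2]
  exact Finset.sum_congr rfl fun j _ => by rw [key]

end Main

/-- `Dq ξ q = 0` off `I3` -/
lemma Dq_zero (S : Setup d F) {ξ : Cfg d} (h3 : ∀ i : Fin 9, ∀ A, ¬ i.val < 3 → ξ (i, A) = 0)
    (q : Fin 9) (hq : ¬ q.val < 3) : InvPf.Dq S ξ q = 0 := by
  ext A B
  simp only [InvPf.Dq, Matrix.of_apply, h3 q _ hq, mul_zero, Finset.sum_const_zero,
    Matrix.zero_apply]

lemma gr_Gr (S : Setup d F) {j : Fin 9} (hj : 3 ≤ j.val) :
    InvPf.gr S j * InvPf.Gr S = -(InvPf.Gr S * InvPf.gr S j) := by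
  have n0 : j ≠ 0 := by rintro rfl; simp at hj
  have n1 : j ≠ 1 := by rintro rfl; simp at hj
  have n2 : j ≠ 2 := by
    rintro rfl
    have : ((2 : Fin 9) : ℕ) = 2 := rfl
    omega
  have a0 := InvPf.gr_ac S n0
  have a1 := InvPf.gr_ac S n1
  have a2 := InvPf.gr_ac S n2
  unfold InvPf.Gr
  calc InvPf.gr S j * (InvPf.gr S 0 * InvPf.gr S 1 * InvPf.gr S 2) =
      (InvPf.gr S j * InvPf.gr S 0) * InvPf.gr S 1 * InvPf.gr S 2 := by noncomm_ring
    _ = -(InvPf.gr S 0 * (InvPf.gr S j * InvPf.gr S 1) * InvPf.gr S 2) := by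
      rw [a0]; noncomm_ring
    _ = InvPf.gr S 0 * InvPf.gr S 1 * (InvPf.gr S j * InvPf.gr S 2) := by
      rw [a1]; noncomm_ring
    _ = -(InvPf.gr S 0 * InvPf.gr S 1 * InvPf.gr S 2 * InvPf.gr S j) := by
      rw [a2]; noncomm_ring

lemma neg_kron (A : Matrix (Fin 16) (Fin 16) ℝ) (B : Matrix (Fin d) (Fin d) ℝ) :
    (-A) ⊗ₖ B = -(A ⊗ₖ B) := by
  ext ⟨α, a⟩ ⟨β, b⟩
  simp only [Matrix.kroneckerMap_apply, Matrix.neg_apply, neg_mul]

/-- `γ^j ⊗ 1` anticommutes with `R` for `j ∈ I6` -/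
lemma KR (S : Setup d F) {ξ : Cfg d} (h3 : ∀ i : Fin 9, ∀ A, ¬ i.val < 3 → ξ (i, A) = 0)
    {j : Fin 9} (hj : 3 ≤ j.val) :
    InvPf.RR S ξ * (InvPf.gr S j ⊗ₖ (1 : Matrix (Fin d) (Fin d) ℝ)) =
      -((InvPf.gr S j ⊗ₖ (1 : Matrix (Fin d) (Fin d) ℝ)) * InvPf.RR S ξ) := by
  have h1 : ∀ q, (InvPf.gr S q ⊗ₖ InvPf.Dq S ξ q) *
      (InvPf.gr S j ⊗ₖ (1 : Matrix (Fin d) (Fin d) ℝ)) =
      -((InvPf.gr S j ⊗ₖ (1 : Matrix (Fin d) (Fin d) ℝ)) *
        (InvPf.gr S q ⊗ₖ InvPf.Dq S ξ q)) := by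
    intro q
    by_cases hq : q.val < 3
    · have hne : q ≠ j := by
        intro h
        rw [h] at hq
        omega
      rw [← Matrix.mul_kronecker_mul, ← Matrix.mul_kronecker_mul, mul_one, one_mul,
        InvPf.gr_ac S hne, neg_kron]
    · rw [Dq_zero S h3 q hq]
      simp
  have h2 : (InvPf.Gr S ⊗ₖ (1 : Matrix (Fin d) (Fin d) ℝ)) *
      (InvPf.gr S j ⊗ₖ (1 : Matrix (Fin d) (Fin d) ℝ)) =
      -((InvPf.gr S j ⊗ₖ (1 : Matrix (Fin d) (Fin d) ℝ)) *
        (InvPf.Gr S ⊗ₖ (1 : Matrix (Fin d) (Fin d) ℝ))) := by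
    rw [← Matrix.mul_kronecker_mul, ← Matrix.mul_kronecker_mul, gr_Gr S hj,
      neg_kron, neg_neg]
  unfold InvPf.RR
  rw [sub_mul, mul_sub, Finset.sum_mul, Finset.mul_sum, Matrix.smul_mul, Matrix.mul_smul, h2,
    Finset.sum_congr rfl fun q _ => h1 q, Finset.sum_neg_distrib, smul_neg]
  abel

/-- the real matrix `γ^j ⊗ 1` -/
noncomputable def GJ (S : Setup d F) (j : Fin 9) :
    Matrix (Fin 16 × Fin d) (Fin 16 × Fin d) ℝ :=
  InvPf.gr S j ⊗ₖ (1 : Matrix (Fin d) (Fin d) ℝ)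

lemma GJ_symm (S : Setup d F) (j : Fin 9) (p q : Fin 16 × Fin d) : GJ S j p q = GJ S j q p := by
  have h2 : InvPf.gr S j p.1 q.1 = InvPf.gr S j q.1 p.1 := by
    have := congrFun (congrFun (InvPf.gr_symm S j) q.1) p.1
    simpa only [Matrix.transpose_apply] using this
  have h4 : (1 : Matrix (Fin d) (Fin d) ℝ) p.2 q.2 = (1 : Matrix (Fin d) (Fin d) ℝ) q.2 p.2 := by
    by_cases h : p.2 = q.2
    · rw [h]
    · rw [Matrix.one_apply_ne h, Matrix.one_apply_ne (Ne.symm h)]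
  unfold GJ
  rw [Matrix.kroneckerMap_apply, Matrix.kroneckerMap_apply, h2, h4]

lemma GJ_sq (S : Setup d F) (j : Fin 9) : GJ S j * GJ S j = 1 := by
  unfold GJ
  rw [← Matrix.mul_kronecker_mul, InvPf.gr_sq, one_mul, Matrix.one_kronecker_one]

lemma sum4 {P : Type*} [Fintype P] (f : P → P → P → P → ℂ) :
    ∑ p, ∑ q, ∑ p', ∑ q', f p q p' q' = ∑ p', ∑ q', ∑ p, ∑ q, f p q p' q' := by
  have h : ∀ p, ∑ q, ∑ p', ∑ q', f p q p' q' = ∑ p', ∑ q', ∑ q, f p q p' q' := fun p => by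
    rw [Finset.sum_comm]
    exact Finset.sum_congr rfl fun p' _ => Finset.sum_comm
  rw [Finset.sum_congr rfl fun p _ => h p, Finset.sum_comm]
  exact Finset.sum_congr rfl fun p' _ => Finset.sum_comm

lemma BB_exp (S : Setup d F) (Ω : F) (a b : Fin 16 × Fin d → ℂ) :
    BB S Ω a b = ∑ p, ∑ q, a p * b q * inner ℂ Ω (S.th p.1 p.2 (S.th q.1 q.2 Ω)) := by
  unfold BB
  rw [QuaT_comp, inner_sum]
  refine Finset.sum_congr rfl fun p _ => ?_
  rw [inner_sum]
  refine Finset.sum_congr rfl fun q _ => ?_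
  rw [inner_smul_right]

end VacDPf

open VacDPf in
/-- **G13 VacD** -/
theorem vacD {d : ℕ} {F : Type*} [NormedAddCommGroup F] [InnerProductSpace ℂ F]
    (S : Setup d F) : VacDStmt S := by
  intro ξ hξ E Ω hΩ D hD hc j hj hsym
  obtain ⟨h1, h2, -⟩ := hes_zero S hξ
  have hR := InvPf.RR_transpose S ξ
  have hinv := InvPf.RR_inj S h1 h2
  have hH : ∀ v, Hf S ξ v = HR S (InvPf.RR S ξ) v := fun v => by
    have := congrArg (fun T : F →L[ℂ] F => T v) (InvPf.op S ξ)
    simpa only [Hf, HR, _root_.sub_apply, _root_.smul_apply, _root_.sum_apply,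
      _root_.mul_apply_eq_comp] using this
  -- the involution
  have hKR : InvPf.RR S ξ * GJ S j = -(GJ S j * InvPf.RR S ξ) := KR S h2 hj
  obtain ⟨K, hKd⟩ : ∃ K : (Fin 16 × Fin d → ℂ) →ₗ[ℂ] (Fin 16 × Fin d → ℂ),
      K = Matrix.mulVecLin ((GJ S j).map Complex.ofRealHom) := ⟨_, rfl⟩
  have hKa : ∀ z p, K z p = ∑ q, (GJ S j p q : ℂ) * z q := fun z p => by
    rw [hKd]
    rfl
  have hK : ∀ z p, ∑ q, (InvPf.RR S ξ p q : ℂ) * K z q =
      -K (fun p => ∑ q, (InvPf.RR S ξ p q : ℂ) * z q) p := by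
    intro z p
    have e1 : ∀ r, ∑ q, (InvPf.RR S ξ p q : ℂ) * (GJ S j q r : ℂ) =
        -∑ q, (GJ S j p q : ℂ) * (InvPf.RR S ξ q r : ℂ) := by
      intro r
      have := congrFun (congrFun hKR p) r
      rw [Matrix.neg_apply, Matrix.mul_apply, Matrix.mul_apply] at this
      exact_mod_cast this
    simp only [hKa, Finset.mul_sum]
    rw [Finset.sum_comm, Finset.sum_comm (f := fun q r => (GJ S j p q : ℂ) * _),
      ← Finset.sum_neg_distrib]
    refine Finset.sum_congr rfl fun r _ => ?_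
    have e2 := congrArg (fun w : ℂ => w * z r) (e1 r)
    simp only [neg_mul, Finset.sum_mul] at e2
    simpa only [mul_assoc] using e2
  have hGG : ∀ q r, ∑ p, (GJ S j p q : ℂ) * (GJ S j p r : ℂ) = if q = r then 1 else 0 := by
    intro q r
    have := congrFun (congrFun (GJ_sq S j) q) r
    rw [Matrix.mul_apply, Matrix.one_apply] at this
    have e : ∑ p, (GJ S j p q) * (GJ S j p r) = if q = r then 1 else 0 := by
      rw [← this]
      exact Finset.sum_congr rfl fun p _ => by rw [GJ_symm S j p q]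
    have e2 : ∑ p, (GJ S j p q : ℂ) * (GJ S j p r : ℂ) =
        ((∑ p, GJ S j p q * GJ S j p r : ℝ) : ℂ) := by
      push_cast
      rfl
    rw [e2, e]
    split_ifs <;> simp
  have hK2 : ∀ a b, ∑ p, K a p * K b p = ∑ p, a p * b p := by
    intro a b
    simp only [hKa, Finset.sum_mul_sum]
    rw [Finset.sum_comm]
    refine Finset.sum_congr rfl fun q _ => ?_
    rw [Finset.sum_comm]
    have e1 : ∀ r, ∑ p, (GJ S j p q : ℂ) * a q * ((GJ S j p r : ℂ) * b r) =
        (if q = r then 1 else 0) * (a q * b r) := by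
      intro r
      rw [← hGG, Finset.sum_mul]
      exact Finset.sum_congr rfl fun p _ => by ring
    rw [Finset.sum_congr rfl fun r _ => e1 r, Finset.sum_eq_single q]
    · rw [if_pos rfl, one_mul]
    · intro r _ hr
      rw [if_neg (Ne.symm hr), zero_mul]
    · intro h
      exact absurd (Finset.mem_univ q) h
  have hflip := flip S hΩ hR hinv hH K hK hK2
  -- coordinates
  obtain ⟨b, hb⟩ : ∃ b : Fin 16 × Fin d → Fin 16 × Fin d → ℂ,
      b = fun p q => inner ℂ Ω (S.th p.1 p.2 (S.th q.1 q.2 Ω)) := ⟨_, rfl⟩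
  have hKs : ∀ p q, K (Pi.single q 1) p = (GJ S j p q : ℂ) := by
    intro p q
    rw [hKa, Finset.sum_eq_single q]
    · rw [Pi.single_eq_same, mul_one]
    · intro r _ hr
      rw [Pi.single_eq_of_ne hr, mul_zero]
    · intro h
      exact absurd (Finset.mem_univ q) h
  have hb1 : ∀ p q, BB S Ω (Pi.single p 1) (Pi.single q 1) = b p q := by
    intro p q
    rw [hb]
    unfold BB
    rw [QuaT_single, QuaT_single]
  have hbf : ∀ p q, ∑ p', ∑ q', (GJ S j p' p : ℂ) * (GJ S j q' q : ℂ) * b p' q' = b q p := by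
    intro p q
    have := hflip (Pi.single p 1) (Pi.single q 1)
    rw [hb1, BB_exp] at this
    rw [← this, hb]
    simp only [hKs]
  have hDs : ∀ p q, D p q = ∑ p', ∑ q', GJ S j p p' * D p' q' * GJ S j q' q := by
    rintro ⟨α, A⟩ ⟨β, B⟩
    rw [← hsym α β A B]
    simp only [Fintype.sum_prod_type, GJ, Matrix.kroneckerMap_apply, InvPf.gr, Matrix.map_apply]
    refine Finset.sum_congr rfl fun α' _ => ?_
    rw [Finset.sum_eq_single A]
    · refine Finset.sum_congr rfl fun β' _ => ?_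
      rw [Finset.sum_eq_single B]
      · simp only [Matrix.one_apply_eq, mul_one]
      · intro B' _ hB'
        rw [Matrix.one_apply_ne hB', mul_zero, mul_zero]
      · intro h
        exact absurd (Finset.mem_univ B) h
    · intro A' _ hA'
      simp only [Matrix.one_apply_ne (Ne.symm hA'), mul_zero, zero_mul, Finset.sum_const_zero]
    · intro h
      exact absurd (Finset.mem_univ A) h
  have hDa : ∀ p q, D q p = -D p q := fun p q => by
    have := congrFun (congrFun hD p) q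
    simpa using this
  obtain ⟨T, hT⟩ : ∃ T : ℂ, T = ∑ p, ∑ q, (D p q : ℂ) * b p q := ⟨_, rfl⟩
  have hT1 : T = ∑ p, ∑ q, (D p q : ℂ) * b q p := by
    have e1 : T = ∑ p, ∑ q, ∑ p', ∑ q',
        (D p' q' : ℂ) * ((GJ S j p p' : ℂ) * (GJ S j q q' : ℂ) * b p q) := by
      rw [hT]
      refine Finset.sum_congr rfl fun p _ => Finset.sum_congr rfl fun q _ => ?_
      rw [hDs p q]
      push_cast
      rw [Finset.sum_mul]
      refine Finset.sum_congr rfl fun p' _ => ?_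
      rw [Finset.sum_mul]
      refine Finset.sum_congr rfl fun q' _ => ?_
      rw [GJ_symm S j q' q]
      ring
    have e2 : ∑ p, ∑ q, (D p q : ℂ) * b q p = ∑ p', ∑ q', ∑ p, ∑ q,
        (D p' q' : ℂ) * ((GJ S j p p' : ℂ) * (GJ S j q q' : ℂ) * b p q) := by
      refine Finset.sum_congr rfl fun p' _ => Finset.sum_congr rfl fun q' _ => ?_
      rw [← hbf p' q', Finset.mul_sum]
      refine Finset.sum_congr rfl fun p _ => ?_
      rw [Finset.mul_sum]
    rw [e1, e2]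
    exact sum4 _
  have hT0 : T = 0 := by
    have e1 : T = -T := by
      nth_rewrite 1 [hT1]
      rw [hT, Finset.sum_comm, ← Finset.sum_neg_distrib]
      refine Finset.sum_congr rfl fun p _ => ?_
      rw [← Finset.sum_neg_distrib]
      refine Finset.sum_congr rfl fun q _ => ?_
      rw [hDa p q, Complex.ofReal_neg, neg_mul]
    have : (2 : ℂ) * T = 0 := by linear_combination e1
    simpa using this
  have hbD : ∀ v, bD S D v = ∑ p : Fin 16 × Fin d, ∑ q : Fin 16 × Fin d,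
      (D p q : ℂ) • S.th p.1 p.2 (S.th q.1 q.2 v) := by
    intro v
    simp only [bD, _root_.smul_apply, _root_.sum_apply, _root_.mul_apply_eq_comp]
  have hin : inner ℂ Ω (bD S D Ω) = T := by
    rw [hbD, inner_sum, hT]
    refine Finset.sum_congr rfl fun p _ => ?_
    rw [inner_sum]
    refine Finset.sum_congr rfl fun q _ => ?_
    rw [inner_smul_right, hb]
  obtain ⟨c, hcΩ⟩ := hΩ.uniq (bD S D Ω) (by rw [hc, hΩ.eig, map_smul])
  have hc0 : c = 0 := by
    have e := hin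
    rw [hcΩ, inner_smul_right, inner_self_eq_norm_sq_to_K, hΩ.norm, hT0] at e
    simpa using e
  rw [hcΩ, hc0, zero_smul]

end Vale.Agent.P353.AN.G
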