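import Vale.Agent.P353.AN.G.PerpK

/-! # P353, all `N`, block G: G16 -/

open MeasureTheory Filter Topology
open scoped ContDiff

namespace Vale.Agent.P353.AN.G

open Vale.Agent.P353.Z Vale.Agent.P353.Z.U
open Vale.Agent.P353.Z.Setup (c3)

variable {d : ℕ} {F : Type*} [NormedAddCommGroup F] [InnerProductSpace ℂ F] (S : Setup d F)

/-- matrix of the gauge part -/
noncomputable def vkm (a : Fin d → ℝ) (A B : Fin d) : ℝ := ∑ C, a C * S.f C A B

theorem vkm_swap (a : Fin d → ℝ) (A B : Fin d) : vkm S a A B = - vkm S a B A := by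
  unfold vkm
  rw [← Finset.sum_neg_distrib]
  exact Finset.sum_congr rfl fun C _ => by rw [S.f_swap' C B A]; ring

theorem vkm_jac (a : Fin d → ℝ) (A B E : Fin d) :
    ∑ G, S.f A B G * vkm S a E G + ∑ G, S.f A G E * vkm S a B G =
      ∑ G, vkm S a G A * S.f G B E := by
  have h : ∑ C, a C * ∑ G, (S.f A B G * S.f C E G + S.f A G E * S.f C B G -
      S.f C G A * S.f G B E) = 0 :=
    Finset.sum_eq_zero fun C _ => by rw [pk_jac, mul_zero]
  have e1 : ∑ G, S.f A B G * vkm S a E G = ∑ C, a C * ∑ G, S.f A B G * S.f C E G := by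
    simp only [vkm, Finset.mul_sum]
    rw [Finset.sum_comm]
    exact Finset.sum_congr rfl fun C _ => Finset.sum_congr rfl fun G _ => by ring
  have e2 : ∑ G, S.f A G E * vkm S a B G = ∑ C, a C * ∑ G, S.f A G E * S.f C B G := by
    simp only [vkm, Finset.mul_sum]
    rw [Finset.sum_comm]
    exact Finset.sum_congr rfl fun C _ => Finset.sum_congr rfl fun G _ => by ring
  have e3 : ∑ G, vkm S a G A * S.f G B E = ∑ C, a C * ∑ G, S.f C G A * S.f G B E := by
    simp only [vkm, Finset.mul_sum, Finset.sum_mul]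
    rw [Finset.sum_comm]
    exact Finset.sum_congr rfl fun C _ => Finset.sum_congr rfl fun G _ => by ring
  rw [e1, e2, e3, ← sub_eq_zero, ← Finset.sum_add_distrib, ← Finset.sum_sub_distrib, ← h]
  refine Finset.sum_congr rfl fun C _ => ?_
  rw [Finset.sum_sub_distrib, Finset.sum_add_distrib]
  ring

theorem vf_apply (k l : Fin 9) (a : Fin d → ℝ) (x : Cfg d) (i : Fin 9) (B : Fin d) :
    vf S k l a x (i, B) = (if i = l then x (k, B) else 0) - (if i = k then x (l, B) else 0) +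
      ∑ A, vkm S a A B * x (i, A) := by
  have h : ∑ C, ∑ A, a C * S.f C A B * x (i, A) = ∑ A, vkm S a A B * x (i, A) := by
    rw [Finset.sum_comm]
    exact Finset.sum_congr rfl fun A _ => by rw [vkm, Finset.sum_mul]
  rw [← h]
  rfl

/-- bilinear field strength -/
noncomputable def vkB (A : Fin d) (i j : Fin 9) (x y : Cfg d) : ℝ :=
  S.κ * ∑ B, ∑ C, S.f A B C * (x (i, B) * y (j, C))

theorem vk_LF (ξ w : Cfg d) (A : Fin d) (i j : Fin 9) :
    S.LF ξ A i j w = vkB S A i j ξ w + vkB S A i j w ξ := by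
  unfold Setup.LF vkB
  simp only [mul_add, Finset.sum_add_distrib]

theorem vk_FF_swap (A : Fin d) (i j : Fin 9) (x y : Cfg d) :
    vkB S A i j x y = - vkB S A j i y x := by
  unfold vkB
  rw [← mul_neg]
  congr 1
  rw [Finset.sum_comm, ← Finset.sum_neg_distrib]
  refine Finset.sum_congr rfl fun B _ => ?_
  rw [← Finset.sum_neg_distrib]
  refine Finset.sum_congr rfl fun C _ => ?_
  rw [S.f_swap' A B C]
  ring

theorem vk_LF_swap (ξ w : Cfg d) (A : Fin d) (i j : Fin 9) :
    S.LF ξ A i j w = - S.LF ξ A j i w := by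
  rw [vk_LF, vk_LF, vk_FF_swap S A i j ξ w, vk_FF_swap S A i j w ξ]
  ring

theorem vkB_zero_left (A : Fin d) (i j : Fin 9) (y : Cfg d) : vkB S A i j 0 y = 0 := by
  unfold vkB
  simp

theorem vkB_zero_right (A : Fin d) (i j : Fin 9) (y : Cfg d) : vkB S A i j y 0 = 0 := by
  unfold vkB
  simp

theorem vkB_left (k l : Fin 9) (a : Fin d → ℝ) (A : Fin d) (i j : Fin 9) (x y : Cfg d) :
    vkB S A i j (vf S k l a x) y =
      (if i = l then vkB S A k j x y else 0) - (if i = k then vkB S A l j x y else 0) +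
      S.κ * ∑ B, ∑ E, (∑ G, S.f A G E * vkm S a B G) * (x (i, B) * y (j, E)) := by
  have h1 : vkB S A i j (vf S k l a x) y = S.κ * ∑ B, ∑ C, S.f A B C *
      ((if i = l then x (k, B) else 0) * y (j, C)) - S.κ * ∑ B, ∑ C, S.f A B C *
      ((if i = k then x (l, B) else 0) * y (j, C)) + S.κ * ∑ B, ∑ C, S.f A B C *
      ((∑ G, vkm S a G B * x (i, G)) * y (j, C)) := by
    unfold vkB
    rw [← mul_sub, ← mul_add, ← Finset.sum_sub_distrib, ← Finset.sum_add_distrib]
    congr 1
    refine Finset.sum_congr rfl fun B _ => ?_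
    rw [← Finset.sum_sub_distrib, ← Finset.sum_add_distrib]
    refine Finset.sum_congr rfl fun C _ => ?_
    rw [vf_apply]
    ring
  have h2 : ∑ B, ∑ C, S.f A B C * ((∑ G, vkm S a G B * x (i, G)) * y (j, C)) =
      ∑ B, ∑ E, (∑ G, S.f A G E * vkm S a B G) * (x (i, B) * y (j, E)) := by
    have h3 : ∀ B C, S.f A B C * ((∑ G, vkm S a G B * x (i, G)) * y (j, C)) =
        ∑ G, S.f A B C * vkm S a G B * (x (i, G) * y (j, C)) := by
      intro B C
      rw [Finset.sum_mul, Finset.mul_sum]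
      exact Finset.sum_congr rfl fun G _ => by ring
    have h4 : ∀ B E, (∑ G, S.f A G E * vkm S a B G) * (x (i, B) * y (j, E)) =
        ∑ G, S.f A G E * vkm S a B G * (x (i, B) * y (j, E)) := fun B E => Finset.sum_mul _ _ _
    simp only [h3, h4]
    rw [Finset.sum_comm]
    have h5 : ∀ C, ∑ B, ∑ G, S.f A B C * vkm S a G B * (x (i, G) * y (j, C)) =
        ∑ G, ∑ B, S.f A B C * vkm S a G B * (x (i, G) * y (j, C)) := fun C => Finset.sum_comm
    simp only [h5]
    rw [Finset.sum_comm]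
  rw [h1, h2]
  unfold vkB
  congr 2
  · split_ifs <;> simp
  · split_ifs <;> simp

theorem vkB_right (k l : Fin 9) (a : Fin d → ℝ) (A : Fin d) (i j : Fin 9) (x y : Cfg d) :
    vkB S A i j x (vf S k l a y) =
      (if j = l then vkB S A i k x y else 0) - (if j = k then vkB S A i l x y else 0) +
      S.κ * ∑ B, ∑ E, (∑ G, S.f A B G * vkm S a E G) * (x (i, B) * y (j, E)) := by
  have h1 : vkB S A i j x (vf S k l a y) = S.κ * ∑ B, ∑ C, S.f A B C *
      (x (i, B) * (if j = l then y (k, C) else 0)) - S.κ * ∑ B, ∑ C, S.f A B C *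
      (x (i, B) * (if j = k then y (l, C) else 0)) + S.κ * ∑ B, ∑ C, S.f A B C *
      (x (i, B) * (∑ G, vkm S a G C * y (j, G))) := by
    unfold vkB
    rw [← mul_sub, ← mul_add, ← Finset.sum_sub_distrib, ← Finset.sum_add_distrib]
    congr 1
    refine Finset.sum_congr rfl fun B _ => ?_
    rw [← Finset.sum_sub_distrib, ← Finset.sum_add_distrib]
    refine Finset.sum_congr rfl fun C _ => ?_
    rw [vf_apply]
    ring
  have h2 : ∑ B, ∑ C, S.f A B C * (x (i, B) * (∑ G, vkm S a G C * y (j, G))) =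
      ∑ B, ∑ E, (∑ G, S.f A B G * vkm S a E G) * (x (i, B) * y (j, E)) := by
    refine Finset.sum_congr rfl fun B _ => ?_
    have h3 : ∀ C, S.f A B C * (x (i, B) * (∑ G, vkm S a G C * y (j, G))) =
        ∑ G, S.f A B C * vkm S a G C * (x (i, B) * y (j, G)) := by
      intro C
      rw [Finset.mul_sum, Finset.mul_sum]
      exact Finset.sum_congr rfl fun G _ => by ring
    have h4 : ∀ E, (∑ G, S.f A B G * vkm S a E G) * (x (i, B) * y (j, E)) =
        ∑ G, S.f A B G * vkm S a E G * (x (i, B) * y (j, E)) := fun E => Finset.sum_mul _ _ _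
    simp only [h3, h4]
    rw [Finset.sum_comm]
  rw [h1, h2]
  unfold vkB
  congr 2
  · split_ifs <;> simp
  · split_ifs <;> simp

/-- Leibniz rule -/
theorem vkB_der (k l : Fin 9) (a : Fin d → ℝ) (A : Fin d) (i j : Fin 9) (x y : Cfg d) :
    vkB S A i j (vf S k l a x) y + vkB S A i j x (vf S k l a y) =
      (if i = l then vkB S A k j x y else 0) - (if i = k then vkB S A l j x y else 0) +
      ((if j = l then vkB S A i k x y else 0) - (if j = k then vkB S A i l x y else 0)) +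
      ∑ G, vkm S a G A * vkB S G i j x y := by
  have h1 : ∑ G, vkm S a G A * vkB S G i j x y = S.κ * ∑ B, ∑ E,
      (∑ G, S.f A G E * vkm S a B G) * (x (i, B) * y (j, E)) + S.κ * ∑ B, ∑ E,
      (∑ G, S.f A B G * vkm S a E G) * (x (i, B) * y (j, E)) := by
    have h2 : ∀ G, vkm S a G A * vkB S G i j x y =
        S.κ * ∑ B, ∑ E, (vkm S a G A * S.f G B E) * (x (i, B) * y (j, E)) := by
      intro G
      unfold vkB
      rw [mul_left_comm, Finset.mul_sum]
      congr 1
      refine Finset.sum_congr rfl fun B _ => ?_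
      rw [Finset.mul_sum]
      exact Finset.sum_congr rfl fun E _ => by ring
    simp only [h2]
    rw [← Finset.mul_sum, Finset.sum_comm, ← mul_add, ← Finset.sum_add_distrib]
    congr 1
    refine Finset.sum_congr rfl fun B _ => ?_
    rw [Finset.sum_comm, ← Finset.sum_add_distrib]
    refine Finset.sum_congr rfl fun E _ => ?_
    rw [← Finset.sum_mul, ← vkm_jac]
    ring
  rw [vkB_left, vkB_right, h1]
  ring

/-- the linearised field strength is covariant -/
theorem vk_LF_vf {k l : Fin 9} {a : Fin d → ℝ} {ξ : Cfg d} (h : vf S k l a ξ = 0) (A : Fin d)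
    (i j : Fin 9) (w : Cfg d) : S.LF ξ A i j (vf S k l a w) =
      (if i = l then S.LF ξ A k j w else 0) - (if i = k then S.LF ξ A l j w else 0) +
      ((if j = l then S.LF ξ A i k w else 0) - (if j = k then S.LF ξ A i l w else 0)) +
      ∑ G, vkm S a G A * S.LF ξ G i j w := by
  have h1 := vkB_der S k l a A i j ξ w
  have h2 := vkB_der S k l a A i j w ξ
  rw [h, vkB_zero_left, zero_add] at h1
  rw [h, vkB_zero_right, add_zero] at h2
  rw [vk_LF, h1, h2]
  simp only [vk_LF, mul_add, Finset.sum_add_distrib]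
  split_ifs <;> ring

/-- linearity of `LF` -/
theorem vk_LF_add (ξ x y : Cfg d) (A : Fin d) (i j : Fin 9) :
    S.LF ξ A i j (x + y) = S.LF ξ A i j x + S.LF ξ A i j y := by
  unfold Setup.LF
  rw [← mul_add, ← Finset.sum_add_distrib]
  congr 1
  refine Finset.sum_congr rfl fun B _ => ?_
  rw [← Finset.sum_add_distrib]
  refine Finset.sum_congr rfl fun C _ => ?_
  simp only [PiLp.add_apply]
  ring

theorem vk_LG_add (ξ x y : Cfg d) (A : Fin d) (m : Fin 3) :
    S.LG ξ m A (x + y) = S.LG ξ m A x + S.LG ξ m A y := by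
  unfold Setup.LG
  rw [vk_LF_add, PiLp.add_apply]
  ring

/-- polarised quadratic form -/
noncomputable def vkP (ξ x y : Cfg d) : ℝ :=
  (1 / 2) * (∑ k, ∑ A, S.LG ξ k A x * S.LG ξ k A y) +
    (1 / 2) * (∑ i : Fin 9, ∑ A, if i.val < 3 then 0 else x (i, A) * y (i, A)) +
    (1 / 4) * (∑ i : Fin 9, ∑ j : Fin 9, ∑ A,
      if i.val < 3 ∧ j.val < 3 then 0 else S.LF ξ A i j x * S.LF ξ A i j y)

theorem vk_hq_add (ξ x y : Cfg d) :
    S.hq ξ (x + y) = S.hq ξ x + 2 * vkP S ξ x y + S.hq ξ y := by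
  have e1 : ∑ k, ∑ A, S.LG ξ k A (x + y) ^ 2 = ∑ k, ∑ A, S.LG ξ k A x ^ 2 +
      2 * (∑ k, ∑ A, S.LG ξ k A x * S.LG ξ k A y) + ∑ k, ∑ A, S.LG ξ k A y ^ 2 := by
    rw [Finset.mul_sum, ← Finset.sum_add_distrib, ← Finset.sum_add_distrib]
    refine Finset.sum_congr rfl fun k _ => ?_
    rw [Finset.mul_sum, ← Finset.sum_add_distrib, ← Finset.sum_add_distrib]
    refine Finset.sum_congr rfl fun A _ => ?_
    rw [vk_LG_add]
    ring
  have e2 : (∑ i : Fin 9, ∑ A, if i.val < 3 then 0 else (x + y) (i, A) ^ 2 : ℝ) =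
      (∑ i : Fin 9, ∑ A, if i.val < 3 then 0 else x (i, A) ^ 2 : ℝ) +
      2 * (∑ i : Fin 9, ∑ A, if i.val < 3 then 0 else x (i, A) * y (i, A)) +
      (∑ i : Fin 9, ∑ A, if i.val < 3 then 0 else y (i, A) ^ 2 : ℝ) := by
    rw [Finset.mul_sum, ← Finset.sum_add_distrib, ← Finset.sum_add_distrib]
    refine Finset.sum_congr rfl fun k _ => ?_
    rw [Finset.mul_sum, ← Finset.sum_add_distrib, ← Finset.sum_add_distrib]
    refine Finset.sum_congr rfl fun A _ => ?_
    rw [PiLp.add_apply]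
    split_ifs <;> ring
  have e3 : (∑ i : Fin 9, ∑ j : Fin 9, ∑ A,
      if i.val < 3 ∧ j.val < 3 then 0 else S.LF ξ A i j (x + y) ^ 2 : ℝ) =
      (∑ i : Fin 9, ∑ j : Fin 9, ∑ A,
      if i.val < 3 ∧ j.val < 3 then 0 else S.LF ξ A i j x ^ 2 : ℝ) +
      2 * (∑ i : Fin 9, ∑ j : Fin 9, ∑ A,
      if i.val < 3 ∧ j.val < 3 then 0 else S.LF ξ A i j x * S.LF ξ A i j y : ℝ) +
      (∑ i : Fin 9, ∑ j : Fin 9, ∑ A,
      if i.val < 3 ∧ j.val < 3 then 0 else S.LF ξ A i j y ^ 2 : ℝ) := by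
    rw [Finset.mul_sum, ← Finset.sum_add_distrib, ← Finset.sum_add_distrib]
    refine Finset.sum_congr rfl fun k _ => ?_
    rw [Finset.mul_sum, ← Finset.sum_add_distrib, ← Finset.sum_add_distrib]
    refine Finset.sum_congr rfl fun j _ => ?_
    rw [Finset.mul_sum, ← Finset.sum_add_distrib, ← Finset.sum_add_distrib]
    refine Finset.sum_congr rfl fun A _ => ?_
    rw [vk_LF_add]
    split_ifs <;> ring
  unfold Setup.hq vkP
  rw [e1, e2, e3]
  ring

/-- antisymmetric sums vanish -/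
theorem vk_anti (a : Fin d → ℝ) (g : Fin d → ℝ) :
    ∑ A, g A * ∑ G, vkm S a G A * g G = 0 := by
  have h1 : ∑ A, g A * ∑ G, vkm S a G A * g G = ∑ A, ∑ G, vkm S a G A * (g G * g A) := by
    refine Finset.sum_congr rfl fun A _ => ?_
    rw [Finset.mul_sum]
    exact Finset.sum_congr rfl fun G _ => by ring
  have h2 : ∑ A, ∑ G, vkm S a G A * (g G * g A) = - ∑ A, ∑ G, vkm S a G A * (g G * g A) := by
    conv_rhs => rw [Finset.sum_comm]
    rw [← Finset.sum_neg_distrib]
    refine Finset.sum_congr rfl fun A _ => ?_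
    rw [← Finset.sum_neg_distrib]
    refine Finset.sum_congr rfl fun G _ => ?_
    rw [vkm_swap S a G A]
    ring
  linarith

/-- sum over `i` of a rotation -/
theorem vk_rot (w g : Fin 9 → ℝ) {k l : Fin 9} (hw : w k = w l) :
    ∑ i, w i * (g i * ((if i = l then g k else 0) - (if i = k then g l else 0))) = 0 := by
  have h1 : ∀ i, w i * (g i * ((if i = l then g k else 0) - (if i = k then g l else 0))) =
      (if i = l then w i * (g i * g k) else 0) - (if i = k then w i * (g i * g l) else 0) := by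
    intro i
    split_ifs <;> ring
  simp only [h1]
  rw [Finset.sum_sub_distrib, Finset.sum_ite_eq' Finset.univ l, Finset.sum_ite_eq' Finset.univ k,
    if_pos (Finset.mem_univ _), if_pos (Finset.mem_univ _), hw]
  ring

/-- `LG` is covariant, `k, l ∈ I3` -/
theorem vk_LG_vf {p q : Fin 3} (hpq : p ≠ q) {a : Fin d → ℝ} {ξ : Cfg d}
    (h : vf S (c3 p) (c3 q) a ξ = 0) (m : Fin 3) (A : Fin d) (w : Cfg d) :
    S.LG ξ m A (vf S (c3 p) (c3 q) a w) =
      (if m = q then S.LG ξ p A w else 0) - (if m = p then S.LG ξ q A w else 0) +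
      ∑ G, vkm S a G A * S.LG ξ m G w := by
  have hs : ∀ i j, S.LF ξ A i j w = - S.LF ξ A j i w := fun i j => vk_LF_swap S ξ w A i j
  have h00 : S.LF ξ A 0 0 w = 0 := by linarith [hs 0 0]
  have h11 : S.LF ξ A 1 1 w = 0 := by linarith [hs 1 1]
  have h22 : S.LF ξ A 2 2 w = 0 := by linarith [hs 2 2]
  have h10 := hs 1 0
  have h21 := hs 2 1
  have h20 := hs 2 0
  have c0 : c3 0 = 0 := rfl
  have c1 : c3 1 = 1 := rfl
  have c2 : c3 2 = 2 := rfl
  have e1 : (0 : Fin 3) + 1 = 1 := rfl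
  have e2 : (0 : Fin 3) + 2 = 2 := rfl
  have e3 : (1 : Fin 3) + 1 = 2 := rfl
  have e4 : (1 : Fin 3) + 2 = 0 := rfl
  have e5 : (2 : Fin 3) + 1 = 0 := rfl
  have e6 : (2 : Fin 3) + 2 = 1 := rfl
  have hG : ∑ G, vkm S a G A * S.LG ξ m G w =
      ∑ G, vkm S a G A * S.LF ξ G (c3 (m + 1)) (c3 (m + 2)) w +
      2 * ∑ G, vkm S a G A * w (c3 m, G) := by
    unfold Setup.LG
    rw [Finset.mul_sum, ← Finset.sum_add_distrib]
    exact Finset.sum_congr rfl fun G _ => by ring
  rw [hG]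
  unfold Setup.LG
  rw [vk_LF_vf S h, vf_apply]
  generalize (∑ G, vkm S a G A * S.LF ξ G (c3 (m + 1)) (c3 (m + 2)) w) = X1
  generalize (∑ G, vkm S a G A * w (c3 m, G)) = X2
  fin_cases p <;> fin_cases q <;> first | exact absurd rfl hpq | skip
  all_goals fin_cases m <;>
    simp [c0, c1, c2, e1, e2, e3, e4, e5, e6, h00, h11, h22, h10, h21, h20] <;> ring

/-- `LG` is covariant, `k, l ∈ I6` -/
theorem vk_LG_vf' {k l : Fin 9} (hk : ¬ k.val < 3) (hl : ¬ l.val < 3) {a : Fin d → ℝ} {ξ : Cfg d}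
    (h : vf S k l a ξ = 0) (m : Fin 3) (A : Fin d) (w : Cfg d) :
    S.LG ξ m A (vf S k l a w) = ∑ G, vkm S a G A * S.LG ξ m G w := by
  have n1 : ∀ m : Fin 3, ¬ (c3 m = k) := fun m hm => hk (by rw [← hm]; exact m.isLt)
  have n2 : ∀ m : Fin 3, ¬ (c3 m = l) := fun m hm => hl (by rw [← hm]; exact m.isLt)
  have hG : ∑ G, vkm S a G A * S.LG ξ m G w =
      ∑ G, vkm S a G A * S.LF ξ G (c3 (m + 1)) (c3 (m + 2)) w +
      2 * ∑ G, vkm S a G A * w (c3 m, G) := by
    unfold Setup.LG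
    rw [Finset.mul_sum, ← Finset.sum_add_distrib]
    exact Finset.sum_congr rfl fun G _ => by ring
  rw [hG]
  unfold Setup.LG
  rw [vk_LF_vf S h, vf_apply]
  simp only [if_neg (n1 _), if_neg (n2 _)]
  ring

/-- the first part of the polarised form -/
theorem vk_P1 {k l : Fin 9} (hkl : Same k l) {a : Fin d → ℝ} {ξ : Cfg d}
    (h : vf S k l a ξ = 0) (w : Cfg d) :
    ∑ m, ∑ A, S.LG ξ m A w * S.LG ξ m A (vf S k l a w) = 0 := by
  by_cases hk : k.val < 3
  · have hl : l.val < 3 := hkl.2.1 hk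
    obtain ⟨p, rfl⟩ : ∃ p : Fin 3, k = c3 p := ⟨⟨k.val, hk⟩, rfl⟩
    obtain ⟨q, rfl⟩ : ∃ q : Fin 3, l = c3 q := ⟨⟨l.val, hl⟩, rfl⟩
    have hpq : p ≠ q := fun e => hkl.1 (by rw [e])
    have h1 : ∀ m A, S.LG ξ m A w * S.LG ξ m A (vf S (c3 p) (c3 q) a w) =
        ((if m = q then S.LG ξ m A w * S.LG ξ p A w else 0) -
        (if m = p then S.LG ξ m A w * S.LG ξ q A w else 0)) +
        S.LG ξ m A w * ∑ G, vkm S a G A * S.LG ξ m G w := by
      intro m A
      rw [vk_LG_vf S hpq h]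
      split_ifs <;> ring
    simp only [h1, Finset.sum_add_distrib, Finset.sum_sub_distrib]
    have h2 : ∑ m, ∑ A, S.LG ξ m A w * ∑ G, vkm S a G A * S.LG ξ m G w = 0 :=
      Finset.sum_eq_zero fun m _ => vk_anti S a fun A => S.LG ξ m A w
    have h3 : ∑ m, ∑ A, (if m = q then S.LG ξ m A w * S.LG ξ p A w else 0) =
        ∑ A, S.LG ξ q A w * S.LG ξ p A w := by
      rw [Finset.sum_comm]
      exact Finset.sum_congr rfl fun A _ => by
        rw [Finset.sum_ite_eq' Finset.univ q, if_pos (Finset.mem_univ _)]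
    have h4 : ∑ m, ∑ A, (if m = p then S.LG ξ m A w * S.LG ξ q A w else 0) =
        ∑ A, S.LG ξ p A w * S.LG ξ q A w := by
      rw [Finset.sum_comm]
      exact Finset.sum_congr rfl fun A _ => by
        rw [Finset.sum_ite_eq' Finset.univ p, if_pos (Finset.mem_univ _)]
    rw [h2, h3, h4, ← Finset.sum_sub_distrib, add_zero]
    exact Finset.sum_eq_zero fun A _ => by ring
  · have hl : ¬ l.val < 3 := fun e => hk (hkl.2.2 e)
    refine Finset.sum_eq_zero fun m _ => ?_
    have h1 : ∀ A, S.LG ξ m A w * S.LG ξ m A (vf S k l a w) =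
        S.LG ξ m A w * ∑ G, vkm S a G A * S.LG ξ m G w := fun A => by
      rw [vk_LG_vf' S hk hl h]
    simp only [h1]
    exact vk_anti S a fun A => S.LG ξ m A w

/-- the second part of the polarised form -/
theorem vk_P2 {k l : Fin 9} (hkl : Same k l) (a : Fin d → ℝ) (w : Cfg d) :
    (∑ i : Fin 9, ∑ A, if i.val < 3 then 0 else w (i, A) * vf S k l a w (i, A)) = 0 := by
  obtain ⟨c, hc⟩ : ∃ c : Fin 9 → ℝ, c = fun i => if i.val < 3 then 0 else 1 := ⟨_, rfl⟩
  have hckl : c k = c l := by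
    rw [hc]
    by_cases hk : k.val < 3
    · simp only [if_pos hk, if_pos (hkl.2.1 hk)]
    · simp only [if_neg hk, if_neg fun e => hk (hkl.2.2 e)]
  have h1 : ∀ i A, (if i.val < 3 then 0 else w (i, A) * vf S k l a w (i, A) : ℝ) =
      c i * (w (i, A) * ((if i = l then w (k, A) else 0) - (if i = k then w (l, A) else 0))) +
      c i * (w (i, A) * ∑ G, vkm S a G A * w (i, G)) := by
    intro i A
    rw [hc, vf_apply]
    by_cases hi : i.val < 3
    · simp only [if_pos hi]; ring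
    · simp only [if_neg hi]; ring
  simp only [h1, Finset.sum_add_distrib]
  have h2 : ∑ i, ∑ A, c i * (w (i, A) * ∑ G, vkm S a G A * w (i, G)) = 0 :=
    Finset.sum_eq_zero fun i _ => by
      rw [← Finset.mul_sum, vk_anti S a fun A => w (i, A), mul_zero]
  rw [h2, Finset.sum_comm, add_zero]
  exact Finset.sum_eq_zero fun A _ => vk_rot c (fun i => w (i, A)) hckl

/-- the third part of the polarised form -/
theorem vk_P3 {k l : Fin 9} (hkl : Same k l) {a : Fin d → ℝ} {ξ : Cfg d}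
    (h : vf S k l a ξ = 0) (w : Cfg d) : (∑ i : Fin 9, ∑ j : Fin 9, ∑ A,
      if i.val < 3 ∧ j.val < 3 then 0 else S.LF ξ A i j w * S.LF ξ A i j (vf S k l a w)) = 0 := by
  obtain ⟨c, hc⟩ : ∃ c : Fin 9 → Fin 9 → ℝ, c = fun i j => if i.val < 3 ∧ j.val < 3 then 0 else 1 :=
    ⟨_, rfl⟩
  have hc1 : ∀ j, c k j = c l j := by
    intro j
    rw [hc]
    by_cases hk : k.val < 3
    · have hl := hkl.2.1 hk
      simp only [hk, hl]
    · have hl : ¬ l.val < 3 := fun e => hk (hkl.2.2 e)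
      simp only [hk, hl]
  have hc2 : ∀ i, c i k = c i l := by
    intro j
    rw [hc]
    by_cases hk : k.val < 3
    · have hl := hkl.2.1 hk
      simp only [hk, hl]
    · have hl : ¬ l.val < 3 := fun e => hk (hkl.2.2 e)
      simp only [hk, hl]
  have h1 : ∀ (i j : Fin 9) (A : Fin d), (if i.val < 3 ∧ j.val < 3 then 0 else
      S.LF ξ A i j w * S.LF ξ A i j (vf S k l a w) : ℝ) =
      c i j * (S.LF ξ A i j w * ((if i = l then S.LF ξ A k j w else 0) -
        (if i = k then S.LF ξ A l j w else 0))) +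
      c i j * (S.LF ξ A i j w * ((if j = l then S.LF ξ A i k w else 0) -
        (if j = k then S.LF ξ A i l w else 0))) +
      c i j * (S.LF ξ A i j w * ∑ G, vkm S a G A * S.LF ξ G i j w) := by
    intro i j A
    rw [hc, vk_LF_vf S h]
    by_cases hi : i.val < 3 ∧ j.val < 3
    · simp only [if_pos hi]; ring
    · simp only [if_neg hi]; ring
  simp only [h1, Finset.sum_add_distrib]
  have h2 : ∑ i, ∑ j, ∑ A, c i j * (S.LF ξ A i j w * ∑ G, vkm S a G A * S.LF ξ G i j w) = 0 :=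
    Finset.sum_eq_zero fun i _ => Finset.sum_eq_zero fun j _ => by
      rw [← Finset.mul_sum, vk_anti S a fun A => S.LF ξ A i j w, mul_zero]
  have h3 : ∑ i, ∑ j, ∑ A, c i j * (S.LF ξ A i j w * ((if i = l then S.LF ξ A k j w else 0) -
        (if i = k then S.LF ξ A l j w else 0))) = 0 := by
    rw [Finset.sum_comm]
    refine Finset.sum_eq_zero fun j _ => ?_
    rw [Finset.sum_comm]
    exact Finset.sum_eq_zero fun A _ => vk_rot (fun i => c i j) (fun i => S.LF ξ A i j w) (hc1 j)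
  have h4 : ∑ i, ∑ j, ∑ A, c i j * (S.LF ξ A i j w * ((if j = l then S.LF ξ A i k w else 0) -
        (if j = k then S.LF ξ A i l w else 0))) = 0 := by
    refine Finset.sum_eq_zero fun i _ => ?_
    rw [Finset.sum_comm]
    exact Finset.sum_eq_zero fun A _ => vk_rot (fun j => c i j) (fun j => S.LF ξ A i j w) (hc2 i)
  rw [h2, h3, h4]
  ring

theorem vk_P {k l : Fin 9} (hkl : Same k l) {a : Fin d → ℝ} {ξ : Cfg d}
    (h : vf S k l a ξ = 0) (w : Cfg d) : vkP S ξ w (vf S k l a w) = 0 := by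
  unfold vkP
  rw [vk_P1 S hkl h, vk_P2 S hkl, vk_P3 S hkl h]
  ring

theorem vf_add (k l : Fin 9) (a : Fin d → ℝ) (x y : Cfg d) :
    vf S k l a (x + y) = vf S k l a x + vf S k l a y := by
  ext ⟨i, B⟩
  rw [PiLp.add_apply, vf_apply, vf_apply, vf_apply]
  have h1 : ∑ A, vkm S a A B * (x + y) (i, A) = ∑ A, vkm S a A B * x (i, A) +
      ∑ A, vkm S a A B * y (i, A) := by
    rw [← Finset.sum_add_distrib]
    exact Finset.sum_congr rfl fun A _ => by rw [PiLp.add_apply]; ring
  rw [h1, PiLp.add_apply, PiLp.add_apply]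
  split_ifs <;> ring

theorem vf_smul (k l : Fin 9) (a : Fin d → ℝ) (c : ℝ) (x : Cfg d) :
    vf S k l a (c • x) = c • vf S k l a x := by
  ext ⟨i, B⟩
  rw [PiLp.smul_apply, vf_apply, vf_apply]
  have h1 : ∑ A, vkm S a A B * (c • x) (i, A) = c * ∑ A, vkm S a A B * x (i, A) := by
    rw [Finset.mul_sum]
    exact Finset.sum_congr rfl fun A _ => by rw [PiLp.smul_apply, smul_eq_mul]; ring
  rw [h1, PiLp.smul_apply, PiLp.smul_apply, smul_eq_mul, smul_eq_mul, smul_eq_mul]
  split_ifs <;> ring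

/-- the vector field as a continuous linear map -/
noncomputable def vfL (k l : Fin 9) (a : Fin d → ℝ) : Cfg d →L[ℝ] Cfg d :=
  LinearMap.toContinuousLinearMap
    { toFun := vf S k l a
      map_add' := vf_add S k l a
      map_smul' := vf_smul S k l a }

theorem vfL_apply (k l : Fin 9) (a : Fin d → ℝ) (x : Cfg d) : vfL S k l a x = vf S k l a x := rfl

/-- `vf` is antisymmetric -/
theorem vf_self (k l : Fin 9) (a : Fin d → ℝ) (x : Cfg d) :
    inner ℝ x (vf S k l a x) = 0 := by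
  have h0 : ∀ a b : ℝ, inner ℝ a b = a * b := fun a b => by simp [mul_comm]
  rw [PiLp.inner_apply, Fintype.sum_prod_type]
  simp only [h0, vf_apply, mul_add, Finset.sum_add_distrib]
  have h2 : ∑ i, ∑ A, x (i, A) * ∑ G, vkm S a G A * x (i, G) = 0 :=
    Finset.sum_eq_zero fun i _ => vk_anti S a fun A => x (i, A)
  rw [h2, Finset.sum_comm, add_zero]
  refine Finset.sum_eq_zero fun A _ => ?_
  have h3 := vk_rot (fun _ => 1) (fun i => x (i, A)) (k := k) (l := l) rfl
  simpa only [one_mul] using h3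

theorem vf_anti (k l : Fin 9) (a : Fin d → ℝ) (x y : Cfg d) :
    inner ℝ (vf S k l a x) y = - inner ℝ x (vf S k l a y) := by
  have h := vf_self S k l a (x + y)
  rw [vf_add, inner_add_left, inner_add_right, inner_add_right, vf_self, vf_self,
    real_inner_comm (vf S k l a x) y] at h
  linarith

/-- **G16** -/
theorem vfK (h2 : SqCommStmt) : VfKStmt S := by
  intro ξ _ K hK k l hkl a ha x
  have hq : ∀ x y, inner ℝ (K x) (K y) = 2 * vkP S ξ x y := by
    intro x y
    have h1 := hK.sq (x + y)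
    rw [map_add, vk_hq_add, norm_add_sq_real, hK.sq, hK.sq] at h1
    linarith
  have h0 : ∀ x, inner ℝ (K (K x)) (vf S k l a x) = 0 := fun x => by
    rw [hK.symm, hq, vk_P S hkl ha, mul_zero]
  have hanti : ∀ x y, inner ℝ (K (K x)) (vf S k l a y) = - inner ℝ (K (K y)) (vf S k l a x) := by
    intro x y
    have h := h0 (x + y)
    rw [vf_add, map_add, map_add, inner_add_left, inner_add_right, inner_add_right, h0, h0] at h
    linarith
  have hcomm : ∀ x, vfL S k l a (K (K x)) = K (K (vfL S k l a x)) := by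
    intro x
    refine ext_inner_right ℝ fun y => ?_
    rw [vfL_apply, vfL_apply, vf_anti, hanti, neg_neg, hK.symm, hK.symm,
      real_inner_comm]
  have h := h2 (Cfg d) K (vfL S k l a) hK.symm hK.pos hcomm x
  rw [vfL_apply, vfL_apply] at h
  exact h.symm

end Vale.Agent.P353.AN.G
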