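import Vale.Agent.P353.AN.G.Act
import Vale.Agent.P353.Z.U.Hes

/-! # P353, all `N`, block G35: zeros of `V_1` for all partitions, in different orbits -/

open MeasureTheory Filter Topology
open scoped ContDiff

namespace Vale.Agent.P353.AN.G

open Vale.Agent.P353.Z Vale.Agent.P353.Z.U

universe w

namespace Zer935

variable {N d : ℕ} {F : Type w} [NormedAddCommGroup F] [InnerProductSpace ℂ F]

/-- the configuration of a triple of matrices -/
noncomputable def conf (M : BFSS.Model N d F) (J : Fin 3 → Matrix (Fin N) (Fin N) ℂ) : Cfg d :=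
  WithLp.toLp 2 fun p =>
    if h : p.1.val < 3 then -2 * (M.T p.2 * J ⟨p.1.val, h⟩).trace.re else 0

lemma conf_c3 (M : BFSS.Model N d F) (J : Fin 3 → Matrix (Fin N) (Fin N) ℂ) (k : Fin 3)
    (A : Fin d) : conf M J (Setup.c3 k, A) = -2 * (M.T A * J k).trace.re := by
  have hk : (Setup.c3 k).val < 3 := k.2
  show (if h : (Setup.c3 k).val < 3 then -2 * (M.T A * J ⟨(Setup.c3 k).val, h⟩).trace.re
    else 0) = _
  rw [dif_pos hk]
  rfl

lemma conf_six (M : BFSS.Model N d F) (J : Fin 3 → Matrix (Fin N) (Fin N) ℂ) (i : Fin 9)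
    (hi : ¬ i.val < 3) (A : Fin d) : conf M J (i, A) = 0 := by
  show (if h : i.val < 3 then -2 * (M.T A * J ⟨i.val, h⟩).trace.re else 0) = _
  rw [dif_neg hi]

lemma tr_real (M : BFSS.Model N d F) {J : Fin 3 → Matrix (Fin N) (Fin N) ℂ} (hJ : Cnt.JT J)
    (k : Fin 3) (A : Fin d) : (((M.T A * J k).trace.re : ℝ) : ℂ) = (M.T A * J k).trace := by
  rw [← Complex.conj_eq_iff_re]
  have h1 : (M.T A * J k).conjTranspose.trace = star (M.T A * J k).trace :=
    Matrix.trace_conjTranspose _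
  rw [Matrix.conjTranspose_mul, hJ.herm, M.T_hermitian, Matrix.trace_mul_comm] at h1
  exact h1.symm

lemma tr_zero {J : Fin 3 → Matrix (Fin N) (Fin N) ℂ} (hJ : Cnt.JT J) (k : Fin 3) :
    (J k).trace = 0 := by
  have h := congrArg Matrix.trace (hJ.comm k)
  rw [Matrix.trace_sub, Matrix.trace_mul_comm, sub_self, Matrix.trace_smul, smul_eq_mul] at h
  exact (mul_eq_zero.1 h.symm).resolve_left Complex.I_ne_zero

lemma Jx_conf (M : BFSS.Model N d F) (hN : 0 < N) {J : Fin 3 → Matrix (Fin N) (Fin N) ℂ}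
    (hJ : Cnt.JT J) (k : Fin 3) : Cnt.Jx M (conf M J) k = J k := by
  have h := mad_complete M hN (J k)
  rw [tr_zero hJ, zero_div, zero_smul, add_zero] at h
  rw [h]
  unfold Cnt.Jx
  refine Finset.sum_congr rfl fun A _ => ?_
  have e : -(1 / 2) * (-2 * (M.T A * J k).trace.re) = (M.T A * J k).trace.re := by ring
  rw [conf_c3, e, tr_real M hJ k A]

lemma Jx_bracket (M : BFSS.Model N d F) {S : Setup d F} (hR : Rep M S) (x : Cfg d) (k : Fin 3) :
    Cnt.Jx M x (k + 1) * Cnt.Jx M x (k + 2) - Cnt.Jx M x (k + 2) * Cnt.Jx M x (k + 1) =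
      ∑ A, (Complex.I * (((1 / 4) * ∑ B, ∑ C, S.f A B C *
      x (Setup.c3 (k + 1), B) * x (Setup.c3 (k + 2), C) : ℝ) : ℂ)) • M.T A := by
  have e1 : Cnt.Jx M x (k + 1) * Cnt.Jx M x (k + 2) - Cnt.Jx M x (k + 2) * Cnt.Jx M x (k + 1) =
      ∑ B, ∑ C, (((1 / 4) * (x (Setup.c3 (k + 1), B) * x (Setup.c3 (k + 2), C)) : ℝ) : ℂ) •
        (M.T B * M.T C - M.T C * M.T B) := by
    unfold Cnt.Jx
    rw [Finset.sum_mul_sum, Finset.sum_mul_sum, Finset.sum_comm (γ := Fin d)
      (f := fun i j => (((-(1 / 2) * x (Setup.c3 (k + 2), i) : ℝ) : ℂ) • M.T i) *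
        (((-(1 / 2) * x (Setup.c3 (k + 1), j) : ℝ) : ℂ) • M.T j)), ← Finset.sum_sub_distrib]
    refine Finset.sum_congr rfl fun B _ => ?_
    rw [← Finset.sum_sub_distrib]
    refine Finset.sum_congr rfl fun C _ => ?_
    rw [smul_mul_smul_comm, smul_mul_smul_comm, smul_sub]
    push_cast
    congr 2 <;> ring
  rw [e1]
  have e2 : ∀ B C, M.T B * M.T C - M.T C * M.T B =
      ∑ A, (Complex.I * ((S.f A B C : ℝ) : ℂ)) • M.T A := by
    intro B C
    rw [M.T_comm]
    refine Finset.sum_congr rfl fun A _ => ?_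
    rw [S.f_cyc A B C, hR.hf]
  simp only [e2, Finset.smul_sum, smul_smul]
  rw [Finset.sum_congr rfl (fun B _ => Finset.sum_comm), Finset.sum_comm]
  refine Finset.sum_congr rfl fun A _ => ?_
  simp only [← Finset.sum_smul]
  congr 1
  push_cast
  simp only [Finset.mul_sum]
  refine Finset.sum_congr rfl fun B _ => Finset.sum_congr rfl fun C _ => ?_
  ring

/-- coefficients of a combination of the `T_A` -/
lemma tr_sum (M : BFSS.Model N d F) (c : Fin d → ℂ) (A : Fin d) :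
    (M.T A * ∑ B, c B • M.T B).trace = c A := by
  rw [Finset.mul_sum, Matrix.trace_sum]
  simp only [Matrix.mul_smul, Matrix.trace_smul, M.T_orthonormal, smul_eq_mul, mul_ite, mul_one,
    mul_zero, Finset.sum_ite_eq, Finset.mem_univ, if_true]

lemma GG_conf (M : BFSS.Model N d F) {S : Setup d F} (hR : Rep M S) (hN : 0 < N)
    {J : Fin 3 → Matrix (Fin N) (Fin N) ℂ} (hJ : Cnt.JT J) (k : Fin 3) (A : Fin d) :
    S.GG 1 k A (conf M J) = 0 := by
  have h1 := Jx_bracket M hR (conf M J) k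
  rw [Jx_conf M hN hJ, Jx_conf M hN hJ, hJ.comm k, ← Jx_conf M hN hJ k] at h1
  have h2 := congrArg (fun X => (M.T A * X).trace) h1
  simp only [tr_sum] at h2
  have h3 : (M.T A * (Complex.I • Cnt.Jx M (conf M J) k)).trace =
      Complex.I * (((-(1 / 2) * conf M J (Setup.c3 k, A)) : ℝ) : ℂ) := by
    rw [Matrix.mul_smul, Matrix.trace_smul, smul_eq_mul]
    unfold Cnt.Jx
    rw [tr_sum M (fun A => ((-(1 / 2) * conf M J (Setup.c3 k, A) : ℝ) : ℂ)) A]
  rw [h3] at h2
  have h4 := mul_left_cancel₀ Complex.I_ne_zero h2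
  have h5 : -(1 / 2) * conf M J (Setup.c3 k, A) = (1 / 4) * ∑ B, ∑ C, S.f A B C *
      conf M J (Setup.c3 (k + 1), B) * conf M J (Setup.c3 (k + 2), C) :=
    Complex.ofReal_injective h4
  unfold Setup.GG Setup.FF
  rw [hR.hκ, one_mul, mul_one]
  linarith

lemma Vm_conf (M : BFSS.Model N d F) {S : Setup d F} (hR : Rep M S) (hN : 0 < N)
    {J : Fin 3 → Matrix (Fin N) (Fin N) ℂ} (hJ : Cnt.JT J) : S.Vm 1 (conf M J) = 0 := by
  rw [sq_stmt S 1 (conf M J)]
  have h1 : ∑ k, ∑ A, S.GG 1 k A (conf M J) ^ 2 = 0 :=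
    Finset.sum_eq_zero fun k _ => Finset.sum_eq_zero fun A _ => by
      rw [GG_conf M hR hN hJ]; simp
  have h2 : (∑ i : Fin 9, ∑ A, if i.val < 3 then 0 else conf M J (i, A) ^ 2) = 0 :=
    Finset.sum_eq_zero fun i _ => Finset.sum_eq_zero fun A _ => by
      split_ifs with h
      · rfl
      · rw [conf_six M J i h]; simp
  have h3 : (∑ i : Fin 9, ∑ j : Fin 9, ∑ A,
      if i.val < 3 ∧ j.val < 3 then 0 else S.FF A i j (conf M J) ^ 2) = 0 :=
    Finset.sum_eq_zero fun i _ => Finset.sum_eq_zero fun j _ => Finset.sum_eq_zero fun A _ => by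
      split_ifs with h
      · rfl
      · have h0 : S.FF A i j (conf M J) = 0 := by
          unfold Setup.FF
          rw [Finset.sum_eq_zero, mul_zero]
          intro B _
          refine Finset.sum_eq_zero fun C _ => ?_
          by_cases hi : i.val < 3
          · have hj : ¬ j.val < 3 := fun hj => h ⟨hi, hj⟩
            rw [conf_six M J j hj, mul_zero]
          · rw [conf_six M J i hi, mul_zero, zero_mul]
        rw [h0]; simp
  rw [h1, h2, h3]
  simp

lemma Jx_act (M : BFSS.Model N d F) (hN : 0 < N) (U : BFSS.SU N) (x : Cfg d) (k : Fin 3) :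
    Cnt.Jx M (M.act U x) k = U.val * Cnt.Jx M x k * U.val.conjTranspose := by
  unfold Cnt.Jx
  rw [Finset.mul_sum, Finset.sum_mul]
  have h1 : ∀ A, U.val * (((-(1 / 2) * x (Setup.c3 k, A) : ℝ) : ℂ) • M.T A) *
      U.val.conjTranspose = ∑ B, (((-(1 / 2) * (BFSS.adCoeff M.T U B A * x (Setup.c3 k, A)) : ℝ))
        : ℂ) • M.T B := by
    intro A
    rw [Matrix.mul_smul, Matrix.smul_mul, act_conj M hN, Finset.smul_sum]
    refine Finset.sum_congr rfl fun B _ => ?_
    rw [smul_smul]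
    congr 1
    push_cast
    ring
  simp only [h1]
  rw [Finset.sum_comm]
  refine Finset.sum_congr rfl fun B _ => ?_
  rw [← Finset.sum_smul, ← Complex.ofReal_sum]
  congr 2
  show -(1 / 2) * (∑ A, BFSS.adCoeff M.T U B A * x (Setup.c3 k, A)) = _
  rw [Finset.mul_sum]

end Zer935

open Zer935 in
/-- **G35 Zer** -/
theorem zer {N d : ℕ} {F : Type w} [NormedAddCommGroup F] [InnerProductSpace ℂ F]
    (M : BFSS.Model N d F) (h5 : RepStmt N) : ZerStmt M := by
  intro S hR
  rcases Nat.eq_zero_or_pos N with hN | hN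
  · subst hN
    refine ⟨fun _ => 0, fun _ => ?_, fun π π' _ _ => Subsingleton.elim π π'⟩
    rw [sq_stmt S 1 0]
    simp [Setup.GG, Setup.FF]
  · obtain ⟨J, hJ, hd⟩ := h5
    refine ⟨fun π => conf M (J π), fun π => Vm_conf M hR hN (hJ π), fun π π' U h => ?_⟩
    refine hd π π' U fun k => ?_
    rw [← Jx_conf M hN (hJ π') k, ← Jx_conf M hN (hJ π) k, ← Jx_act M hN]
    exact congrArg (fun x => Cnt.Jx M x k) h.symm

end Vale.Agent.P353.AN.G
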