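import Vale.Agent.P353.Z.U.All
import Vale.Agent.P353.AN.G.SmInt
import Vale.Agent.P353.AN.G.SqComm
import Vale.Agent.P353.AN.G.Cas
import Vale.Agent.P353.AN.G.Gap3
import Vale.Agent.P353.AN.G.Rep
import Vale.Agent.P353.AN.G.PerpK
import Vale.Agent.P353.AN.G.Gap
import Vale.Agent.P353.AN.G.Tan
import Vale.Agent.P353.AN.G.LinN
import Vale.Agent.P353.AN.G.LinL
import Vale.Agent.P353.AN.G.LowEx
import Vale.Agent.P353.AN.G.Kill
import Vale.Agent.P353.AN.G.VacD
import Vale.Agent.P353.AN.G.HKill
import Vale.Agent.P353.AN.G.Vf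
import Vale.Agent.P353.AN.G.VfK
import Vale.Agent.P353.AN.G.JKill
import Vale.Agent.P353.AN.G.TvTst
import Vale.Agent.P353.AN.G.TvQ
import Vale.Agent.P353.AN.G.TvJ
import Vale.Agent.P353.AN.G.GRat
import Vale.Agent.P353.AN.G.Act
import Vale.Agent.P353.AN.G.QAct
import Vale.Agent.P353.AN.G.AvgD
import Vale.Agent.P353.AN.G.AvgC
import Vale.Agent.P353.AN.G.AvgG
import Vale.Agent.P353.AN.G.AvgB
import Vale.Agent.P353.AN.G.Dbl
import Vale.Agent.P353.AN.G.Rat
import Vale.Agent.P353.AN.G.NearCon
import Vale.Agent.P353.AN.G.Half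
import Vale.Agent.P353.AN.G.ExpH
import Vale.Agent.P353.AN.G.Cen
import Vale.Agent.P353.AN.G.Stab
import Vale.Agent.P353.AN.G.Zer
import Vale.Agent.P353.AN.G.One
import Vale.Agent.P353.AN.G.Main

/-! # P353, all `N`, block G: `c_N ≥ p(N)` -/

open MeasureTheory Filter Topology
open scoped ContDiff

namespace Vale.Agent.P353.AN.G

open Vale.Agent.P353.Z Vale.Agent.P353.Z.U

universe w

variable {N d : ℕ} {F : Type w} [NormedAddCommGroup F] [InnerProductSpace ℂ F]

/-- **Block G**: the BMN model of `SU(N)` has `p(N)` low states for every mass -/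
theorem gMain (M : BFSS.Model N d F) : GStmt M := by
  have hF : FiniteDimensional ℂ F := finiteDimensional_of_model M
  have h2 : SqCommStmt := sqComm
  have h6 : ∀ S : Setup d F, PerpKStmt S := fun S => perpK S
  have h7 : ∀ S : Setup d F, GapStmt S := fun S => gap S (gap3 d (cas d))
  have h8 : ∀ S : Setup d F, TanStmt S := fun S => tan S
  have h9 : ∀ S : Setup d F, LinNStmt S := fun S => linN S
  have h10 : ∀ S : Setup d F, LinLStmt S := fun S => linL S (All.A4 S) (crit S)
  have h11 : ∀ S : Setup d F, LowExStmt S := fun S => lowEx S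
  have h12 : ∀ S : Setup d F, KillStmt S := fun S => kill S (h6 S) (h7 S) (h8 S) (h9 S) (h10 S)
  have h13 : ∀ S : Setup d F, VacDStmt S := fun S => vacD S
  have h14 : ∀ S : Setup d F, HKillStmt S := fun S => hKill S (h13 S)
  have h15 : ∀ S : Setup d F, VfStmt S := fun S => vfEx S
  have h16 : ∀ S : Setup d F, VfKStmt S := fun S => vfK S h2
  have h17 : ∀ S : Setup d F, JKillStmt S := fun S => jKill S (h13 S)
  have h18 : TvTstStmt d F := tvTst d F
  have h19 : ∀ S : Setup d F, TvQStmt S := fun S => tvQ S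
  have h20 : ∀ S : Setup d F, TvJStmt S := fun S => tvJ S
  have h21 : GRatStmt d := gRat d
  have h22 : ActStmt M := act_stmt M
  have h23 : QActStmt M := qAct M
  have h24 : AvgDStmt M := avgD M (smInt (BFSS.SU N) (Cfg d)) h22 h23
  have h25 : AvgCStmt M := avgC M h22
  have h26 : AvgGStmt M := avgG M h22 h24 h25
  have h27 : AvgBStmt M := avgB M h22
  have h28 : DblStmt M := dbl M h22
  have h29 : RatStmt M := rat M h18 h21 h22 h28
  have h30 : NearConStmt M := nearCon M h2 h22
  have h31 : HalfStmt M := half M h22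
  have h32 : ExpHStmt M := expH M
  have h33 : CenStmt M := cen M h11 h14 h32
  have h34 : StabStmt M := stab M h14 h32 h33
  have h35 : ZerStmt M := zer M (rep N)
  have h36 : OneStmt M := one_stmt M h11 h12 h15 h16 h17 h18 h19 h20 h22 h24 h25 h26 h27 h29 h30 h31 h34
  exact main_stmt M h22 h35 h36

end Vale.Agent.P353.AN.G
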