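import Vale.Agent.P353.AN.G.Stmt

/-! # P353, all `N`, block G: G31 -/

open MeasureTheory Filter Topology
open scoped ContDiff

namespace Vale.Agent.P353.AN.G

open Vale.Agent.P353.Z Vale.Agent.P353.Z.U

theorem half {N d : ℕ} {F : Type*} [NormedAddCommGroup F] [InnerProductSpace ℂ F]
    [FiniteDimensional ℂ F] (M : BFSS.Model N d F) (h22 : ActStmt M) : HalfStmt M := by
  unfold HalfStmt
  intro ξ Ω hΩ hst
  unfold ActStmt at h22
  obtain ⟨_, _, _, _, _, hcont, _⟩ := h22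
  have hact : Continuous fun U : BFSS.SU N => M.act U ξ :=
    Continuous.comp (g := fun p : BFSS.SU N × Cfg d => M.act p.1 p.2) (f := fun U => (U, ξ))
      hcont (by fun_prop)
  have hc1 : Continuous fun U : BFSS.SU N => ‖M.act U ξ - ξ‖ := (hact.sub continuous_const).norm
  have hc2 : Continuous fun U : BFSS.SU N => (inner ℂ Ω (M.S U Ω)).re :=
    Complex.continuous_re.comp (continuous_const.inner (M.S_continuous Ω))
  have hB : IsCompact {U : BFSS.SU N | (inner ℂ Ω (M.S U Ω)).re ≤ 1 / 2} :=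
    (isClosed_le hc2 continuous_const).isCompact
  rcases Set.eq_empty_or_nonempty {U : BFSS.SU N | (inner ℂ Ω (M.S U Ω)).re ≤ 1 / 2} with he | hne
  · refine ⟨1, one_pos, fun U _ => ?_⟩
    by_contra h
    have h2 : U ∈ {U : BFSS.SU N | (inner ℂ Ω (M.S U Ω)).re ≤ 1 / 2} := (not_le.1 h).le
    rw [he] at h2
    exact h2
  · obtain ⟨U0, hU0, hmin⟩ := hB.exists_isMinOn hne hc1.continuousOn
    have hpos : 0 < ‖M.act U0 ξ - ξ‖ := by
      rw [norm_pos_iff, sub_ne_zero]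
      intro h
      have h2 := hst U0 h
      have h3 : (inner ℂ Ω (M.S U0 Ω)).re ≤ 1 / 2 := hU0
      rw [h2, inner_self_eq_norm_sq_to_K, hΩ] at h3
      norm_num at h3
    refine ⟨‖M.act U0 ξ - ξ‖ / 2, by positivity, fun U hU => ?_⟩
    by_contra h
    have h4 : U ∈ {U : BFSS.SU N | (inner ℂ Ω (M.S U Ω)).re ≤ 1 / 2} := (not_le.1 h).le
    have h5 : ‖M.act U0 ξ - ξ‖ ≤ ‖M.act U ξ - ξ‖ := hmin h4
    linarith

end Vale.Agent.P353.AN.G
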