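import Vale.Agent.P353.AN.G.Defs
import Vale.Agent.P353.Z.U.MCount

/-! # P353, all `N`, block G: `c_N ≥ p(N)` (statements)

Goal: `GStmt M` : the BMN model of `SU(N)` has, for every `m > 0` and `c > 0`, a `p(N)` dimensional space of invariant test
functions with `∑‖Q_βu‖² < c‖u‖²`.
Every `…Stmt` is a proposition; a prover delivers `theorem … : …Stmt …` in a file of its own `Vale/Agent/P353/AN/G/<Name>.lean`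
(other `…Stmt`s that are used are written as hypotheses of the theorem; then nobody waits for anybody).
`[FiniteDimensional ℂ F]` may be assumed everywhere (`finiteDimensional_of_model`). -/

open MeasureTheory Filter Topology
open scoped ContDiff

namespace Vale.Agent.P353.AN.G

open Vale.Agent.P353.Z Vale.Agent.P353.Z.U

universe w

/-! ## Part 1: general facts (no model) -/

/-- **G01 SmInt** smoothness of averages. `X` compact with a finite Borel measure, `s : X → (F₁ →L F₂)`, `ρ : X → (E →L E)`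
continuous in operator norm, `v : E → F₁` smooth. Then `x ↦ ∫ s(a)(v(ρ(a)x)) dμ(a)` is smooth with the expected derivative.
PROOF. `hasFDerivAt_integral_of_dominated_of_fderiv_le` on a ball (bounds: continuity on the compact `X × closedBall`); the
derivative is `∫ s(a)∘v'(ρ(a)x)∘ρ(a)`, of the same form with `F₁' = E →L F₁`, `F₂' = E →L F₂`, `s'(a) = (T ↦ s(a)∘T∘ρ(a))`
(continuous in `a`), `v' = fderiv v`: induction on `n` in `ContDiff ℝ n`. (Everything in one universe.) -/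
def SmIntStmt (X E : Type) [TopologicalSpace X] [CompactSpace X] [SecondCountableTopology X] [MeasurableSpace X]
    [BorelSpace X] [NormedAddCommGroup E] [NormedSpace ℝ E] [FiniteDimensional ℝ E] : Prop :=
  ∀ (μ : Measure X) [IsFiniteMeasure μ] (ρ : X → E →L[ℝ] E), Continuous ρ →
  ∀ (F₁ F₂ : Type w) [NormedAddCommGroup F₁] [NormedSpace ℝ F₁] [FiniteDimensional ℝ F₁]
    [NormedAddCommGroup F₂] [NormedSpace ℝ F₂] [FiniteDimensional ℝ F₂]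
    (s : X → F₁ →L[ℝ] F₂), Continuous s → ∀ v : E → F₁, ContDiff ℝ ∞ v →
  ContDiff ℝ ∞ (fun x => ∫ a, s a (v (ρ a x)) ∂μ) ∧
    ∀ x w, fderiv ℝ (fun x => ∫ a, s a (v (ρ a x)) ∂μ) x w =
      ∫ a, s a (fderiv ℝ v (ρ a x) (ρ a w)) ∂μ

/-- **G02 SqComm** an operator commuting with the square of a positive symmetric operator `K` commutes with `K`.
PROOF. `D = XK - KX` satisfies `KD + DK = XK² - K²X + … = 0` (expand: `KXK - K²X + XK² - KXK = 0`). Eigenbasis of `K`: if `Kx = λx`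
then `K(Dx) = -λDx`; `λ > 0`: `0 ≤ ⟨Dx,KDx⟩ = -λ|Dx|²` gives `Dx = 0`; `λ = 0`: `Dx = -KXx`, `K(KXx) = 0`, so `|KXx|² = ⟨Xx,KKXx⟩ = 0`. -/
def SqCommStmt : Prop := ∀ (E : Type) [NormedAddCommGroup E] [InnerProductSpace ℝ E]
  [FiniteDimensional ℝ E] (K X : E →L[ℝ] E), (∀ x y, inner ℝ (K x) y = inner ℝ x (K y)) →
  (∀ x, 0 ≤ inner ℝ x (K x)) → (∀ x, X (K (K x)) = K (K (X x))) → ∀ x, X (K x) = K (X x)

/-- **G03 Cas** the nonzero eigenvalues of the Casimir of a real representation of `so(3)` are `≥ 3/4`.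
PROOF. Complexify: `h = 2iD_2`, `e = iD_0 - D_1`, `f = iD_0 + D_1` (signs as needed) is an `sl₂` triple on `E = EuclideanSpace ℂ (Fin d)`
(`Cnt.HTr`, or `Cnt.JT` for the Hermitian matrices `J_k = ±iD_k`: `[J_i,J_j] = iJ_k`, `Cnt.JT.htr`). The eigenspace of the Casimir `J_0²+J_1²+J_2²`
with eigenvalue `c` is invariant and nonzero; `Cnt.exists_hw` gives a highest weight vector in it with weight `n ∈ ℕ`, and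
`J² = (h/2)² + h/2 + f e` gives `c = (n/2)(n/2+1)`, which is `0` or `≥ 3/4`. -/
def CasStmt (d : ℕ) : Prop := ∀ D : Fin 3 → Matrix (Fin d) (Fin d) ℝ,
  (∀ k, (D k).transpose = -D k) → (∀ k, D (k + 1) * D (k + 2) - D (k + 2) * D (k + 1) = D k) →
  ∀ (c : ℝ) (v : Fin d → ℝ), v ≠ 0 → -(∑ k, (D k * D k).mulVec v) = c • v → c = 0 ∨ 3 / 4 ≤ c

/-- **G04 Gap3** `|w|² ≤ 4|w - D×w|²` if `D·w = 0`.
PROOF. `(𝒟w)_k = D_{k+1}w_{k+2} - D_{k+2}w_{k+1}` is symmetric, preserves `X = {D·w = 0}` and on `X` `𝒟²w - 𝒟w = Cw`, `C = -∑D_k²`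
componentwise (`hes_core`). On an eigenvector `𝒟w = yw`, `w ∈ X`: `C w_k = (y²-y)w_k`, some `w_k ≠ 0`, so by G03 `y²-y = 0` or
`≥ 3/4`. If `y² - y = 0`: `∑_i|D_iw_k|² = ⟨w_k,Cw_k⟩ = 0`, so `𝒟w = 0`, `y = 0`, `|1-y| = 1`. If `y²-y ≥ 3/4`: `y ≥ 3/2` or `y ≤ -1/2`. So
`|1-y| ≥ 1/2` for all eigenvalues of the symmetric operator `𝒟|_X`; diagonalise. -/
def Gap3Stmt (d : ℕ) : Prop := ∀ D : Fin 3 → Matrix (Fin d) (Fin d) ℝ,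
  (∀ k, (D k).transpose = -D k) → (∀ k, D (k + 1) * D (k + 2) - D (k + 2) * D (k + 1) = D k) →
  ∀ w : Fin 3 → Fin d → ℝ, ∑ k, (D k).mulVec (w k) = 0 →
  ∑ k, ∑ A, w k A ^ 2 ≤
    4 * ∑ k, ∑ A, (w k A - ((D (k + 1)).mulVec (w (k + 2)) A - (D (k + 2)).mulVec (w (k + 1)) A)) ^ 2

/-- **G05 Rep** for every partition an angular momentum triple; different partitions give inequivalent triples.
PROOF. Spin matrices on `Fin n`: `J_z = diag((n-1)/2 - k)`, `J_+e_{k+1} = √((k+1)(n-1-k)) e_k`, `J_- = J_+^*`, `J_0 = (J_++J_-)/2`,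
`J_1 = (J_+-J_-)/(2i)`, `J_2 = J_z`; `[J_+,J_-] = 2J_z`, `[J_z,J_±] = ±J_±`. Block diagonal over the parts
(`Matrix.blockDiagonal'`, reindexed by an equivalence `(Σ i : Fin (#parts), Fin (part i)) ≃ Fin N`).
If `J' = VJV*` then `J_2`, `J_2'` have the same eigenvalue multiplicities (same characteristic polynomial); `J_2` is diagonal and the
multiplicity of the eigenvalue `s/2` minus that of `s/2+1` (`s ≥ 0`) is the number of parts equal to `s+1`. -/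
def RepStmt (N : ℕ) : Prop := ∃ J : Nat.Partition N → Fin 3 → Matrix (Fin N) (Fin N) ℂ,
  (∀ π, Cnt.JT (J π)) ∧ ∀ π π' (V : BFSS.SU N),
    (∀ k, J π' k = V.val * J π k * V.val.conjTranspose) → π = π'

section S

variable {d : ℕ} {F : Type*} [NormedAddCommGroup F] [InnerProductSpace ℂ F]

/-! ## Part 2: the Hessian and the fermions at a zero `ξ` of `V_1` -/

/-- **G06 PerpK** the gauge directions are in the kernel of `K` (so `Perp ξ (Kx)` for all `x`).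
PROOF. `τ_C = (i,B) ↦ ∑_A f_{CAB}ξ_i^A` satisfies `hq ξ τ_C = 0` (Jacobi: `LG ξ k A τ_C = ` gauge rotation of `GG 1 k · ξ = 0`, `LF ξ A i j τ_C = ` gauge
rotation of `FF · i j ξ`, which is `0` unless `i,j ∈ I3`; `τ_C` vanishes on `I6`), so `‖Kτ_C‖² = 2hq = 0` and `⟨τ_C,Kx⟩ = ⟨Kτ_C,x⟩ = 0`. -/
def PerpKStmt (S : Setup d F) : Prop := ∀ ξ : Cfg d, S.Vm 1 ξ = 0 → ∀ K : Cfg d →L[ℝ] Cfg d, S.IsK ξ K →
  ∀ x, S.Perp ξ (K x)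

/-- **G07 Gap** `|x|² ≤ |Kx|²` orthogonally to the gauge directions. PROOF. `‖Kx‖² = 2hq ξ x ≥ ∑_{k,A}LG² + ∑_{I6}x²`,
`LG ξ k A x = 2(x_k - (D×x)_k)^A` with `D_k = hesD S ξ k` (`hesD_mulVec`, `hesD_transpose`, `hesD_comm`, `hes_perp`), and G04. -/
def GapStmt (S : Setup d F) : Prop := ∀ ξ : Cfg d, S.Vm 1 ξ = 0 → ∀ K : Cfg d →L[ℝ] Cfg d, S.IsK ξ K →
  ∀ x, S.Perp ξ x → ‖x‖ ^ 2 ≤ ‖K x‖ ^ 2

/-- **G08 Tan** `L_β(a) = 0` if `Ka = 0`. PROOF. `‖Ka‖² = 2hq ξ a = 0`, and `∑_β Lb_β(a)² = 16 hq ξ a` (`Z/U/En.lean`: `TT_N1c`, `N1c_sq`), each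
`Lb_β(a)` is self-adjoint (`TT_symm`), so `∑_β‖Lb_β(a)v‖² = 0`. Or directly: all squares in `hq` vanish and `Lb_β(a)` is a linear combination
of `LG ξ k A a`, `a_i (i ∈ I6)`, `LF ξ A i j a` (not both in `I3`). -/
def TanStmt (S : Setup d F) : Prop := ∀ ξ : Cfg d, S.Vm 1 ξ = 0 → ∀ K : Cfg d →L[ℝ] Cfg d, S.IsK ξ K →
  ∀ a, K a = 0 → ∀ β, Lb S ξ β a = 0

/-- **G09 LinN** `[H_f, N_β(a)] = iL_β(a) - (i/2)(ΓN(a))_β` for `Perp ξ a`; `N_β(a) = a_i^A(γ^iθ^A)_β = S.B β a`.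
PROOF. Apply `A4Stmt` (`m = 1`) to `u(x) = ⟨a,x-ξ⟩φ` at `x = ξ` (`V_1`, `dV_1`, `W_β+M_β` vanish at `ξ`, `CritStmt`): `Q_αu(x) = -iN_α(a)φ + (W+M)_α(x)⟨a,x-ξ⟩φ`;
`H(Q_αu)(ξ) = -L_α(a)φ - iH_fN_α(a)φ` (`W+M` is harmonic, `-½Δ` of the product is `-∇(W+M)·a`); `Q_α(Hu)(ξ) = -iN_α(a)H_fφ`; right side
`-(i/2)∑Γ_{αβ}(-iN_β(a)φ)`, and `G_Cu(ξ) = -i∑f_{CAB}ξ_i^Aa_i^Bφ = 0`. (`dV_1(ξ) = 0`: `V_1 ≥ 0`, or `SqStmt`.) -/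
def LinNStmt (S : Setup d F) : Prop := ∀ ξ : Cfg d, S.Vm 1 ξ = 0 → ∀ a, S.Perp ξ a → ∀ (β : Fin 16) (v : F),
  Hf S ξ (S.B β a v) - S.B β a (Hf S ξ v) =
    Complex.I • Lb S ξ β a v - (Complex.I / 2) • ∑ γ, S.Gam β γ • S.B γ a v

/-- **G10 LinL** `[H_f, L_β(a)] = -iN_β(K²a) - (i/2)(ΓL(a))_β` for all `a`.
PROOF. Apply `A4Stmt` (`m = 1`) to the constant function `u = φ` at `x = ξ + ta` and differentiate at `t = 0`: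
`H(Q_αu)(x) = (V_1(x)+Fx x-¾FG)(W+M)_α(x)φ`; `Q_α(Hu)(x) = -i(γ^iθ^A)_α(∂_i^AV_1(x)+Fx(e_{iA}))φ + (W+M)_α(x)(V_1(x)+Fx x-¾FG)φ`;
right side `-(i/2)∑Γ_{αβ}(W+M)_β(x)φ - iκ∑θ_α^C𝒮_Cφ`. At `ξ`: `W+M = 0`, `V_1 = 0`, `dV_1 = 0`, Hessian of `V_1` = `K²` (`V_1(ξ+w) = hq ξ w + O(|w|³)`,
`⟨Kx,Ky⟩` = polarisation of `hq`). -/
def LinLStmt (S : Setup d F) : Prop := ∀ ξ : Cfg d, S.Vm 1 ξ = 0 → ∀ K : Cfg d →L[ℝ] Cfg d, S.IsK ξ K →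
  ∀ (a : Cfg d) (β : Fin 16) (v : F), Hf S ξ (Lb S ξ β a v) - Lb S ξ β a (Hf S ξ v) =
    -(Complex.I • S.B β (K (K a)) v) - (Complex.I / 2) • ∑ γ, S.Gam β γ • Lb S ξ γ a v

/-- **G11 LowEx** the lowest eigenvalue of `H_f` is simple. PROOF. `H_f` is self-adjoint on the finite dimensional `F ≠ 0`
(`InvStmt`: `H_f = i∑R_{pq}θ_pθ_q`); let `E` be its smallest eigenvalue; apply `QuaStmt` with `c₀ = -E`. -/
def LowExStmt (S : Setup d F) : Prop := S.Irr → (∃ v : F, v ≠ 0) → ∀ ξ : Cfg d, S.Vm 1 ξ = 0 →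
  ∃ (E : ℝ) (Ω : F), IsLow S ξ E Ω

/-- **G12 Kill** `L_β(x)Ω + iN_β(Kx)Ω = 0` for all `x`. PROOF. By linearity and an orthonormal eigenbasis of the symmetric `K` it is enough to
take `Kx = ωx`. If `ω = 0`: G08. If `ω ≠ 0` (`ω > 0`): `x = K(x/ω)` is `Perp` (G06), so `ω² ≥ 1` (G07). `B_β = L_β(x)+iωN_β(x)` satisfies by G09, G10
`[H_f,B_β] = -ωB_β - (i/2)∑Γ_{βγ}B_γ`. For `s = ±1` put `B^s_β = B_β + s i∑Γ_{βγ}B_γ` (`(iΓ)² = 1`): `[H_f,B^s_β] = -(ω+s/2)B^s_β`, so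
`H_f(B^s_βΩ) = (E-ω-s/2)B^s_βΩ` with `ω+s/2 ≥ 1/2 > 0`: `B^s_βΩ = 0` (`low`), and `2B_β = B^+_β + B^-_β`. -/
def KillStmt (S : Setup d F) : Prop := ∀ ξ : Cfg d, S.Vm 1 ξ = 0 → ∀ K : Cfg d →L[ℝ] Cfg d, S.IsK ξ K →
  ∀ (E : ℝ) (Ω : F), IsLow S ξ E Ω → ∀ (β : Fin 16) (x : Cfg d),
    Lb S ξ β x Ω + Complex.I • S.B β (K x) Ω = 0

/-! ## Part 3: symmetries of the vacuum -/

/-- **G13 VacD** symmetry bilinears kill the vacuum.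
PROOF. Index `p = (α,A)`. `H_f = i∑R_{pq}θ_pθ_q`, `R = ∑_{q∈I3}γ^q⊗T_q - ¾Γ⊗1` real antisymmetric invertible (`InvStmt`, `Inv.lean`; `ξ_q = 0` on `I6`),
`[H_f,θ(z)] = θ(2iRz)`, `θ(z) = ∑z_pθ_p`. `2iR` is Hermitian and invertible, `ℂ^n = E_- ⊕ E_+`; `θ(z)Ω = 0` for `z ∈ E_-` (it lowers the energy).
Put `P_{pq} = ⟨Ω,θ_pθ_qΩ⟩`; `P + Pᵀ = 1`. `Pz = 0` for `z ∈ E_-`. For `z ∈ E_+`: `z̄ ∈ E_-`, so `∑_pz_pP_{pq} = ⟨θ(z̄)Ω,θ_qΩ⟩ = 0`, so `Pz = z`.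
`Γ_j = γ^j⊗1` (`j ∈ I6`) is real orthogonal symmetric, `Γ_jRΓ_j = -R` (`γ^j` anticommutes with `γ^q`, `q ∈ I3`, and with `Γ`), so it exchanges `E_±`
and `Γ_jPΓ_j = 1 - P = Pᵀ`. So `tr(DP) = tr(Γ_jDΓ_jΓ_jPΓ_j) = tr(DPᵀ) = tr(PDᵀ) = -tr(PD)`, `tr(DP) = 0`, `⟨Ω,bD D Ω⟩ = ∑D_{pq}P_{pq} = 0`. Finally
`H_f(bD D Ω) = E·bD D Ω`, so `bD D Ω = λΩ` (`uniq`) and `λ = ⟨Ω,bD D Ω⟩ = 0`. -/
def VacDStmt (S : Setup d F) : Prop := ∀ ξ : Cfg d, S.Vm 1 ξ = 0 → ∀ (E : ℝ) (Ω : F), IsLow S ξ E Ω →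
  ∀ D : Matrix (Fin 16 × Fin d) (Fin 16 × Fin d) ℝ, D.transpose = -D →
  (∀ v, Hf S ξ (bD S D v) = bD S D (Hf S ξ v)) → ∀ j : Fin 9, 3 ≤ j.val →
  (∀ α β A B, ∑ α', ∑ β', (S.g j α α').re * D (α', A) (β', B) * (S.g j β' β).re = D (α, A) (β, B)) →
  bD S D Ω = 0

/-- **G14 HKill** `∑h_C𝒮_CΩ = 0` if `h` commutes with `ξ`. PROOF. `∑h_C𝒮_C = bD D` up to the factor `i`: `D_{(α,A),(β,B)} = -½δ_{αβ}∑_Ch_Cf_{CAB}`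
(real antisymmetric; `𝒮_C = -(i/2)∑f_{CDE}θ^D·θ^E`); `γ^jDγ^j = D`. It commutes with `H_f`: `[𝒮_C, Fx ξ] = ` the bilinear `Fx` with `ξ` replaced by its gauge
rotation, `[𝒮_C,FG] = 0`; or: `[G_C,H_m] = 0` from `A3Stmt`, `A7Stmt`, evaluated at `ξ` on a constant function (the vector field of
`∑h_CG_C` vanishes at `ξ`). Then G13. -/
def HKillStmt (S : Setup d F) : Prop := ∀ ξ : Cfg d, S.Vm 1 ξ = 0 → ∀ (E : ℝ) (Ω : F), IsLow S ξ E Ω →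
  ∀ h : Fin d → ℝ, (∀ i B, ∑ C, ∑ A, h C * S.f C A B * ξ (i, A) = 0) → ∑ C, (h C : ℂ) • S.cS C Ω = 0

/-- **G15 Vf** rotations in a block can be compensated by gauge transformations at `ξ`. PROOF. `k,l ∈ I6`: `a = 0` (`ξ_i = 0` on `I6`).
`k,l ∈ I3`, `(k,l,n)` cyclic: `a_C = -(κ/2)ξ_n^C` (and the opposite sign for `(l,k,n)` cyclic): the gauge part of the field at `(i,B)` is
`∑a_Cf_{CAB}ξ_i^A = -(1/2)F^B_{ni}(ξ)`, `F_{nk} = -2ξ_l`, `F_{nl} = 2ξ_k`. -/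
def VfStmt (S : Setup d F) : Prop := ∀ ξ : Cfg d, S.Vm 1 ξ = 0 → ∀ k l : Fin 9, Same k l →
  ∃ a : Fin d → ℝ, vf S k l a ξ = 0

/-- **G16 VfK** the compensated rotation commutes with `K`. PROOF. `X = vf S k l a` is linear antisymmetric with `Xξ = 0`, and the quadratic
form `hq ξ` is infinitesimally invariant under `X` (`hq ξ` is the quadratic part of `w ↦ V_1(ξ+w)`, `V_1` is invariant under the rotations `J_{kl}` of a block and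
gauge rotations: the polarised form satisfies `hq(ξ;Xw,w) = 0`; direct computation from the definition of `hq`, or
from `d/dt V_1(e^{tX}y) = 0`). Since `⟨Kx,Ky⟩` is the polarisation of `2hq`, `⟨KXx,Kx⟩ = 0` for all `x`, so `K²X` is antisymmetric, `K²X = XK²`; G02. -/
def VfKStmt (S : Setup d F) : Prop := ∀ ξ : Cfg d, S.Vm 1 ξ = 0 → ∀ K : Cfg d →L[ℝ] Cfg d, S.IsK ξ K →
  ∀ k l : Fin 9, Same k l → ∀ a : Fin d → ℝ, vf S k l a ξ = 0 → ∀ x, K (vf S k l a x) = vf S k l a (K x)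

/-- **G17 JKill** `(S_{kl} + ∑a_C𝒮_C)Ω = 0`. PROOF. `s = S_{kl}+∑a_C𝒮_C = i·bD D`, `D = -¼γ^{kl}⊗1 - ½1⊗(∑a_Cf_C)` real antisymmetric, `γ^jDγ^j = D` for
`j ∈ I6`, `j ≠ k,l`. `s` commutes with `H_f`: `J_{kl}` and `G_C` commute with `H_1 = (1/16)∑Q_β²` (A2, A3, A7; `∑_β[J,Q_β]Q_β+Q_β[J,Q_β] = 0` by antisymmetry of
`γ^{kl}`); evaluate `(J_{kl}+∑a_CG_C)H_1u = H_1(J_{kl}+∑a_CG_C)u` for the constant function `u = φ` at `ξ` (the vector field vanishes at `ξ`, `V_1(ξ) = 0`).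
Then G13. -/
def JKillStmt (S : Setup d F) : Prop := ∀ ξ : Cfg d, S.Vm 1 ξ = 0 → ∀ (E : ℝ) (Ω : F), IsLow S ξ E Ω →
  ∀ k l : Fin 9, Same k l → ∀ a : Fin d → ℝ, vf S k l a ξ = 0 →
    S.Skl k l Ω + ∑ C, (a C : ℂ) • S.cS C Ω = 0

/-! ## Part 4: the local trial function -/

/-- **G18 TvTst** the trial function is a test function supported in `‖ω‖ ≤ 2L`, and `0 ≤ ph ≤ ph2`, equality for `‖ω‖ ≤ L`. PROOF: `Real.smoothTransition`. -/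
def TvTstStmt (d : ℕ) (F : Type*) [NormedAddCommGroup F] [InnerProductSpace ℂ F] : Prop :=
  ∀ (ξ : Cfg d) (K : Cfg d →L[ℝ] Cfg d) (m L : ℝ), 0 < m → 0 < L →
  (∀ Ω : F, Setup.Tst (tv m L ξ K Ω)) ∧ ContDiff ℝ ∞ (ph m L ξ K) ∧ HasCompactSupport (ph m L ξ K) ∧
  (∀ x, 0 ≤ ph m L ξ K x ∧ ph m L ξ K x ≤ ph2 m L ξ K x) ∧
  (∀ x, ‖om m ξ x‖ ≤ L → ph m L ξ K x = ph2 m L ξ K x) ∧ (∀ x, ph m L ξ K x ≠ 0 → ‖om m ξ x‖ ≤ 2 * L)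

/-- **G19 TvQ** local energy bound. PROOF. With `ω = √m(x-mξ)`, `g(ω) = exp(-½⟨ω,Kω⟩)`, `c = cut(‖ω‖²/L²)`: `W_β(x)+mM_β(x) = m²(W_β+M_β)(ξ) + √m Lb_β(ω) + m⁻¹W_β(ω)`
(`W` quadratic, `M` linear, `CritStmt`), `∂_i^A = √m∂_ω`, so `Q_βtv = √m·c·g·(Lb_β(ω)+iN_β(Kω))Ω + √m·g·(-i)(γθ∇_ωc)_βΩ + m⁻¹c·g·W_β(ω)Ω`; the first term is `0` by hypothesis,
`|∇_ωc| ≤ C/L` and vanishes for `‖ω‖ > 2L`, `|m⁻¹W_β(ω)| ≤ Cm⁻¹L² ≤ C√m/L` for `m ≥ L²`, `L ≥ 1`. -/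
def TvQStmt (S : Setup d F) : Prop := ∀ ξ : Cfg d, S.Vm 1 ξ = 0 → ∀ K : Cfg d →L[ℝ] Cfg d, S.IsK ξ K →
  ∀ Ω : F, ‖Ω‖ = 1 → (∀ (β : Fin 16) (x : Cfg d), Lb S ξ β x Ω + Complex.I • S.B β (K x) Ω = 0) →
  ∃ C : ℝ, 0 ≤ C ∧ ∀ L m : ℝ, 1 ≤ L → L ^ 2 ≤ m → ∀ (β : Fin 16) (x : Cfg d),
    ‖S.Qm m β (tv m L ξ K Ω) x‖ ≤ Real.sqrt m * (C / L) * ph2 m L ξ K x

/-- **G20 TvJ** invariance of the trial function under the compensated rotation. PROOF. The first order part of `J_{kl}+∑a_CG_C` is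
`-i∂_{vf(x)}`; `vf` is linear antisymmetric (`⟨x, vf x⟩ = 0`, `k ≠ l`, `f` antisymmetric) and kills `ξ`, so `vf(x) = m^{-1/2}vf(ω)`; the derivatives of `‖ω‖²` and
`⟨ω,Kω⟩` along it are `2⟨ω,vf ω⟩ = 0`, `2⟨Kω,vf ω⟩ = ⟨Kω,vf ω⟩ + ⟨ω, K vf ω⟩ = ⟨ω,Kvfω⟩ - ⟨ω,vf Kω⟩ = 0`. -/
def TvJStmt (S : Setup d F) : Prop := ∀ (ξ : Cfg d) (K : Cfg d →L[ℝ] Cfg d),
  (∀ x y, inner ℝ (K x) y = inner ℝ x (K y)) → ∀ (Ω : F) (k l : Fin 9), k ≠ l → ∀ a : Fin d → ℝ,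
  vf S k l a ξ = 0 → (∀ x, K (vf S k l a x) = vf S k l a (K x)) →
  S.Skl k l Ω + ∑ C, (a C : ℂ) • S.cS C Ω = 0 → ∀ m L : ℝ, 0 < m → 0 < L → ∀ x,
    S.J k l (tv m L ξ K Ω) x + ∑ C, (a C : ℂ) • S.G C (tv m L ξ K Ω) x = 0

/-- **G21 GRat** scaling of Gaussian integrals. PROOF. Substitute `ω = 4ω'` (`qK ≥ 0`, `exp(-16q) ≤ exp(-q)`), dimension `9d`. -/
def GRatStmt (d : ℕ) : Prop := ∀ (ξ : Cfg d) (K : Cfg d →L[ℝ] Cfg d), (∀ x, 0 ≤ inner ℝ x (K x)) →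
  ∀ m L : ℝ, 0 < m → 0 < L → (∫ x, ph2 m L ξ K x ^ 2) ≤
    4 ^ (9 * d) * ∫ x, (if ‖om m ξ x‖ ≤ L / 2 then ph2 m L ξ K x ^ 2 else 0)

end S

/-! ## Part 5: averages over `SU(N)` -/

section M

variable {N d : ℕ} {F : Type w} [NormedAddCommGroup F] [InnerProductSpace ℂ F]

/-- **G22 Act** `SU(N)` acts by linear isometries, jointly continuously. PROOF: `adCoeff` is orthogonal and multiplicative. -/
def ActStmt (M : BFSS.Model N d F) : Prop :=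
  (∀ U V x, M.act (U * V) x = M.act U (M.act V x)) ∧ (∀ x, M.act 1 x = x) ∧
  (∀ U x y, M.act U (x + y) = M.act U x + M.act U y) ∧ (∀ U (c : ℝ) x, M.act U (c • x) = c • M.act U x) ∧
  (∀ U x, ‖M.act U x‖ = ‖x‖) ∧ (Continuous fun p : BFSS.SU N × Cfg d => M.act p.1 p.2) ∧
  ∀ S : Setup d F, Rep M S → ∀ U m x, S.Vm m (M.act U x) = S.Vm m x

/-- **G23 QAct** the supercharges, `J_{kl}` and `G_C` are covariant. PROOF. Chain rule, `S_rotates`, orthogonality of `adCoeff` and invariance of `f`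
(`f_{ABC}` is determined by commutators of `T`). -/
def QActStmt (M : BFSS.Model N d F) : Prop := ∀ S : Setup d F, Rep M S → ∀ (U : BFSS.SU N) (v : Cfg d → F),
  ContDiff ℝ ∞ v →
  (∀ (m : ℝ) (β : Fin 16) (x : Cfg d), S.Qm m β (fun y => M.S U (v (M.act U⁻¹ y))) x =
    M.S U (S.Qm m β v (M.act U⁻¹ x))) ∧
  (∀ (k l : Fin 9) (x : Cfg d), S.J k l (fun y => M.S U (v (M.act U⁻¹ y))) x =
    M.S U (S.J k l v (M.act U⁻¹ x)))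

/-- **G24 AvgD** averages of test functions. PROOF: G01 for `X = SU(N)`, `ρ(U) = act U⁻¹`, `s(U) = S(U)` (norm continuous, `F` finite
dimensional), compact support by `‖act U x‖ = ‖x‖`; `Q_β(avg v)(x) = ∫Q_β(ρ(U)v)(x)dU` from the derivative formula, then G23. -/
def AvgDStmt (M : BFSS.Model N d F) : Prop := ∀ S : Setup d F, Rep M S → ∀ v : Cfg d → F, Setup.Tst v →
  Setup.Tst (avg M v) ∧ (∀ m β x, S.Qm m β (avg M v) x = avg M (S.Qm m β v) x) ∧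
    ∀ k l x, S.J k l (avg M v) x = avg M (S.J k l v) x

/-- **G25 AvgC** averages are in the core. PROOF: left invariance of Haar measure: `avg v(act V x) = ∫S(U)v(act(U⁻¹V)x)dU`, `U = VU'`. -/
def AvgCStmt (M : BFSS.Model N d F) : Prop := ∀ v : Cfg d → F, Setup.Tst v →
  (Setup.Tst (avg M v) → M.IsCore (avg M v))

/-- **G26 AvgG** `avg (G_Cv) = 0`. PROOF. `f = G_Cv`, `w = avg f` is in the core (G25), so `G_Cw = 0` (`gaussLaw`).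
`‖w‖² = ∫⟨w(x),∫S(U)f(act U⁻¹x)dU⟩dx = ∫∫⟨S(U)⁻¹w(x),f(act U⁻¹x)⟩dx dU = ∫⟨w,f⟩ = ∫⟨w,G_Cv⟩ = ∫⟨G_Cw,v⟩ = 0` (`G_symm`; `w(act U y) = S(U)w(y)`,
`act U` preserves Lebesgue measure); `w` is continuous, so `w = 0`. -/
def AvgGStmt (M : BFSS.Model N d F) : Prop := ∀ S : Setup d F, Rep M S → ∀ v : Cfg d → F, Setup.Tst v →
  ∀ C x, avg M (S.G C v) x = 0

/-- **G27 AvgB** pointwise bounds for averages. PROOF. (1) `norm_integral_le_integral_norm`, `S` isometric. (2) If `φ(act U₀⁻¹x) ≠ 0` for some `U₀`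
(otherwise trivial), then for all `U` with `φ(act U⁻¹x) ≠ 0`: `Re⟨S(U₀)Ω,S(U)Ω⟩ = Re⟨Ω,S(U₀⁻¹U)Ω⟩ ≥ 1/2`, so `‖avg(φΩ)(x)‖ ≥ Re⟨S(U₀)Ω,avg(φΩ)(x)⟩ ≥ ½avs φ(x)`. -/
def AvgBStmt (M : BFSS.Model N d F) : Prop :=
  (∀ (f : Cfg d → F) (φ : Cfg d → ℝ) (B : ℝ), Continuous f → Measurable φ → (∀ x, ‖f x‖ ≤ φ x) → (∀ x, φ x ≤ B) →
    ∀ x, ‖avg M f x‖ ≤ avs M φ x) ∧
  (∀ (φ : Cfg d → ℝ) (Ω : F), Continuous φ → HasCompactSupport φ → (∀ x, 0 ≤ φ x) → ‖Ω‖ = 1 →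
    (∀ U x, φ x ≠ 0 → φ (M.act U x) ≠ 0 → 1 / 2 ≤ (inner ℂ Ω (M.S U Ω)).re) →
    ∀ x, 1 / 2 * avs M φ x ≤ ‖avg M (fun y => ((φ y : ℝ) : ℂ) • Ω) x‖)

/-- **G28 Dbl** doubling. PROOF (Fubini). `N_ρ(x) = μ{U : |Up-x| ≤ ρ}`; `∫_{B(p,R)}N_ρ(x)dx = ∫_U vol(B(Up,ρ) ∩ B(p,R))dU`. It is `≥ vol(B_ρ)·mu(R-ρ)`
(for `|Up-p| ≤ R-ρ` the ball `B(Up,ρ)` is inside) and `≤ vol(B_R)·mu(2ρ)` (`N_ρ(x) ≤ mu(2ρ)`: if `|U₀p-x| ≤ ρ` then `|Up-x| ≤ ρ` implies `|U₀⁻¹Up-p| ≤ 2ρ`, and left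
invariance). `ρ = r/8`, `R = 17r/8`: `mu(2r) ≤ 17^{9d}mu(r/4)`. Positivity: `{U : |Up-p| < r}` is open and nonempty. -/
def DblStmt (M : BFSS.Model N d F) : Prop := ∀ (p : Cfg d) (r : ℝ), 0 < r →
  0 < mu M p r ∧ mu M p (2 * r) ≤ 17 ^ (9 * d) * mu M p (r / 4)

/-- **G29 Rat** comparison of averages. PROOF. `p = mξ`, `r = 2L/√m` (so `‖ω‖ ≤ 2L` iff `|x-p| ≤ r`), `φ₂ = ph2`, `φ = ph`.
Invariance (`act` preserves Lebesgue measure, Fubini): `∫(avs φ₂)² = ∫φ₂·avs φ₂`, `∫(avs φ)² = ∫φ·avs φ`. For `|x-p| ≤ r`: `φ₂(act U⁻¹x) ≠ 0` implies `|act U⁻¹p - p| ≤ 2r`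
and `φ₂(act U⁻¹x) ≤ eφ₂(x)`, so `avs φ₂(x) ≤ e·mu(2r)φ₂(x)` (Haar measure is inversion invariant). For `|x-p| ≤ r/4`: if `|act U⁻¹p-p| ≤ r/4` then `|act U⁻¹x-p| ≤ r/2`,
`φ(act U⁻¹x) = φ₂(act U⁻¹x) ≥ e⁻¹φ₂(x)`, so `avs φ(x) ≥ e⁻¹mu(r/4)φ₂(x)`. So `∫(avs φ₂)² ≤ e·mu(2r)∫φ₂² ≤ e·17^{9d}mu(r/4)·4^{9d}∫_{|x-p| ≤ r/4}φ₂² ≤ e²68^{9d}∫(avs φ)²` (G21, G28). The
last integral is positive. -/
def RatStmt (M : BFSS.Model N d F) : Prop := ∀ (ξ : Cfg d) (K : Cfg d →L[ℝ] Cfg d),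
  (∀ x, 0 ≤ inner ℝ x (K x)) → ∀ m L : ℝ, 0 < m → 0 < L →
  (∀ U x, ‖om m ξ x‖ ≤ 2 * L → ‖om m ξ (M.act U x)‖ ≤ 2 * L →
    |qK m ξ K (M.act U x) - qK m ξ K x| ≤ 2) →
  Integrable (fun x => avs M (ph m L ξ K) x ^ 2) ∧ Integrable (fun x => avs M (ph2 m L ξ K) x ^ 2) ∧
  0 < (∫ x, avs M (ph m L ξ K) x ^ 2) ∧
  (∫ x, avs M (ph2 m L ξ K) x ^ 2) ≤ Real.exp 2 * 68 ^ (9 * d) * ∫ x, avs M (ph m L ξ K) x ^ 2

/-- **G30 NearCon** near constancy of the Gaussian along the group. PROOF. `y = act U x`, `ω(y) = Uω(x) + √m·m(Uξ-ξ)`. Both `ω(x), ω(y)` have norm `≤ 2L`, so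
`m^{3/2}|Uξ-ξ| ≤ 4L`. `V_1(Uξ) = 0` and `TayStmt`: `½hq ξ (Uξ-ξ) ≤ C|Uξ-ξ|⁴`, so `|K(Uξ-ξ)| ≤ C'|Uξ-ξ|²`, `m^{3/2}|K(Uξ-ξ)| ≤ C''L²m^{-3/2}`; so
`|⟨ω(y),Kω(y)⟩ - ⟨Uω(x),KUω(x)⟩| ≤ C'''L³m^{-3/2}`. Compactness of `SU(N)`: for every `ε > 0` there is `δ > 0` with `|⟨Uw,KUw⟩ - ⟨w,Kw⟩| ≤ ε|w|²` if `|Uξ-ξ| ≤ δ`
(if `Uξ = ξ` then `U⁻¹KU` is also `IsK ξ` as `hq ξ (Uw) = hq ξ w`, so `U` commutes with `K²`, hence with `K`: G02). `|Uξ-ξ| ≤ 4Lm^{-3/2} → 0`. -/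
def NearConStmt (M : BFSS.Model N d F) : Prop := ∀ S : Setup d F, Rep M S → ∀ ξ : Cfg d, S.Vm 1 ξ = 0 →
  ∀ K : Cfg d →L[ℝ] Cfg d, S.IsK ξ K → ∀ L : ℝ, 0 < L → ∃ m₀ : ℝ, 0 < m₀ ∧ ∀ m : ℝ, m₀ ≤ m →
  ∀ U x, ‖om m ξ x‖ ≤ 2 * L → ‖om m ξ (M.act U x)‖ ≤ 2 * L → |qK m ξ K (M.act U x) - qK m ξ K x| ≤ 2

/-- **G31 Half** PROOF: compactness of `SU(N)`, continuity of `U ↦ (act U ξ, ⟨Ω,S(U)Ω⟩)`. -/
def HalfStmt (M : BFSS.Model N d F) : Prop := ∀ (ξ : Cfg d) (Ω : F), ‖Ω‖ = 1 →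
  (∀ U, M.act U ξ = ξ → M.S U Ω = Ω) →
  ∃ δ : ℝ, 0 < δ ∧ ∀ U, ‖M.act U ξ - ξ‖ ≤ δ → 1 / 2 ≤ (inner ℂ Ω (M.S U Ω)).re

/-- **G32 ExpH** the action of `exp(iH)` on vectors killed by the generator. If `H = ∑h_AT_A`, `∑h_C𝒮_Cv = 0` and `V ∈ SU(N)`, `V = exp(iH)`, then `S(V)v = v`.
PROOF. `mg_diag`: `H = U diag(x) U*`, `mgS_conj`: `S(U·mgtor(x)·U⁻¹) = exp(Z(H))`, `Z(H) = mgz M H` is a multiple of `∑h_C𝒮_C` (`S.cS`, `Rep`; `tr(T_C[T_D,T_E]) = if_{DEC}`),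
`U·mgtor x·U⁻¹ = exp(iH) = V`. -/
def ExpHStmt (M : BFSS.Model N d F) : Prop := 0 < d → ∀ S : Setup d F, Rep M S → ∀ (h : Fin d → ℝ) (v : F),
  ∑ C, (h C : ℂ) • S.cS C v = 0 → ∀ V : BFSS.SU N,
  V.val = NormedSpace.exp (Complex.I • ∑ A, (h A : ℂ) • M.T A) → M.S V v = v

/-- **G33 Cen** the centre acts trivially. PROOF. `U = z·1`. `adCoeff U = 1`, so `S(U)` commutes with all `θ` and is a scalar `c` (`mg_schur`). Take `Ω₀` with `IsLow S 0 E Ω₀`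
(G11, `V_1(0) = 0`). By G14 with `ξ = 0`: `∑h_C𝒮_CΩ₀ = 0` for all `h`. `z^N = 1`, `z = e^{iφ}`, `Nφ = 2πk`; `U = exp(iH)` with the traceless diagonal
`H = diag(φ,…,φ,φ-2πk)`. G32: `cΩ₀ = S(U)Ω₀ = Ω₀`, `c = 1`. -/
def CenStmt (M : BFSS.Model N d F) : Prop := 0 < d → ∀ (U : BFSS.SU N) (z : ℂ),
  U.val = z • (1 : Matrix (Fin N) (Fin N) ℂ) → ∀ v, M.S U v = v

/-- **G34 Stab** the stabiliser of `ξ` fixes the vacuum. PROOF. `act U ξ = ξ` means that `U` commutes with `X_i = ∑ξ_i^AT_A` (all `i`). As in `mad_log`: `U = exp(iK)`,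
`K = cfc arg U` Hermitian, commuting with everything that commutes with `U` and `U*` (`Commute.cfc` or similar; or: `K` is a polynomial in `U`), in particular with
the `X_i`. `det U = 1`: `tr K = 2πk`; `H = K - (tr K/N)1 = ∑h_AT_A` commutes with `X_i`, i.e. `∑h_Cf_{CAB}ξ_i^A = 0`; `V = exp(iH) ∈ SU(N)`, `U = zV`, `z = e^{2πik/N}`.
G14, G32: `S(V)Ω = Ω`; G33: `S(z1) = 1`. -/
def StabStmt (M : BFSS.Model N d F) : Prop := 0 < d → ∀ S : Setup d F, Rep M S → ∀ ξ : Cfg d,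
  S.Vm 1 ξ = 0 → ∀ (E : ℝ) (Ω : F), IsLow S ξ E Ω → ∀ U, M.act U ξ = ξ → M.S U Ω = Ω

/-- **G35 Zer** zeros of `V_1` for all partitions, in different orbits. PROOF. From G05: `ξ_π(c3 k,A) = -2 Re tr(T_AJ^π_k)`, `0` on `I6`; `J^π_k` is traceless (a commutator), so
`∑ξ(c3 k,A)T_A = -2J_k` (`mad_complete`), `[X_i,X_j] = 4iJ_n = -2iX_n`, i.e. `F_{ij} = -2ξ_n`, and `SqStmt` gives `V_1(ξ_π) = 0`. `act U ξ_π = ξ_π'` gives `UJ^πU* = J^π'`. -/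
def ZerStmt (M : BFSS.Model N d F) : Prop := ∀ S : Setup d F, Rep M S →
  ∃ ξ : Nat.Partition N → Cfg d, (∀ π, S.Vm 1 (ξ π) = 0) ∧
    ∀ π π' (U : BFSS.SU N), M.act U (ξ π) = ξ π' → π = π'

/-- **G36 One** one low state for every zero. PROOF. `K` from `SqrStmt`, `(E,Ω)` from G11, G12; `u = avg M (tv m L ξ K Ω)`. `Inv`: G24, G25 + `gaussLaw`; `J_{kl}u = avg(J_{kl}tv)
= -∑a_Cavg(G_Ctv) = 0` (G15, G16, G17, G20, G26). `‖Q_βu(x)‖ ≤ √m(C/L)avs ph2(x)` (G19, G24, G27), `‖u(x)‖ ≥ ½avs ph(x)` (G27, G31, G34: if `ph(x) ≠ 0 ≠ ph(act U x)` then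
`|Uξ-ξ| ≤ 4Lm^{-3/2} ≤ δ`). G29, G30: `∑‖Q_βu‖² ≤ 16m(C/L)²·4e²68^{9d}‖u‖²`; choose `L` large, then `m₀`. Support: `u(x) ≠ 0` gives `U` with `ph(act U⁻¹x) ≠ 0`. -/
def OneStmt (M : BFSS.Model N d F) : Prop := 0 < d → ∀ S : Setup d F, Rep M S → ∀ ξ : Cfg d,
  S.Vm 1 ξ = 0 → ∀ ε : ℝ, 0 < ε → ∃ C m₀ : ℝ, 0 < m₀ ∧ ∀ m : ℝ, m₀ ≤ m → ∃ u : Cfg d → F, S.Inv u ∧
    0 < nsq u ∧ ∑ β, nsq (S.Qm m β u) ≤ ε * m * nsq u ∧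
    ∀ x, u x ≠ 0 → ∃ U, ‖x - m • M.act U ξ‖ ≤ C / Real.sqrt m

/-- **G37 Main** `c_N ≥ p(N)`. PROOF. `ThmBStmt` (`thmB_all`): enough to find one `m > 0` with `Low p(N) m (8m)`. `ξ_π` from G35, `u_π` from G36 with `ε = 1` for one large `m`. The orbits
`{act U ξ_π}` are compact and pairwise disjoint, at distance `≥ η > 0`; the support of `u_π` is within `C/√m` of `m·orbit`, and `2C/√m < mη` for `m` large, so the supports are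
disjoint; for `a ≠ 0`: `∑_β‖Q_β∑a_πu_π‖² = ∑|a_π|²∑_β‖Q_βu_π‖² ≤ m∑|a_π|²‖u_π‖² < 8m‖∑a_πu_π‖²` (`Q_β` is local: `Q_βu_π = 0` where `u_π` vanishes near; at points of the closure of
one support the other functions vanish in a neighbourhood). -/
def GStmt (M : BFSS.Model N d F) : Prop := 0 < d → ∀ S : Setup d F, Rep M S → ∀ m : ℝ, 0 < m →
  ∀ c : ℝ, 0 < c → S.Low (Fintype.card (Nat.Partition N)) m c

end M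

end Vale.Agent.P353.AN.G
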