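import Vale.Agent.P353.AN.G.Stmt
import Vale.Agent.P353.Z.U.Hes

set_option linter.all false

open MeasureTheory Filter Topology
open scoped ContDiff

namespace Vale.Agent.P353.AN.G

open Vale.Agent.P353.Z Vale.Agent.P353.Z.U
open Vale.Agent.P353.Z.Setup (c3)

variable {d : ℕ} {F : Type*} [NormedAddCommGroup F] [InnerProductSpace ℂ F]

/-! ### G15: rotations in a block are compensated by gauge transformations at a zero of the potential -/

theorem vfEx_aux (S : Setup d F) (ξ : Cfg d) (k l n : Fin 9) (s : ℝ) (hs : s * s = 1) (hkl : k ≠ l)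
    (h1 : ∀ B, S.FF B n k ξ = -2 * s * ξ (l, B)) (h2 : ∀ B, S.FF B n l ξ = 2 * s * ξ (k, B))
    (h3 : ∀ i, i ≠ k → i ≠ l → ∀ B, S.FF B n i ξ = 0) :
    ∃ a : Fin d → ℝ, vf S k l a ξ = 0 := by
  refine ⟨fun C => -s * (S.κ / 2) * ξ (n, C), ?_⟩
  ext p
  obtain ⟨i, B⟩ := p
  have key : ∑ C, ∑ A, (-s * (S.κ / 2) * ξ (n, C)) * S.f C A B * ξ (i, A) = -s / 2 * S.FF B n i ξ := by
    unfold Setup.FF
    rw [← mul_assoc, Finset.mul_sum]
    refine Finset.sum_congr rfl fun C _ => ?_
    rw [Finset.mul_sum]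
    refine Finset.sum_congr rfl fun A _ => ?_
    have : S.f C A B = S.f B C A := by rw [S.f_cyc C A B, S.f_cyc A B C]
    rw [this]
    ring
  have e0 : (vf S k l (fun C => -s * (S.κ / 2) * ξ (n, C)) ξ) (i, B) =
      (if i = l then ξ (k, B) else 0) - (if i = k then ξ (l, B) else 0) + -s / 2 * S.FF B n i ξ := by
    rw [← key]
    rfl
  rw [e0]
  by_cases hik : i = k
  · subst hik
    rw [if_neg hkl, if_pos rfl, h1]
    have : -s / 2 * (-2 * s * ξ (l, B)) = (s * s) * ξ (l, B) := by ring
    rw [this, hs]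
    simp
  · by_cases hil : i = l
    · subst hil
      rw [if_pos rfl, if_neg hik, h2]
      have : -s / 2 * (2 * s * ξ (k, B)) = -((s * s) * ξ (k, B)) := by ring
      rw [this, hs]
      simp
    · rw [if_neg hil, if_neg hik, h3 i hik hil]
      simp

/-- **G15** -/
theorem vfEx (S : Setup d F) : VfStmt S := by
  intro ξ hξ k l hkl
  obtain ⟨z1, z2, z3⟩ := hes_zero S hξ
  obtain ⟨hne, hiff⟩ := hkl
  have hd : ∀ i B, S.FF B i i ξ = 0 := fun i B => by linarith [hes_FF_swap S B i i ξ]
  have c0 : ∀ B, S.FF B 1 2 ξ = -2 * ξ (0, B) := fun B => by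
    have := z1 0 B
    unfold Setup.GG at this
    change S.FF B 1 2 ξ + 2 * 1 * ξ (0, B) = 0 at this
    linarith
  have c1 : ∀ B, S.FF B 2 0 ξ = -2 * ξ (1, B) := fun B => by
    have := z1 1 B
    unfold Setup.GG at this
    change S.FF B 2 0 ξ + 2 * 1 * ξ (1, B) = 0 at this
    linarith
  have c2 : ∀ B, S.FF B 0 1 ξ = -2 * ξ (2, B) := fun B => by
    have := z1 2 B
    unfold Setup.GG at this
    change S.FF B 0 1 ξ + 2 * 1 * ξ (2, B) = 0 at this
    linarith
  have d0 : ∀ B, S.FF B 2 1 ξ = 2 * ξ (0, B) := fun B => by rw [hes_FF_swap, c0]; ring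
  have d1 : ∀ B, S.FF B 0 2 ξ = 2 * ξ (1, B) := fun B => by rw [hes_FF_swap, c1]; ring
  have d2 : ∀ B, S.FF B 1 0 ξ = 2 * ξ (2, B) := fun B => by rw [hes_FF_swap, c2]; ring
  by_cases hk : k.val < 3
  · have hl : l.val < 3 := hiff.1 hk
    have hk' : k = 0 ∨ k = 1 ∨ k = 2 := by
      have : k.val = 0 ∨ k.val = 1 ∨ k.val = 2 := by omega
      rcases this with h | h | h
      · left; ext; exact h
      · right; left; ext; exact h
      · right; right; ext; exact h
    have hl' : l = 0 ∨ l = 1 ∨ l = 2 := by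
      have : l.val = 0 ∨ l.val = 1 ∨ l.val = 2 := by omega
      rcases this with h | h | h
      · left; ext; exact h
      · right; left; ext; exact h
      · right; right; ext; exact h
    have h3 : ∀ n : Fin 9, n.val < 3 → k ≠ n → l ≠ n → ∀ i, i ≠ k → i ≠ l → ∀ B, S.FF B n i ξ = 0 := by
      intro n hn hkn hln i hik hil B
      by_cases hi : i.val < 3
      · have : i = n := by
          have a1 : i.val ≠ k.val := fun h => hik (Fin.ext h)
          have a2 : i.val ≠ l.val := fun h => hil (Fin.ext h)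
          have a3 : k.val ≠ n.val := fun h => hkn (Fin.ext h)
          have a4 : l.val ≠ n.val := fun h => hln (Fin.ext h)
          have a5 : k.val ≠ l.val := fun h => hne (Fin.ext h)
          ext
          omega
        rw [this]
        exact hd n B
      · exact z3 n i B (fun h => hi h.2)
    have p1 : (1 : ℝ) * 1 = 1 := by norm_num
    have p2 : (-1 : ℝ) * (-1) = 1 := by norm_num
    rcases hk' with rfl | rfl | rfl <;> rcases hl' with rfl | rfl | rfl
    · exact absurd rfl hne
    · exact vfEx_aux S ξ 0 1 2 1 p1 hne (fun B => by rw [c1]; ring) (fun B => by rw [d0]; ring)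
        (h3 2 (by decide) (by decide) (by decide))
    · exact vfEx_aux S ξ 0 2 1 (-1) p2 hne (fun B => by rw [d2]; ring) (fun B => by rw [c0]; ring)
        (h3 1 (by decide) (by decide) (by decide))
    · exact vfEx_aux S ξ 1 0 2 (-1) p2 hne (fun B => by rw [d0]; ring) (fun B => by rw [c1]; ring)
        (h3 2 (by decide) (by decide) (by decide))
    · exact absurd rfl hne
    · exact vfEx_aux S ξ 1 2 0 1 p1 hne (fun B => by rw [c2]; ring) (fun B => by rw [d1]; ring)
        (h3 0 (by decide) (by decide) (by decide))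
    · exact vfEx_aux S ξ 2 0 1 1 p1 hne (fun B => by rw [c0]; ring) (fun B => by rw [d2]; ring)
        (h3 1 (by decide) (by decide) (by decide))
    · exact vfEx_aux S ξ 2 1 0 (-1) p2 hne (fun B => by rw [d1]; ring) (fun B => by rw [c2]; ring)
        (h3 0 (by decide) (by decide) (by decide))
    · exact absurd rfl hne
  · have hl : ¬ l.val < 3 := fun h => hk (hiff.2 h)
    refine ⟨0, ?_⟩
    ext p
    obtain ⟨i, B⟩ := p
    have e0 : (vf S k l 0 ξ) (i, B) =
        (if i = l then ξ (k, B) else 0) - (if i = k then ξ (l, B) else 0) +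
          ∑ C, ∑ A, (0 : Fin d → ℝ) C * S.f C A B * ξ (i, A) := rfl
    rw [e0, z2 k B hk, z2 l B hl]
    simp

end Vale.Agent.P353.AN.G
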